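import Crest.Agent.R40.AAlg1

/-! Row 40 A: algebra of `E` and `K`, part 2. -/

set_option autoImplicit false
open MeasureTheory ProbabilityTheory Filter Topology
open scoped ComplexConjugate

noncomputable section
namespace Crest.Agent.R40.A

/-- complex conjugation on `E` -/
def aalg2_conj (z : E) : E :=
  ⟨conj (z : ℂ), (mem_algebraicClosure_iff (F := ℚ) (E := ℂ)).2
    (((mem_algebraicClosure_iff (F := ℚ) (E := ℂ)).1 z.2).algHom
      (Complex.conjAe.restrictScalars ℚ).toAlgHom)⟩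

lemma aalg2_conj_coe (z : E) : ((aalg2_conj z : E) : ℂ) = conj (z : ℂ) := rfl

/-- the imaginary unit in `E` -/
def aalg2_I : E :=
  ⟨Complex.I, (mem_algebraicClosure_iff (F := ℚ) (E := ℂ)).2
    (IsAlgebraic.of_pow (n := 2) (by norm_num) (by
      rw [Complex.I_sq]; exact isAlgebraic_one.neg))⟩

lemma aalg2_I_coe : ((aalg2_I : E) : ℂ) = Complex.I := rfl

lemma aalg2_root (x : E) {n : ℕ} (hn : 1 ≤ n) : ∃ ρ : E, ρ ^ n = x := by
  obtain ⟨z, hz⟩ := IsAlgClosed.exists_pow_nat_eq (x : ℂ) (n := n) hn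
  refine ⟨⟨z, (mem_algebraicClosure_iff (F := ℚ) (E := ℂ)).2
    (IsAlgebraic.of_pow (n := n) hn ?_)⟩, Subtype.ext ?_⟩
  · rw [hz]; exact (mem_algebraicClosure_iff (F := ℚ) (E := ℂ)).1 x.2
  · simpa using hz

lemma aalg2_norm_flip (u ρ : ℂ) (hu : ‖u‖ = 1) : ‖1 - conj ρ * u‖ = ‖u - ρ‖ := by
  have h1 : u * conj u = 1 := by
    rw [Complex.mul_conj, Complex.normSq_eq_norm_sq, hu]; simp
  have h2 : 1 - conj ρ * u = u * conj (u - ρ) := by
    rw [map_sub, mul_sub, h1]; ring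
  rw [h2, norm_mul, hu, one_mul, Complex.norm_conj]

/-- Root flip: with `ρ ^ n = a / b`, `(b uⁿ - a)(1 - conj ρ · u)/(u - ρ)` has coefficients
`b ρ^(n-1)`, `b ρ^(n-1-j) (1 - ‖ρ‖²)`, `-b conj ρ`, all non-zero. -/
lemma flip_coeffs {a b : E} (ha : a ≠ 0) (hb : b ≠ 0) (hab : sz a ≠ sz b) (n : ℕ) (hn : 1 ≤ n) :
    ∃ r : Fin (n + 1) → E, (∀ j, r j ≠ 0) ∧
      ∀ u : K, sz (∑ j : Fin (n + 1), kv u ^ (j : ℕ) * r j) = sz (kv u ^ n * b - a) := by
  obtain ⟨ρ, hρ⟩ := aalg2_root (a / b) hn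
  have hρ0 : ρ ≠ 0 := by
    rintro rfl
    rw [zero_pow (by omega)] at hρ
    exact div_ne_zero ha hb hρ.symm
  set σ := aalg2_conj ρ with hσ
  have hσ0 : σ ≠ 0 := by
    intro h
    have : ((σ : E) : ℂ) = 0 := by rw [h]; rfl
    rw [hσ, aalg2_conj_coe, map_eq_zero] at this
    exact hρ0 (Subtype.ext this)
  have hσρ : 1 - σ * ρ ≠ 0 := by
    intro h
    have h1 : ((σ * ρ : E) : ℂ) = 1 := by rw [← sub_eq_zero.1 h]; rfl
    have h2 : ‖(ρ : ℂ)‖ ^ 2 = 1 := by
      have := congrArg norm h1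
      simpa [hσ, aalg2_conj_coe, sq] using this
    have h3 : ‖(ρ : ℂ)‖ = 1 := by
      have := norm_nonneg (ρ : ℂ)
      nlinarith
    have h4 : a = ρ ^ n * b := by rw [hρ]; field_simp
    apply hab
    rw [h4]
    simp [sz, h3]
  set R : ℕ → E := fun j =>
    b * ((if j < n then ρ ^ (n - 1 - j) else 0) - (if j = 0 then 0 else σ * ρ ^ (n - j))) with hR
  refine ⟨fun j => R j, fun j => ?_, fun u => ?_⟩
  · refine mul_ne_zero hb ?_
    have hj := j.2
    by_cases h0 : (j : ℕ) = 0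
    · rw [if_pos (by omega), if_pos h0, sub_zero]; exact pow_ne_zero _ hρ0
    · rw [if_neg h0]
      by_cases h1 : (j : ℕ) < n
      · rw [if_pos h1]
        have : n - j = (n - 1 - j) + 1 := by omega
        rw [this, pow_succ]
        have e : ρ ^ (n - 1 - j) - σ * (ρ ^ (n - 1 - j) * ρ) = ρ ^ (n - 1 - j) * (1 - σ * ρ) := by
          ring
        rw [e]
        exact mul_ne_zero (pow_ne_zero _ hρ0) hσρ
      · rw [if_neg h1, zero_sub, neg_ne_zero]
        exact mul_ne_zero hσ0 (pow_ne_zero _ hρ0)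
  · set w := kv u with hw
    set S := ∑ j ∈ Finset.range n, w ^ j * ρ ^ (n - 1 - j) with hS
    have e1 : ∑ j : Fin (n + 1), w ^ (j : ℕ) * R j = b * (1 - σ * w) * S := by
      rw [Fin.sum_univ_eq_sum_range (fun j => w ^ j * R j) (n + 1)]
      have a1 : ∑ j ∈ Finset.range (n + 1), w ^ j * (if j < n then ρ ^ (n - 1 - j) else 0) = S := by
        rw [Finset.sum_range_succ, if_neg (lt_irrefl n), mul_zero, add_zero]
        exact Finset.sum_congr rfl fun j hj => by rw [if_pos (Finset.mem_range.1 hj)]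
      have a2 : ∑ j ∈ Finset.range (n + 1), w ^ j * (if j = 0 then 0 else σ * ρ ^ (n - j))
          = σ * w * S := by
        rw [Finset.sum_range_succ', if_pos rfl, mul_zero, add_zero, hS, Finset.mul_sum]
        refine Finset.sum_congr rfl fun j _ => ?_
        rw [if_neg (Nat.succ_ne_zero j)]
        have : n - (j + 1) = n - 1 - j := by omega
        rw [this]; ring
      calc ∑ j ∈ Finset.range (n + 1), w ^ j * R j
          = b * (∑ j ∈ Finset.range (n + 1), w ^ j * (if j < n then ρ ^ (n - 1 - j) else 0)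
            - ∑ j ∈ Finset.range (n + 1), w ^ j * (if j = 0 then 0 else σ * ρ ^ (n - j))) := by
            rw [← Finset.sum_sub_distrib, Finset.mul_sum]
            refine Finset.sum_congr rfl fun j _ => ?_
            simp only [hR]; ring
        _ = b * (1 - σ * w) * S := by rw [a1, a2]; ring
    have e2 : w ^ n * b - a = b * (w - ρ) * S := by
      have h4 : a = ρ ^ n * b := by rw [hρ]; field_simp
      have := geom_sum₂_mul w ρ n
      rw [← hS] at this
      rw [h4]; linear_combination (-b) * this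
    rw [e1, e2]
    have hw1 : ‖(w : ℂ)‖ = 1 := sz_kv u
    have e3 : ‖((1 - σ * w : E) : ℂ)‖ = ‖((w - ρ : E) : ℂ)‖ := by
      have := aalg2_norm_flip (w : ℂ) (ρ : ℂ) hw1
      simpa [hσ, aalg2_conj_coe] using this
    simp only [sz, MulMemClass.coe_mul, norm_mul, e3]

/-- rounding to a grid of Gaussian rationals, with measurable fibres -/
lemma exists_grid (δ : ℝ) (hδ : 0 < δ) :
    ∃ r : ℂ → E, (∀ z : E, MeasurableSet (r ⁻¹' {z})) ∧ ∀ x, ‖x - (r x : ℂ)‖ < δ := by
  obtain ⟨N, hN⟩ := exists_nat_gt (2 / δ)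
  have hN0 : (0 : ℝ) < N := lt_trans (by positivity) hN
  set φ : ℤ × ℤ → E := fun p => ((p.1 : E) + (p.2 : E) * aalg2_I) / (N : E) with hφ
  set g : ℂ → ℤ × ℤ := fun x => (⌊N * x.re⌋, ⌊N * x.im⌋) with hg
  have hgm : Measurable g :=
    (Int.measurable_floor.comp (Complex.measurable_re.const_mul _)).prodMk
      (Int.measurable_floor.comp (Complex.measurable_im.const_mul _))
  refine ⟨fun x => φ (g x), fun z => hgm ((Set.to_countable (φ ⁻¹' {z})).measurableSet),
    fun x => ?_⟩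
  have hNc : (N : ℂ) ≠ 0 := by exact_mod_cast hN0.ne'
  have e : x - ((φ (g x) : E) : ℂ)
      = ((Int.fract (N * x.re) : ℝ) + (Int.fract (N * x.im) : ℝ) * Complex.I) / N := by
    have : ((φ (g x) : E) : ℂ) = ((⌊N * x.re⌋ : ℂ) + (⌊N * x.im⌋ : ℂ) * Complex.I) / N := by
      simp [hφ, hg, aalg2_I_coe]
    rw [this]
    simp only [Int.fract]
    push_cast
    field_simp
    linear_combination (-(N : ℂ)) * Complex.re_add_im x
  rw [e, norm_div, Complex.norm_natCast, div_lt_iff₀ hN0]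
  have b1 : ‖((Int.fract (N * x.re) : ℝ) : ℂ)‖ < 1 := by
    rw [Complex.norm_real, Real.norm_eq_abs, abs_of_nonneg (Int.fract_nonneg _)]
    exact Int.fract_lt_one _
  have b2 : ‖((Int.fract (N * x.im) : ℝ) : ℂ) * Complex.I‖ < 1 := by
    rw [norm_mul, Complex.norm_I, mul_one, Complex.norm_real, Real.norm_eq_abs,
      abs_of_nonneg (Int.fract_nonneg _)]
    exact Int.fract_lt_one _
  have b3 := norm_add_le ((Int.fract (N * x.re) : ℝ) : ℂ)
    (((Int.fract (N * x.im) : ℝ) : ℂ) * Complex.I)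
  rw [div_lt_iff₀ hδ] at hN
  linarith

lemma K_dense (u : ℂ) (hu : ‖u‖ = 1) :
    u ∈ closure (Set.range fun v : K => ((kv v : E) : ℂ)) := by
  obtain ⟨w, hw⟩ := IsAlgClosed.exists_pow_nat_eq u (n := 2) (by norm_num)
  have hw1 : ‖w‖ = 1 := by
    have h : ‖w‖ ^ 2 = 1 := by rw [← norm_pow, hw, hu]
    have := norm_nonneg w
    nlinarith
  have hw0 : w ≠ 0 := by rintro rfl; simp at hw1
  have hc0 : conj w ≠ 0 := by simpa using hw0
  set S : Set ℂ := {z | ∃ e : E, e ≠ 0 ∧ (e : ℂ) = z} with hS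
  have hcl : w ∈ closure S := by
    rw [Metric.mem_closure_iff]
    intro ε hε
    obtain ⟨r, -, hr⟩ := exists_grid (min ε 1) (lt_min hε one_pos)
    refine ⟨r w, ⟨r w, fun h => ?_, rfl⟩, ?_⟩
    · have := (hr w).trans_le (min_le_right _ _)
      rw [h] at this
      simp [hw1] at this
    · rw [dist_eq_norm]; exact (hr w).trans_le (min_le_left _ _)
  have hcont : ContinuousWithinAt (fun z : ℂ => z / conj z) S w :=
    (continuousAt_id.div Complex.continuous_conj.continuousAt hc0).continuousWithinAt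
  have h1 := hcont.mem_closure_image hcl
  have h2 : w / conj w = u := by
    have : w * conj w = 1 := by
      rw [Complex.mul_conj, Complex.normSq_eq_norm_sq, hw1]; simp
    rw [div_eq_iff hc0, ← hw]
    linear_combination (-w) * this
  rw [h2] at h1
  refine closure_mono ?_ h1
  rintro _ ⟨_, ⟨e, he, rfl⟩, rfl⟩
  have he' : (e : ℂ) ≠ 0 := fun h => he (Subtype.ext h)
  obtain ⟨v, hv⟩ := exists_kv (z := e / aalg2_conj e) (by
    simp [sz, aalg2_conj_coe, he'])
  exact ⟨v, by simp [hv, aalg2_conj_coe]⟩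

lemma exists_small (δ : ℝ) (hδ : 0 < δ) : ∃ r : E, r ≠ 0 ∧ sz r < δ := by
  obtain ⟨N, hN⟩ := exists_nat_one_div_lt hδ
  refine ⟨1 / ((N + 1 : ℕ) : E), one_div_ne_zero (Nat.cast_ne_zero.2 (Nat.succ_ne_zero N)), ?_⟩
  have : (((1 / ((N + 1 : ℕ) : E) : E)) : ℂ) = 1 / ((N + 1 : ℕ) : ℂ) := by simp
  rw [sz, this, norm_div, norm_one, Complex.norm_natCast]
  exact_mod_cast hN

end Crest.Agent.R40.A
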