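import Crest.Agent.R40.ADefs

/-! Row 40 A: algebra of `E` and `K`, part 1. -/

set_option autoImplicit false
open MeasureTheory ProbabilityTheory Filter Topology
open scoped ComplexConjugate

noncomputable section
namespace Crest.Agent.R40.A

lemma kv_zpow (u : K) (n : ℤ) : kv (u ^ n) = kv u ^ n := by
  rw [kv, kv, Subgroup.coe_zpow, Units.val_zpow_eq_zpow_val]

lemma kv_ne_zero (u : K) : kv u ≠ 0 := by
  exact Units.ne_zero _

lemma kv_injective : Function.Injective kv := by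
  exact fun _ _ h => Subtype.ext (Units.ext h)

/-- every algebraic number of modulus one is in `K` -/
lemma exists_kv {z : E} (hz : sz z = 1) : ∃ u : K, kv u = z := by
  have h0 : z ≠ 0 := by
    rintro rfl
    simp [sz] at hz
  exact ⟨⟨Units.mk0 z h0, hz⟩, rfl⟩

lemma aalg1_pow_surj {n : ℕ} (hn : 0 < n) (u : K) : ∃ v : K, v ^ n = u := by
  have : IsAlgClosed E := (algebraicClosure.isAlgClosure ℚ ℂ).isAlgClosed
  obtain ⟨z, hz⟩ := IsAlgClosed.exists_pow_nat_eq (kv u) hn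
  have h1 : sz z ^ n = 1 := by
    rw [← sz_kv u, ← hz, sz, sz, ← norm_pow]
    rfl
  obtain ⟨v, rfl⟩ := exists_kv ((pow_eq_one_iff_of_nonneg (norm_nonneg _) hn.ne').1 h1)
  refine ⟨v, kv_injective ?_⟩
  rw [← hz, ← zpow_natCast, kv_zpow, zpow_natCast]

instance : Infinite K := by
  rw [← not_finite_iff_infinite]
  intro _
  obtain ⟨u, hu⟩ := exists_kv (z := -1) (by simp [sz])
  obtain ⟨v, hv⟩ := aalg1_pow_surj (Nat.card_pos (α := K)) u
  rw [← hv, pow_card_eq_one', kv_one] at hu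
  norm_num at hu

/-- `E` is algebraically closed, so powers are onto on `K` -/
lemma zpow_surj {a : ℤ} (ha : a ≠ 0) : Function.Surjective (fun u : K => u ^ a) := by
  intro u
  obtain ⟨v, hv⟩ := aalg1_pow_surj (Int.natAbs_pos.2 ha) u
  rcases Int.natAbs_eq a with h | h
  · exact ⟨v, by simp only; rw [h, zpow_natCast, hv]⟩
  · exact ⟨v⁻¹, by simp only; rw [h, inv_zpow', neg_neg, zpow_natCast, hv]⟩

lemma radial {x y : E} (h : sz x = sz y) : ∃ u : K, x = kv u * y := by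
  by_cases hy : y = 0
  · subst hy
    refine ⟨1, ?_⟩
    have : (x : ℂ) = 0 := by simpa [sz] using h
    rw [mul_zero]
    exact Subtype.ext this
  · have hy' : sz y ≠ 0 := norm_ne_zero_iff.2 fun h0 => hy (Subtype.ext h0)
    obtain ⟨u, hu⟩ := exists_kv (z := x / y) (by
      rw [← div_self hy', ← h]
      simp [sz, h])
    exact ⟨u, by rw [hu, div_mul_cancel₀ _ hy]⟩

lemma aalg1_mem_of_sq {z : ℂ} (h : z ^ 2 ∈ algebraicClosure ℚ ℂ) : z ∈ algebraicClosure ℚ ℂ :=
  mem_algebraicClosure_iff.2 (IsAlgebraic.of_pow two_pos (mem_algebraicClosure_iff.1 h))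

lemma aalg1_norm_mem (t : E) : ((sz t : ℝ) : ℂ) ∈ algebraicClosure ℚ ℂ := by
  refine aalg1_mem_of_sq ?_
  rw [← Complex.mul_conj']
  exact mul_mem t.2 (mem_algebraicClosure_iff.2
    ((mem_algebraicClosure_iff.1 t.2).algHom (starRingEnd ℂ).toRatAlgHom))

/-- `K + K` is the disc of radius two (use `conj`, `‖t‖` and `√(1 - ‖t‖²/4)` are algebraic) -/
lemma two_sum {x r : E} (hr : r ≠ 0) (h : sz x ≤ 2 * sz r) :
    ∃ u v : K, x = kv u * r + kv v * r := by
  have hr' : 0 < sz r := norm_pos_iff.2 fun h0 => hr (Subtype.ext h0)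
  set c : ℝ := sz (x / r) / 2 with hc
  have hc0 : 0 ≤ c := by positivity
  have hc1 : c ≤ 1 := by
    have : sz (x / r) = sz x / sz r := by simp [sz]
    rw [hc, this, div_le_one two_pos, div_le_iff₀ hr']
    exact h
  set s : ℝ := Real.sqrt (1 - c ^ 2) with hs
  have hs2 : s ^ 2 = 1 - c ^ 2 := Real.sq_sqrt (by nlinarith)
  have mc : (c : ℂ) ∈ algebraicClosure ℚ ℂ := by
    rw [hc, Complex.ofReal_div]
    exact div_mem (aalg1_norm_mem _) (by simp)
  have ms : (s : ℂ) * Complex.I ∈ algebraicClosure ℚ ℂ := by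
    refine aalg1_mem_of_sq ?_
    rw [mul_pow, Complex.I_sq, ← Complex.ofReal_pow, hs2]
    push_cast
    exact mul_mem (sub_mem (one_mem _) (pow_mem mc 2)) (neg_mem (one_mem _))
  have n1 : ∀ σ : ℝ, σ ^ 2 = 1 - c ^ 2 → ‖(c : ℂ) + σ * Complex.I‖ = 1 := fun σ hσ => by
    rw [Complex.norm_add_mul_I, hσ, add_sub_cancel, Real.sqrt_one]
  obtain ⟨u, hu⟩ := exists_kv (z := ⟨c, mc⟩ + ⟨_, ms⟩) (n1 s hs2)
  obtain ⟨v, hv⟩ := exists_kv (z := ⟨c, mc⟩ - ⟨_, ms⟩) (by
    have := n1 (-s) (by rw [neg_sq, hs2])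
    rw [Complex.ofReal_neg, neg_mul, ← sub_eq_add_neg] at this
    exact this)
  obtain ⟨w, hw⟩ := radial (x := x / r) (y := ⟨c, mc⟩ + ⟨c, mc⟩) (by
    change _ = ‖(c : ℂ) + c‖
    rw [← Complex.ofReal_add, Complex.norm_real, Real.norm_of_nonneg (by positivity), hc,
      add_halves])
  refine ⟨w * u, w * v, ?_⟩
  rw [kv_mul, kv_mul, hu, hv, ← div_mul_cancel₀ x hr, hw]
  ring

lemma fiber_finite {r : E} (hr : r ≠ 0) (t : ℝ) : {u : K | sz (r + kv u * r) = t}.Finite := by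
  have hr' : (r : ℂ) ≠ 0 := fun h0 => hr (Subtype.ext h0)
  set c : ℂ := ((t / sz r : ℝ) : ℂ) ^ 2 with hc
  have hp : (Polynomial.X ^ 2 + Polynomial.C (2 - c) * Polynomial.X + Polynomial.C 1 :
      Polynomial ℂ) ≠ 0 := fun h0 => by
    simpa using congrArg (Polynomial.eval 0) h0
  refine ((Polynomial.finite_setOfPred_isRoot hp).preimage (f := fun u : K => (kv u : ℂ))
    (Subtype.val_injective.comp kv_injective).injOn).subset fun u hu => ?_
  have h1 : ‖(1 + kv u : ℂ)‖ = t / sz r := by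
    rw [eq_div_iff (norm_ne_zero_iff.2 hr'), ← norm_mul, add_mul, one_mul]
    exact hu
  have h2 := Complex.mul_conj' (1 + kv u : ℂ)
  have h3 := Complex.mul_conj' (kv u : ℂ)
  have h4 : ‖(kv u : ℂ)‖ = 1 := sz_kv u
  rw [h1, ← hc, map_add, map_one] at h2
  rw [h4] at h3
  simp only [Set.mem_preimage, Set.mem_ofPred_eq, Polynomial.IsRoot.def, Polynomial.eval_add,
    Polynomial.eval_pow, Polynomial.eval_X, Polynomial.eval_mul, Polynomial.eval_C]
  push_cast at h3
  linear_combination (kv u : ℂ) * h2 - (1 + kv u : ℂ) * h3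

end Crest.Agent.R40.A
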