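import Crest.Agent.R40.AAlg

/-! Row 40 A: measurable realisation. -/

set_option autoImplicit false
open MeasureTheory ProbabilityTheory Filter Topology
open scoped ComplexConjugate

noncomputable section
namespace Crest.Agent.R40.A

lemma areal_tau (a b : E) (ω : Om) : tau a (tau b ω) = tau (a + b) ω := by
  funext x
  simp only [tau, add_assoc]

/-- the tolerances -/
def areal_eps (k : ℕ) : ℝ := (1 / 2) ^ k / 20

lemma areal_eps_pos (k : ℕ) : 0 < areal_eps k := by rw [areal_eps]; positivity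

lemma areal_eps_succ (k : ℕ) : areal_eps (k + 1) = areal_eps k / 2 := by
  rw [areal_eps, areal_eps]; ring

lemma areal_eps_le (k : ℕ) : areal_eps k ≤ 1 / 20 := by
  rw [areal_eps]
  have : (1 / 2 : ℝ) ^ k ≤ 1 := pow_le_one₀ (by norm_num) (by norm_num)
  linarith

lemma areal_tele {v : ℕ → ℝ} {m : ℕ} (h : ∀ k ≥ m, |v (k + 1) - v k| < areal_eps k) :
    ∀ k ≥ m, v m - 1 / 10 ≤ v k := by
  have key : ∀ k ≥ m, v m - 2 * areal_eps m + 2 * areal_eps k ≤ v k := by
    intro k hk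
    induction k, hk using Nat.le_induction with
    | base => linarith
    | succ k hk ih =>
      have := (abs_lt.1 (h k hk)).1
      rw [areal_eps_succ]
      linarith
  intro k hk
  have := key k hk
  have := areal_eps_le m
  have := areal_eps_pos k
  linarith

/-- Borel–Cantelli -/
lemma areal_bc {P : Measure Om} (hP : InvCol P) {g : Fin 5 → Om → ℝ} (hg : Soft P g) :
    ∃ δ : ℕ → ℝ, (∀ k, 0 < δ k) ∧ ∀ a b : ℕ → E, (∀ k, sz (a k - b k) < δ k) → ∀ i,
      ∀ᵐ ω ∂P, ∀ᶠ k in atTop, |g i (tau (a k) ω) - g i (tau (b k) ω)| < areal_eps k := by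
  have := hP.prob
  have h1 : ∀ k : ℕ, ∃ δ > 0, ∀ i z, sz z < δ →
      ∫ ω, (g i (tau z ω) - g i ω) ^ 2 ∂P ≤ areal_eps k ^ 2 * (1 / 2) ^ k := fun k => by
    have hk := areal_eps_pos k
    choose d hd hd' using fun i => hg.cont i (areal_eps k ^ 2 * (1 / 2) ^ k) (by positivity)
    obtain ⟨j, hj⟩ := Finite.exists_min d
    exact ⟨d j, hd j, fun i z hz => hd' i z (hz.trans_le (hj i))⟩
  choose δ hδ hδ' using h1
  refine ⟨δ, hδ, fun a b hab i => ?_⟩
  have hB : ∀ k, P {ω | areal_eps k ≤ |g i (tau (a k) ω) - g i (tau (b k) ω)|} ≤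
      ENNReal.ofReal ((1 / 2) ^ k) := fun k => by
    have hk := areal_eps_pos k
    have hm : Measurable fun ω => (g i (tau (a k - b k) ω) - g i ω) ^ 2 :=
      (((hg.meas i).comp (hP.tau _).measurable).sub (hg.meas i)).pow_const 2
    have hi : Integrable (fun ω => (g i (tau (a k - b k) ω) - g i ω) ^ 2) P := by
      refine Integrable.of_bound hm.aestronglyMeasurable 1 (ae_of_all _ fun ω => ?_)
      rw [Real.norm_of_nonneg (sq_nonneg _), sq_le_one_iff_abs_le_one, abs_le]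
      have := hg.nonneg i ω
      have := hg.le_one i ω
      have := hg.nonneg i (tau (a k - b k) ω)
      have := hg.le_one i (tau (a k - b k) ω)
      constructor <;> linarith
    have h2 := (mul_meas_ge_le_integral_of_nonneg (ae_of_all _ fun ω => sq_nonneg _) hi
      (areal_eps k ^ 2)).trans (hδ' k i _ (hab k))
    have h3 := le_of_mul_le_mul_left h2 (by positivity)
    have h4 : {ω | areal_eps k ≤ |g i (tau (a k) ω) - g i (tau (b k) ω)|} = tau (b k) ⁻¹'
        {ω | areal_eps k ^ 2 ≤ (g i (tau (a k - b k) ω) - g i ω) ^ 2} := by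
      ext ω
      simp only [Set.mem_ofPred_eq, Set.mem_preimage, areal_tau, sub_add_cancel]
      rw [sq_le_sq, abs_of_pos hk]
    rw [h4, (hP.tau _).measure_preimage
      (measurableSet_le measurable_const hm).nullMeasurableSet, ← ofReal_measureReal]
    exact ENNReal.ofReal_le_ofReal h3
  have hs : ∑' k, P {ω | areal_eps k ≤ |g i (tau (a k) ω) - g i (tau (b k) ω)|} ≠ ⊤ :=
    ne_top_of_le_ne_top summable_geometric_two.tsum_ofReal_ne_top (ENNReal.tsum_le_tsum hB)
  filter_upwards [ae_eventually_notMem hs] with ω hω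
  exact hω.mono fun k hk => not_le.1 hk

lemma areal_orth {P : Measure Om} (hP : InvCol P) {g : Fin 5 → Om → ℝ} (hg : Soft P g)
    (i : Fin 5) (u : K) (a : E) :
    ∀ᵐ ω ∂P, g i (tau (kv u + a) ω) * g i (tau a ω) = 0 := by
  have := hP.prob
  have hm : Measurable fun ω => g i (tau (kv u) ω) * g i ω :=
    ((hg.meas i).comp (hP.tau _).measurable).mul (hg.meas i)
  have h0 : ∀ ω, 0 ≤ g i (tau (kv u) ω) * g i ω := fun ω =>
    mul_nonneg (hg.nonneg _ _) (hg.nonneg _ _)
  have hi : Integrable (fun ω => g i (tau (kv u) ω) * g i ω) P := by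
    refine Integrable.of_bound hm.aestronglyMeasurable 1 (ae_of_all _ fun ω => ?_)
    rw [Real.norm_of_nonneg (h0 ω)]
    exact mul_le_one₀ (hg.le_one _ _) (hg.nonneg _ _) (hg.le_one _ _)
  have h1 := (integral_eq_zero_iff_of_nonneg h0 hi).1 (hg.orth i u)
  filter_upwards [(hP.tau a).quasiMeasurePreserving.ae h1] with ω hω
  simpa only [areal_tau, Pi.zero_apply] using hω

/-- `G i x ω = lim g i (tau (r_k x) ω)` along grids `r_k` with `L²` errors `≤ 2^{-k}`
(Borel–Cantelli), jointly measurable; Fubini; `A i = {x | G i x ω ≠ 0}`, `S = K`. -/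
theorem realise {P : Measure Om} (hP : InvCol P) {g : Fin 5 → Om → ℝ} (hg : Soft P g) :
    MeasStmt := by
  have := hP.prob
  obtain ⟨δ, hδ, hbc⟩ := areal_bc hP hg
  choose r hr1 hr2 using fun k : ℕ =>
    exists_grid (min (δ k) (δ (k - 1)) / 2) (half_pos (lt_min (hδ _) (hδ _)))
  let Φ : Fin 5 → ℂ × Om → Prop := fun i p => ∃ m, ∀ k, m ≤ k → 1 / 10 ≤ g i (tau (r k p.1) p.2)
  have hΦ : ∀ i, Measurable (Φ i) := fun i => by
    refine Measurable.exists fun m => Measurable.forall fun k => measurable_const.imp ?_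
    rw [← measurableSet_setOfPred]
    have e : {p : ℂ × Om | 1 / 10 ≤ g i (tau (r k p.1) p.2)} =
        ⋃ z : E, (r k ⁻¹' {z}) ×ˢ {ω | 1 / 10 ≤ g i (tau z ω)} := by
      ext p
      simp
    rw [e]
    exact MeasurableSet.iUnion fun z => (hr1 k z).prod
      (measurableSet_le measurable_const ((hg.meas i).comp (hP.tau z).measurable))
  have cover : ∀ x : ℂ, ∀ᵐ ω ∂P, ∃ i, Φ i (x, ω) := fun x => by
    have h1 := hbc (fun k => r (k + 1) x) (fun k => r k x) fun k => by
      have a1 := hr2 (k + 1) x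
      have a2 := hr2 k x
      have a3 := min_le_right (δ (k + 1)) (δ (k + 1 - 1))
      have a4 := min_le_left (δ k) (δ (k - 1))
      rw [Nat.add_sub_cancel] at a1 a3
      have a5 := norm_sub_le (x - (r k x : ℂ)) (x - (r (k + 1) x : ℂ))
      rw [sub_sub_sub_cancel_left] at a5
      show ‖((r (k + 1) x : ℂ) - (r k x : ℂ))‖ < δ k
      linarith
    have h2 : ∀ k, ∀ᵐ ω ∂P, ∑ i, g i (tau (r k x) ω) = 1 := fun k =>
      (hP.tau (r k x)).quasiMeasurePreserving.ae hg.sum
    filter_upwards [ae_all_iff.2 h1, ae_all_iff.2 h2] with ω a b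
    obtain ⟨m, hm⟩ := eventually_atTop.1 (eventually_all.2 a)
    obtain ⟨i, -, hi⟩ := Finset.exists_le_of_sum_le (s := Finset.univ) Finset.univ_nonempty
      (f := fun _ : Fin 5 => (1 / 5 : ℝ)) (g := fun i => g i (tau (r m x) ω))
      (by rw [b m]; simp)
    refine ⟨i, m, fun k hk => ?_⟩
    have := areal_tele (v := fun k => g i (tau (r k x) ω)) (fun k hk => hm k hk i) k hk
    linarith
  have proper : ∀ (u : K) (i : Fin 5) (x : ℂ),
      ∀ᵐ ω ∂P, ¬(Φ i (x, ω) ∧ Φ i (x + (kv u : ℂ), ω)) := fun u i x => by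
    have h1 := hbc (fun k => r k (x + (kv u : ℂ))) (fun k => kv u + r k x) (fun k => by
      have a1 := hr2 k (x + (kv u : ℂ))
      have a2 := hr2 k x
      have a4 := min_le_left (δ k) (δ (k - 1))
      have a5 := norm_sub_le (x - (r k x : ℂ)) (x + (kv u : ℂ) - (r k (x + (kv u : ℂ)) : ℂ))
      have e : x - (r k x : ℂ) - (x + (kv u : ℂ) - (r k (x + (kv u : ℂ)) : ℂ)) =
          (r k (x + (kv u : ℂ)) : ℂ) - ((kv u : ℂ) + (r k x : ℂ)) := by ring
      rw [e] at a5
      show ‖(r k (x + (kv u : ℂ)) : ℂ) - ((kv u : ℂ) + (r k x : ℂ))‖ < δ k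
      linarith) i
    filter_upwards [h1, ae_all_iff.2 fun k => areal_orth hP hg i u (r k x)] with ω a b
    rintro ⟨⟨m₁, hm₁⟩, m₂, hm₂⟩
    obtain ⟨k, hk, hk1, hk2⟩ :=
      (a.and ((eventually_ge_atTop m₁).and (eventually_ge_atTop m₂))).exists
    have c1 : 1 / 10 ≤ g i (tau (r k x) ω) := hm₁ k hk1
    have c2 : 1 / 10 ≤ g i (tau (r k (x + (kv u : ℂ))) ω) := hm₂ k hk2
    have c3 := (mul_eq_zero.1 (b k)).resolve_right (by linarith)
    have c4 := (abs_lt.1 hk).2
    have c5 := areal_eps_le k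
    rw [c3] at c4
    linarith
  have cover' : ∀ᵐ ω ∂P, ∀ᵐ x : ℂ, ∃ i, Φ i (x, ω) :=
    (Measure.ae_ae_comm (μ := volume) (p := fun (x : ℂ) ω => ∃ i, Φ i (x, ω))
      (measurableSet_setOfPred.2 (Measurable.exists hΦ))).1 (ae_of_all _ cover)
  have proper' : ∀ (u : K) (i : Fin 5),
      ∀ᵐ ω ∂P, ∀ᵐ x : ℂ, ¬(Φ i (x, ω) ∧ Φ i (x + (kv u : ℂ), ω)) := fun u i =>
    (Measure.ae_ae_comm (μ := volume)
      (p := fun (x : ℂ) ω => ¬(Φ i (x, ω) ∧ Φ i (x + (kv u : ℂ), ω)))
      (measurableSet_setOfPred.2 ((hΦ i).and ((hΦ i).comp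
        ((measurable_fst.add_const _).prodMk measurable_snd))).not)).1 (ae_of_all _ (proper u i))
  obtain ⟨ω, h1, h2⟩ := (cover'.and (ae_all_iff.2 fun u => ae_all_iff.2 (proper' u))).exists
  refine ⟨fun i => {x | Φ i (x, ω)},
    fun i => measurableSet_setOfPred.2 ((hΦ i).comp measurable_prodMk_right), ?_,
    Set.range fun v : K => ((kv v : E) : ℂ), K_dense, ?_⟩
  · refine measure_mono_null (fun x hx => ?_) (ae_iff.1 h1)
    simpa using hx
  · rintro _ ⟨u, rfl⟩ i
    exact measure_mono_null (fun x hx => not_not.2 hx) (ae_iff.1 (h2 u i))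

end Crest.Agent.R40.A
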