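import Crest.Agent.R40.AMin1
import Crest.Agent.R40.AAlg

/-! Row 40 A: continuous parts of the colour indicators. -/

set_option autoImplicit false
open MeasureTheory ProbabilityTheory Filter Topology
open scoped ComplexConjugate

noncomputable section
namespace Crest.Agent.R40.A

section Hilbert
variable {H : Type} [NormedAddCommGroup H] [InnerProductSpace ℂ H] [CompleteSpace H]
  {T : E → H →ₗᵢ[ℂ] H}

omit [CompleteSpace H] in
theorem asoft_pd (hadd : ∀ x y ξ, T (x + y) ξ = T x (T y ξ)) (η : H) :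
    PD fun z => inner ℂ η (T z η) := by
  intro n c x
  have h : ∑ i, ∑ j, c i * conj (c j) * inner ℂ η (T (x i - x j) η)
      = inner ℂ (∑ j, c j • T (x j) η) (∑ i, c i • T (x i) η) := by
    rw [inner_sum]
    refine Finset.sum_congr rfl fun i _ => ?_
    rw [sum_inner]
    refine Finset.sum_congr rfl fun j _ => ?_
    rw [inner_smul_left, inner_smul_right, ← (T (x j)).inner_map_map η, ← hadd, add_sub_cancel]
    ring
  simp only [h]
  exact ⟨inner_self_nonneg (𝕜 := ℂ), inner_self_im (𝕜 := ℂ) _⟩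

theorem asoft_abs (hr : RigidStmt) (h0 : ∀ ξ, T 0 ξ = ξ)
    (hadd : ∀ x y ξ, T (x + y) ξ = T x (T y ξ)) (R : K → H →ₗᵢ[ℂ] H)
    (hR : ∀ u ξ, R u (R u⁻¹ ξ) = ξ) (hRT : ∀ u z ξ, R u (T z ξ) = T (kv u * z) (R u ξ)) :
    ∃ Pc : H →L[ℂ] H, (∀ ξ, Cont T (Pc ξ)) ∧ (∀ ξ, Cont T ξ → Pc ξ = ξ) ∧
      (∀ ξ, Pc ξ ∈ closure (Hull T ξ 1)) ∧ ∀ ξ, (∀ u, R u ξ = ξ) → ∀ u : K,
        inner ℂ (Pc ξ) (T (kv u) (Pc ξ)) = inner ℂ ξ (T 1 ξ) := by
  obtain ⟨Pc, hc, hfix, horth, hhull, hQ⟩ := exists_proj h0 hadd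
  refine ⟨Pc, hc, hfix, hhull, fun ξ hξ u => ?_⟩
  have cR : ∀ (v : K) ζ, Cont T ζ → Cont T (R v ζ) := by
    intro v ζ hζ η hη
    obtain ⟨δ, hδ, h⟩ := hζ η hη
    refine ⟨δ, hδ, fun z hz => ?_⟩
    have e : z = kv v * (kv v⁻¹ * z) := by rw [← mul_assoc, ← kv_mul, mul_inv_cancel, kv_one, one_mul]
    have e2 : sz (kv v⁻¹ * z) = sz z := by
      have := sz_kv v⁻¹
      simp only [sz] at this ⊢
      rw [MulMemClass.coe_mul, norm_mul, this, one_mul]
    rw [e, ← hRT, ← map_sub, LinearIsometry.norm_map]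
    exact h _ (e2 ▸ hz)
  have cT : ∀ (x : E) ζ, Cont T ζ → Cont T (T x ζ) := by
    intro x ζ hζ η hη
    obtain ⟨δ, hδ, h⟩ := hζ η hη
    refine ⟨δ, hδ, fun z hz => ?_⟩
    rw [← hadd, add_comm, hadd, ← map_sub, LinearIsometry.norm_map]
    exact h z hz
  have rad : ∀ ζ : H, (∀ v, R v ζ = ζ) → ∀ (v : K) z,
      inner ℂ ζ (T (kv v * z) ζ) = inner ℂ ζ (T z ζ) := by
    intro ζ hζ v z
    rw [← (R v).inner_map_map ζ (T z ζ), hRT, hζ]
  have hg : ∀ v, R v (Pc ξ) = Pc ξ := by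
    intro v
    have h1 : Cont T (R v (Pc ξ) - Pc ξ) := by
      have := hc (R v (Pc ξ) - Pc ξ)
      rwa [map_sub, hfix _ (cR v _ (hc ξ)), hfix _ (hc ξ)] at this
    have h2 : inner ℂ (R v (Pc ξ) - Pc ξ) (R v (ξ - Pc ξ)) = 0 := by
      rw [← hR v (R v (Pc ξ) - Pc ξ), (R v).inner_map_map]
      exact horth ξ _ (cR _ _ h1)
    have h3 : R v (Pc ξ) - Pc ξ = (ξ - Pc ξ) - R v (ξ - Pc ξ) := by
      rw [map_sub, hξ]
      abel
    rw [← sub_eq_zero, ← inner_self_eq_zero (𝕜 := ℂ)]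
    calc _ = inner ℂ (R v (Pc ξ) - Pc ξ) ((ξ - Pc ξ) - R v (ξ - Pc ξ)) := by rw [← h3]
      _ = 0 := by rw [inner_sub_right, h2, horth ξ _ h1, sub_zero]
  have hη : ∀ v, R v (ξ - Pc ξ) = ξ - Pc ξ := fun v => by rw [map_sub, hξ, hg]
  have h1 := hr _ (asoft_pd hadd (ξ - Pc ξ)) (rad _ hη) (hQ ξ) (kv u) (kv_ne_zero u)
  have h2 : inner ℂ (ξ - Pc ξ) (T (kv u) (Pc ξ)) = 0 := by
    rw [inner_eq_zero_symm]
    exact horth ξ _ (cT _ _ (hc ξ))
  have h3 : inner ℂ (Pc ξ) (T (kv u) (ξ - Pc ξ)) = 0 := by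
    have e : Pc ξ = T (kv u) (T (-kv u) (Pc ξ)) := by rw [← hadd, add_neg_cancel, h0]
    rw [e, (T (kv u)).inner_map_map, ← e]
    exact horth ξ _ (cT _ _ (hc ξ))
  rw [← rad ξ hξ u 1, mul_one]
  simp only [map_sub, inner_sub_left, inner_sub_right] at h1 h2 h3
  linear_combination -h1 - h2 - h3

end Hilbert

theorem asoft_closed {W : Type} [MeasurableSpace W] {μ : Measure W} {C : Set ℂ}
    (hC : IsClosed C) : IsClosed {v : Lp ℂ 2 μ | ∀ᵐ ω ∂μ, v ω ∈ C} := by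
  refine isSeqClosed_iff_isClosed.1 fun v w hv hw => ?_
  obtain ⟨ns, -, h⟩ := (tendstoInMeasure_of_tendsto_Lp hw).exists_seq_tendsto_ae
  filter_upwards [h, ae_all_iff.2 hv] with ω h1 h2
  exact hC.mem_of_tendsto h1 (Eventually.of_forall fun n => h2 _)

theorem asoft_convex {W : Type} [MeasurableSpace W] {μ : Measure W} {C : Set ℂ}
    (hC : Convex ℝ C) : Convex ℝ {v : Lp ℂ 2 μ | ∀ᵐ ω ∂μ, v ω ∈ C} := by
  intro v hv w hw a b ha hb hab
  filter_upwards [hv, hw, Lp.coeFn_add (a • v) (b • w), Lp.coeFn_smul a v, Lp.coeFn_smul b w]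
    with ω h1 h2 h3 h4 h5
  rw [h3, Pi.add_apply, h4, h5]
  exact hC h1 h2 ha hb hab

theorem asoft_inner {W : Type} [MeasurableSpace W] {μ : Measure W} {v w : Lp ℂ 2 μ} {a b : W → ℝ}
    (hv : v =ᵐ[μ] fun ω => (a ω : ℂ)) (hw : w =ᵐ[μ] fun ω => (b ω : ℂ)) :
    inner ℂ v w = ((∫ ω, b ω * a ω ∂μ : ℝ) : ℂ) := by
  rw [L2.inner_def, ← integral_complex_ofReal]
  refine integral_congr_ae ?_
  filter_upwards [hv, hw] with ω h1 h2
  simp [h1, h2]

theorem asoft_ext {W : Type} [MeasurableSpace W] {μ : Measure W} {s t : W → W}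
    (hs : MeasurePreserving s μ μ) (ht : MeasurePreserving t μ μ) (h : s = t) (ξ : Lp ℂ 2 μ) :
    Lp.compMeasurePreservingₗᵢ ℂ s hs ξ = Lp.compMeasurePreservingₗᵢ ℂ t ht ξ := by
  subst h
  rfl

theorem asoft_comp {W : Type} [MeasurableSpace W] {μ : Measure W} {s t : W → W}
    (hs : MeasurePreserving s μ μ) (ht : MeasurePreserving t μ μ) (ξ : Lp ℂ 2 μ) :
    Lp.compMeasurePreservingₗᵢ ℂ s hs (Lp.compMeasurePreservingₗᵢ ℂ t ht ξ)
      = Lp.compMeasurePreservingₗᵢ ℂ (t ∘ s) (ht.comp hs) ξ :=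
  (Lp.compMeasurePreserving_comp_apply ξ ht hs).symm

theorem asoft_id {W : Type} [MeasurableSpace W] {μ : Measure W} {s : W → W}
    (hs : MeasurePreserving s μ μ) (h : s = id) (ξ : Lp ℂ 2 μ) :
    Lp.compMeasurePreservingₗᵢ ℂ s hs ξ = ξ := by
  subst h
  exact Lp.compMeasurePreserving_id_apply ξ

theorem asoft_coe {W : Type} [MeasurableSpace W] {μ : Measure W} {s : W → W}
    (hs : MeasurePreserving s μ μ) {ξ : Lp ℂ 2 μ} {a : W → ℂ} (h : ξ =ᵐ[μ] a) :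
    Lp.compMeasurePreservingₗᵢ ℂ s hs ξ =ᵐ[μ] fun ω => a (s ω) :=
  (Lp.coeFn_compMeasurePreserving ξ hs).trans (hs.quasiMeasurePreserving.ae_eq_comp h)

/-- `H = Lp ℂ 2 P`, `T z = (· ∘ tau z)`, `fᵢ = 1[ω 0 = i]`, `gᵢ = P_c fᵢ` (`exists_proj`):
`0 ≤ gᵢ ≤ 1` as a limit of averages, `∑ gᵢ = P_c 1 = 1`, `gᵢ` is `rho`-invariant by uniqueness,
`φᵢ z = ⟪ηᵢ, T z ηᵢ⟫` is radial, positive definite, `Q0`, so `φᵢ 1 = 0`, and
`0 = ⟪fᵢ, T 1 fᵢ⟫ = ⟪gᵢ, T 1 gᵢ⟫ + φᵢ 1`. -/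
theorem soft (hr : RigidStmt) {P : Measure Om} (hP : InvCol P) : ∃ g, Soft P g := by
  have := hP.prob
  let T : E → Lp ℂ 2 P →ₗᵢ[ℂ] Lp ℂ 2 P := fun z => Lp.compMeasurePreservingₗᵢ ℂ (tau z) (hP.tau z)
  let R : K → Lp ℂ 2 P →ₗᵢ[ℂ] Lp ℂ 2 P := fun u => Lp.compMeasurePreservingₗᵢ ℂ (rho u) (hP.rho u)
  have h0 : ∀ ξ, T 0 ξ = ξ := fun ξ => asoft_id _ (by funext ω x; simp [tau]) ξ
  have hadd : ∀ x y ξ, T (x + y) ξ = T x (T y ξ) := fun x y ξ => by
    simp only [T]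
    rw [asoft_comp]
    refine asoft_ext _ _ ?_ ξ
    funext ω w
    simp only [tau, Function.comp_apply]
    congr 1
    ring
  have hR : ∀ u ξ, R u (R u⁻¹ ξ) = ξ := fun u ξ => by
    simp only [R]
    rw [asoft_comp]
    refine asoft_id _ ?_ ξ
    funext ω w
    simp only [rho, Function.comp_apply, id]
    rw [← mul_assoc, ← kv_mul, mul_inv_cancel, kv_one, one_mul]
  have hRT : ∀ u z ξ, R u (T z ξ) = T (kv u * z) (R u ξ) := fun u z ξ => by
    simp only [R, T]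
    rw [asoft_comp, asoft_comp]
    refine asoft_ext _ _ ?_ ξ
    funext ω w
    simp only [tau, rho, Function.comp_apply, mul_add]
  obtain ⟨Pc, hc, hfix, hhull, horth⟩ := asoft_abs hr h0 hadd R hR hRT
  let a : Fin 5 → Om → ℝ := fun i ω => if ω 0 = i then 1 else 0
  have ham : ∀ i, Measurable fun ω => (a i ω : ℂ) := fun i =>
    Complex.measurable_ofReal.comp
      ((measurable_of_countable fun j : Fin 5 => if j = i then (1 : ℝ) else 0).comp
        (measurable_pi_apply 0))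
  have ha01 : ∀ i ω, 0 ≤ a i ω ∧ a i ω ≤ 1 := fun i ω => by
    simp only [a]
    split_ifs <;> norm_num
  have haL : ∀ i, MemLp (fun ω => (a i ω : ℂ)) 2 P := fun i =>
    MemLp.of_bound (ham i).aestronglyMeasurable 1 (Eventually.of_forall fun ω => by
      rw [Complex.norm_real, Real.norm_of_nonneg (ha01 i ω).1]
      exact (ha01 i ω).2)
  let F : Fin 5 → Lp ℂ 2 P := fun i => (haL i).toLp _
  have hF : ∀ i, F i =ᵐ[P] fun ω => (a i ω : ℂ) := fun i => (haL i).coeFn_toLp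
  let C : Set ℂ := Complex.ofRealCLM '' Set.Icc 0 1
  have hCc : IsClosed C := (isCompact_Icc.image Complex.ofRealCLM.continuous).isClosed
  have hCv : Convex ℝ C := (convex_Icc (0 : ℝ) 1).linear_image Complex.ofRealCLM.toLinearMap
  have hG : ∀ i, ∀ᵐ ω ∂P, Pc (F i) ω ∈ C := by
    intro i
    refine closure_minimal (t := {v : Lp ℂ 2 P | ∀ᵐ ω ∂P, v ω ∈ C}) ?_ (asoft_closed hCc)
      (hhull (F i))
    rintro _ ⟨p, -, rfl⟩
    refine (asoft_convex hCv).sum_mem (fun j _ => p.nonneg j) p.sum_one fun j _ => ?_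
    filter_upwards [asoft_coe (hP.tau (p.x j)) (hF i)] with ω hω
    rw [hω]
    exact ⟨_, ha01 i _, rfl⟩
  let g : Fin 5 → Om → ℝ := fun i ω => max 0 (min 1 (Pc (F i) ω).re)
  have hg : ∀ i, Pc (F i) =ᵐ[P] fun ω => (g i ω : ℂ) := by
    intro i
    filter_upwards [hG i] with ω hω
    obtain ⟨r, hr, e⟩ := hω
    simp only [g]
    rw [← e]
    simp [hr.1, hr.2]
  refine ⟨g, fun i => ?_, fun i ω => le_max_left _ _,
    fun i ω => max_le zero_le_one (min_le_left _ _), ?_, fun i η hη => ?_, fun i u => ?_⟩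
  · exact measurable_const.max (measurable_const.min
      (Complex.measurable_re.comp (Lp.stronglyMeasurable (Pc (F i))).measurable))
  · have h1 : (∑ i, F i : Lp ℂ 2 P) =ᵐ[P] fun _ => 1 := by
      filter_upwards [Lp.coeFn_fun_finsetSum Finset.univ F, ae_all_iff.2 hF] with ω e1 e2
      rw [e1]
      simp only [e2, a]
      rw [← Complex.ofReal_sum]
      simp
    have h2 : Cont T (∑ i, F i) := fun η hη => ⟨1, one_pos, fun z _ => by
      have : T z (∑ i, F i) = ∑ i, F i := Lp.ext ((asoft_coe (hP.tau z) h1).trans h1.symm)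
      rw [this, sub_self, norm_zero]
      exact hη.le⟩
    have h3 := hfix _ h2
    rw [map_sum] at h3
    filter_upwards [Lp.coeFn_fun_finsetSum Finset.univ fun i => Pc (F i), ae_all_iff.2 hg, h1]
      with ω e1 e2 e3
    rw [h3, e3] at e1
    simp only [e2] at e1
    exact_mod_cast e1.symm
  · obtain ⟨δ, hδ, h⟩ := hc (F i) (√η) (Real.sqrt_pos.2 hη)
    refine ⟨δ, hδ, fun z hz => ?_⟩
    have h1 : (T z (Pc (F i)) - Pc (F i) : Lp ℂ 2 P)
        =ᵐ[P] fun ω => ((g i (tau z ω) - g i ω : ℝ) : ℂ) := by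
      filter_upwards [Lp.coeFn_sub (T z (Pc (F i))) (Pc (F i)), asoft_coe (hP.tau z) (hg i), hg i]
        with ω e1 e2 e3
      rw [e1, Pi.sub_apply, e2, e3, Complex.ofReal_sub]
    have h2 := asoft_inner h1 h1
    rw [inner_self_eq_norm_sq_to_K] at h2
    have h3 : ‖T z (Pc (F i)) - Pc (F i)‖ ^ 2
        = ∫ ω, (g i (tau z ω) - g i ω) * (g i (tau z ω) - g i ω) ∂P := by
      refine Complex.ofReal_injective ?_
      rw [← h2]
      simp
    simp only [sq (g i _ - _)]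
    rw [← h3, ← Real.sq_sqrt hη.le]
    exact pow_le_pow_left₀ (norm_nonneg _) (h z hz) 2
  · have h1 : ∀ v, R v (F i) = F i := fun v =>
      Lp.ext ((asoft_coe (hP.rho v) (hF i)).trans (by simpa [a, rho] using (hF i).symm))
    have h2 := horth (F i) h1 u
    rw [asoft_inner (hg i) (asoft_coe (hP.tau (kv u)) (hg i)),
      asoft_inner (hF i) (asoft_coe (hP.tau 1) (hF i))] at h2
    rw [Complex.ofReal_injective h2]
    refine integral_eq_zero_of_ae ?_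
    have h3 : ∀ᵐ ω ∂P, ¬ ω 0 = ω 1 := by
      rw [ae_iff]
      simpa using hP.proper
    filter_upwards [h3] with ω hω
    simp only [a, tau, zero_add, Pi.zero_apply]
    split_ifs with e1 e2
    · exact absurd (e2.trans e1.symm) hω
    all_goals simp

end Crest.Agent.R40.A
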