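import Crest.Agent.R40.ARigid
import Crest.Agent.R40.ASoft
import Crest.Agent.R40.AReal

/-! Row 40 A: assembly. -/

set_option autoImplicit false
open MeasureTheory ProbabilityTheory Filter Topology
open scoped ComplexConjugate

noncomputable section
namespace Crest.Agent.R40.A

theorem meas_of_col (h : ColStmt) : MeasStmt := by
  obtain ⟨P, hP⟩ := invcol h
  obtain ⟨g, hg⟩ := soft rigid hP
  exact realise hP hg

end Crest.Agent.R40.A
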