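import Crest.Agent.R40.ADefs

/-! Row 40 A: the form `Q` for multiplicative families. -/

set_option autoImplicit false
open MeasureTheory ProbabilityTheory Filter Topology
open scoped ComplexConjugate

noncomputable section
namespace Crest.Agent.R40.A

variable {W : Type} [MeasurableSpace W] {μ : Measure W} [IsFiniteMeasure μ] {F : E → W → ℂ}

theorem amin2_av_eq {α : Type} (p : FP α) (g : α → ℂ) :
    p.av g = ∑ i, (p.w i : ℂ) * g (p.x i) := by
  simp [FP.av]

theorem amin2_norm_av_le {α : Type} (p : FP α) {g : α → ℂ} (hg : ∀ z, ‖g z‖ ≤ 1) :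
    ‖p.av g‖ ≤ 1 := by
  unfold FP.av
  refine (norm_sum_le _ _).trans ?_
  rw [← p.sum_one]
  refine Finset.sum_le_sum fun i _ => ?_
  rw [norm_smul, Real.norm_of_nonneg (p.nonneg i)]
  exact mul_le_of_le_one_right (p.nonneg i) (hg _)

omit [IsFiniteMeasure μ] in
theorem amin2_meas_av {α : Type} (p : FP α) {G : α → W → ℂ} (hG : ∀ z, Measurable (G z)) :
    Measurable fun w => p.av fun z => G z w := by
  simp only [amin2_av_eq]
  exact Finset.measurable_sum _ fun i _ => (hG _).const_mul _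

theorem amin2_int_sq {g : W → ℂ} (hg : Measurable g) {C : ℝ} (hC : ∀ w, ‖g w‖ ≤ C) :
    Integrable (fun w => ‖g w‖ ^ 2) μ := by
  refine Integrable.of_bound (hg.norm.pow_const 2).aestronglyMeasurable (C ^ 2)
    (Eventually.of_forall fun w => ?_)
  rw [Real.norm_of_nonneg (by positivity)]
  exact pow_le_pow_left₀ (norm_nonneg _) (hC w) 2

omit [IsFiniteMeasure μ] in
theorem amin2_sub (hF : Mult μ F) (x y : E) : ∀ᵐ w ∂μ, F (x - y) w = F x w * conj (F y w) := by
  filter_upwards [hF.mul (x - y) y] with w hw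
  rw [sub_add_cancel] at hw
  rw [hw, mul_assoc, Complex.mul_conj, Complex.normSq_eq_norm_sq, hF.norm_one]
  simp

theorem amin2_int (hF : Mult μ F) (z : E) : Integrable (F z) μ :=
  Integrable.of_bound (hF.meas z).aestronglyMeasurable 1
    (Eventually.of_forall fun w => (hF.norm_one z w).le)

theorem Q_eq (hF : Mult μ F) (p : FP E) :
    Q (fun z => ∫ w, F z w ∂μ) p = (n2 μ (fun w => p.av fun z => F z w) : ℝ) := by
  have h1 : ∀ᵐ w ∂μ, ∀ i j : p.ι, F (p.x i - p.x j) w = F (p.x i) w * conj (F (p.x j) w) := by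
    rw [ae_all_iff]
    intro i
    rw [ae_all_iff]
    intro j
    exact amin2_sub hF _ _
  unfold Q n2
  rw [← integral_complex_ofReal]
  simp only [amin2_av_eq]
  have h2 : ∀ i : p.ι, (p.w i : ℂ) * ∑ j, (p.w j : ℂ) * ∫ w, F (p.x i - p.x j) w ∂μ =
      ∫ w, (p.w i : ℂ) * ∑ j, (p.w j : ℂ) * F (p.x i - p.x j) w ∂μ := by
    intro i
    rw [integral_const_mul, integral_finsetSum _ fun j _ => (amin2_int hF _).const_mul _]
    simp only [integral_const_mul]
  simp only [h2]
  rw [← integral_finsetSum _ fun i _ =>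
    (integrable_finsetSum _ fun j _ => (amin2_int hF _).const_mul _).const_mul _]
  refine integral_congr_ae ?_
  filter_upwards [h1] with w hw
  simp only [hw]
  rw [← Complex.normSq_eq_norm_sq, ← Complex.mul_conj, map_sum, Finset.sum_mul]
  refine Finset.sum_congr rfl fun i _ => ?_
  rw [Finset.mul_sum, Finset.mul_sum]
  refine Finset.sum_congr rfl fun j _ => ?_
  rw [map_mul, Complex.conj_ofReal]
  ring

theorem amin2_q0 (hF : Mult μ F) (h : Q0 fun z => ∫ w, F z w ∂μ) {ε η : ℝ} (hε : 0 < ε)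
    (hη : 0 < η) : ∃ p : FP E, (∀ i, sz (p.x i) < ε) ∧ n2 μ (fun w => p.av fun z => F z w) ≤ η := by
  obtain ⟨p, hp, hQ⟩ := h ε hε η hη
  refine ⟨p, hp, ?_⟩
  rw [Q_eq hF, Complex.norm_real] at hQ
  exact (le_abs_self _).trans hQ

/-- Jensen for finite averages -/
theorem amin2_jensen {α : Type} (p : FP α) (g : α → ℂ) :
    ‖p.av g - 1‖ ^ 2 ≤ ∑ i, p.w i * ‖g (p.x i) - 1‖ ^ 2 := by
  have h1 : p.av g - 1 = ∑ i, p.w i • (g (p.x i) - 1) := by
    simp only [FP.av, smul_sub, Finset.sum_sub_distrib]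
    rw [← Finset.sum_smul, p.sum_one, one_smul]
  have h2 : ‖p.av g - 1‖ ≤ ∑ i, p.w i * ‖g (p.x i) - 1‖ := by
    rw [h1]
    refine (norm_sum_le _ _).trans (le_of_eq (Finset.sum_congr rfl fun i _ => ?_))
    rw [norm_smul, Real.norm_of_nonneg (p.nonneg i)]
  refine (pow_le_pow_left₀ (norm_nonneg _) h2 2).trans ?_
  exact Real.pow_arith_mean_le_arith_mean_pow _ _ _ (fun i _ => p.nonneg i) p.sum_one
    (fun i _ => norm_nonneg _) 2

/-- if `R` is a continuity set, `‖p.av F - 1‖` is small on `R` while `p.av F` is small -/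
theorem null_of_q0 (hF : Mult μ F) (h : Q0 fun z => ∫ w, F z w ∂μ) {R : Set W}
    (hR : CSet μ F R) : μ R = 0 := by
  have key : ∀ η > 0, μ.real R ≤ 4 * η := by
    intro η hη
    obtain ⟨δ, hδ, hδ'⟩ := hR.2 η hη
    obtain ⟨p, hp, hn⟩ := amin2_q0 hF h hδ hη
    have m1 := amin2_meas_av p hF.meas
    have b1 : ∀ w, ‖p.av fun z => F z w‖ ≤ 1 := fun w =>
      amin2_norm_av_le p fun z => (hF.norm_one z w).le
    have i1 : Integrable (fun w => ‖p.av fun z => F z w‖ ^ 2) μ := amin2_int_sq m1 b1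
    have i2 : ∀ z, Integrable (fun w => ‖F z w - 1‖ ^ 2) (μ.restrict R) := fun z =>
      amin2_int_sq ((hF.meas z).sub_const 1) (C := 2) fun w => by
        refine (norm_sub_le _ _).trans ?_
        rw [hF.norm_one, norm_one]
        norm_num
    have i3 : Integrable (fun w => ∑ i, p.w i * ‖F (p.x i) w - 1‖ ^ 2) (μ.restrict R) :=
      integrable_finsetSum _ fun i _ => (i2 _).const_mul _
    have h1 : ∫ w in R, ∑ i, p.w i * ‖F (p.x i) w - 1‖ ^ 2 ∂μ ≤ η := by
      rw [integral_finsetSum _ fun i _ => (i2 _).const_mul _]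
      calc _ ≤ ∑ i, p.w i * η := Finset.sum_le_sum fun i _ => by
            rw [integral_const_mul]
            exact mul_le_mul_of_nonneg_left (hδ' _ (hp i)) (p.nonneg i)
        _ = η := by rw [← Finset.sum_mul, p.sum_one, one_mul]
    have h2 : ∫ w in R, ‖p.av fun z => F z w‖ ^ 2 ∂μ ≤ η :=
      (setIntegral_le_integral i1 (Eventually.of_forall fun w => by positivity)).trans hn
    calc μ.real R = ∫ _ in R, (1 : ℝ) ∂μ := by simp
      _ ≤ ∫ w in R, (2 * ∑ i, p.w i * ‖F (p.x i) w - 1‖ ^ 2 +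
            2 * ‖p.av fun z => F z w‖ ^ 2) ∂μ := by
          refine integral_mono (integrable_const _)
            ((i3.const_mul 2).add (i1.restrict.const_mul 2)) fun w => ?_
          have j := amin2_jensen p fun z => F z w
          have t : (1 : ℝ) ≤ ‖(p.av fun z => F z w) - 1‖ + ‖p.av fun z => F z w‖ := by
            have := norm_sub_le (p.av fun z => F z w) ((p.av fun z => F z w) - 1)
            rw [sub_sub_cancel, norm_one] at this
            linarith
          have a0 := norm_nonneg ((p.av fun z => F z w) - 1)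
          have b0 := norm_nonneg (p.av fun z => F z w)
          dsimp only
          nlinarith [sq_nonneg (‖(p.av fun z => F z w) - 1‖ - ‖p.av fun z => F z w‖)]
      _ ≤ 4 * η := by
          rw [integral_add (i3.const_mul 2) (i1.restrict.const_mul 2), integral_const_mul,
            integral_const_mul]
          linarith
  have h0 : μ.real R ≤ 0 := le_of_forall_pos_le_add fun η hη => by
    have := key (η / 4) (by positivity)
    linarith
  exact (measureReal_eq_zero_iff (measure_ne_top _ _)).1 (le_antisymm h0 measureReal_nonneg)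

/-- convolution of `p` with the dilate `c • p'` -/
def amin2_conv (p p' : FP E) (c : E) : FP E where
  ι := p.ι × p'.ι
  w := fun i => p.w i.1 * p'.w i.2
  x := fun i => p.x i.1 + c * p'.x i.2
  nonneg := fun i => mul_nonneg (p.nonneg _) (p'.nonneg _)
  sum_one := by
    rw [Fintype.sum_prod_type, ← Finset.sum_mul_sum, p.sum_one, p'.sum_one, one_mul]

omit [IsFiniteMeasure μ] in
theorem amin2_conv_av (hF : Mult μ F) (p p' : FP E) (c k : E) :
    ∀ᵐ w ∂μ, ((amin2_conv p p' c).av fun z => F (k * z) w) =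
      (p.av fun z => F (k * z) w) * p'.av fun z => F (k * c * z) w := by
  have h1 : ∀ᵐ w ∂μ, ∀ (i : p.ι) (j : p'.ι), F (k * p.x i + k * c * p'.x j) w =
      F (k * p.x i) w * F (k * c * p'.x j) w := by
    rw [ae_all_iff]
    intro i
    rw [ae_all_iff]
    intro j
    exact hF.mul _ _
  filter_upwards [h1] with w hw
  simp only [amin2_av_eq]
  rw [Finset.sum_mul_sum]
  change ∑ i : p.ι × p'.ι, ((p.w i.1 * p'.w i.2 : ℝ) : ℂ) * F (k * (p.x i.1 + c * p'.x i.2)) w = _
  rw [Fintype.sum_prod_type]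
  refine Finset.sum_congr rfl fun i _ => Finset.sum_congr rfl fun j _ => ?_
  rw [mul_add, ← mul_assoc k, hw]
  push_cast
  ring

theorem amin2_n2_le {g g' : W → ℂ} (mg' : Measurable g') (b : ∀ w, ‖g' w‖ ≤ 1)
    (h : ∀ᵐ w ∂μ, ‖g w‖ ≤ ‖g' w‖) : n2 μ g ≤ n2 μ g' := by
  refine integral_mono_of_nonneg (Eventually.of_forall fun w => by positivity)
    (amin2_int_sq mg' b) ?_
  filter_upwards [h] with w hw
  exact pow_le_pow_left₀ (norm_nonneg _) hw 2

/-- one `p` good for all dilates `1 ≤ k < M` (convolve the `(1/k) • p_k`) -/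
theorem q0_multi (hF : Mult μ F) (h : Q0 fun z => ∫ w, F z w ∂μ) (M : ℕ) {ε η : ℝ} (hε : 0 < ε)
    (hη : 0 < η) : ∃ p : FP E, (∀ i, sz (p.x i) < ε) ∧ ∀ k : ℕ, 0 < k → k < M →
      n2 μ (fun w => p.av fun z => F ((k : E) * z) w) ≤ η := by
  induction M generalizing ε with
  | zero =>
    obtain ⟨p, hp, -⟩ := h ε hε η hη
    exact ⟨p, hp, fun k _ hk => absurd hk (Nat.not_lt_zero _)⟩
  | succ M ih =>
    obtain ⟨p, hp, hp'⟩ := ih (half_pos hε)
    obtain ⟨p', hq, hq'⟩ := amin2_q0 hF h (half_pos hε) hη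
    refine ⟨amin2_conv p p' (M : E)⁻¹, fun i => ?_, fun k hk0 hk => ?_⟩
    · have h1 := hp i.1
      have h2 := hq i.2
      have h3 : ‖(M : ℂ)⁻¹‖ ≤ 1 := by
        rw [norm_inv, Complex.norm_natCast]
        exact Nat.cast_inv_le_one M
      change ‖((p.x i.1 + (M : E)⁻¹ * p'.x i.2 : E) : ℂ)‖ < ε
      push_cast
      refine (norm_add_le _ _).trans_lt ?_
      rw [norm_mul]
      have h4 := mul_le_of_le_one_left (norm_nonneg ((p'.x i.2 : E) : ℂ)) h3
      unfold sz at h1 h2
      linarith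
    · have b : ∀ (q : FP E) (c : E) w, ‖q.av fun z => F (c * z) w‖ ≤ 1 := fun q c w =>
        amin2_norm_av_le q fun z => (hF.norm_one _ w).le
      rcases (Nat.lt_succ_iff.1 hk).lt_or_eq with hk' | rfl
      · refine le_trans (amin2_n2_le (amin2_meas_av p fun z => hF.meas _) (b p k) ?_)
          (hp' k hk0 hk')
        filter_upwards [amin2_conv_av hF p p' (M : E)⁻¹ k] with w hw
        rw [hw, norm_mul]
        exact mul_le_of_le_one_right (norm_nonneg _) (b _ _ _)
      · refine le_trans (amin2_n2_le (amin2_meas_av p' hF.meas)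
          (fun w => amin2_norm_av_le p' fun z => (hF.norm_one _ w).le) ?_) hq'
        filter_upwards [amin2_conv_av hF p p' (k : E)⁻¹ k] with w hw
        have hk1 : (k : E) ≠ 0 := Nat.cast_ne_zero.2 hk0.ne'
        rw [hw, norm_mul, mul_inv_cancel₀ hk1]
        simp only [one_mul]
        exact mul_le_of_le_one_left (norm_nonneg _) (b _ _ _)

end Crest.Agent.R40.A
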