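import Crest.Agent.R40.AMin1
import Crest.Agent.R40.AMin2

/-! Row 40 A: no continuity set implies `Q0`. -/

set_option autoImplicit false
open MeasureTheory ProbabilityTheory Filter Topology
open scoped ComplexConjugate

noncomputable section
namespace Crest.Agent.R40.A

variable {W : Type} [MeasurableSpace W] {μ : Measure W} [IsFiniteMeasure μ] {F : E → W → ℂ}

omit [IsFiniteMeasure μ] in
theorem amin3_mem (hF : Mult μ F) (z : E) (g : Lp ℂ 2 μ) : MemLp (fun w => F z w * g w) 2 μ :=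
  (Lp.memLp g).of_le ((hF.meas z).aestronglyMeasurable.mul (Lp.aestronglyMeasurable g))
    (Eventually.of_forall fun w => by rw [norm_mul, hF.norm_one, one_mul])

omit [IsFiniteMeasure μ] in
theorem amin3_exists (hF : Mult μ F) : ∃ T : E → Lp ℂ 2 μ →ₗᵢ[ℂ] Lp ℂ 2 μ,
    ∀ z g, T z g =ᵐ[μ] fun w => F z w * g w := by
  refine ⟨fun z =>
    { toFun := fun g => (amin3_mem hF z g).toLp _
      map_add' := fun g g' => ?_
      map_smul' := fun c g => ?_
      norm_map' := fun g => ?_ }, fun z g => (amin3_mem hF z g).coeFn_toLp⟩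
  · refine Lp.ext ?_
    filter_upwards [(amin3_mem hF z (g + g')).coeFn_toLp, (amin3_mem hF z g).coeFn_toLp,
      (amin3_mem hF z g').coeFn_toLp, Lp.coeFn_add g g',
      Lp.coeFn_add ((amin3_mem hF z g).toLp _) ((amin3_mem hF z g').toLp _)] with w a b c d e
    rw [a, e, Pi.add_apply, b, c, d, Pi.add_apply, mul_add]
  · refine Lp.ext ?_
    filter_upwards [(amin3_mem hF z (c • g)).coeFn_toLp, (amin3_mem hF z g).coeFn_toLp,
      Lp.coeFn_smul c g, Lp.coeFn_smul c ((amin3_mem hF z g).toLp _)] with w a b d e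
    rw [RingHom.id_apply, a, e, Pi.smul_apply, b, d, Pi.smul_apply, smul_eq_mul, smul_eq_mul]
    ring
  · change ‖(amin3_mem hF z g).toLp _‖ = ‖g‖
    rw [Lp.norm_toLp, Lp.norm_def]
    congr 1
    exact eLpNorm_congr_norm_ae
      (Eventually.of_forall fun w => by rw [norm_mul, hF.norm_one, one_mul])

omit [IsFiniteMeasure μ] in
theorem amin3_norm_sq (g : Lp ℂ 2 μ) : ‖g‖ ^ 2 = ∫ w, ‖g w‖ ^ 2 ∂μ := by
  have h := L2.inner_def (𝕜 := ℂ) g g
  simp only [inner_self_eq_norm_sq_to_K] at h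
  have h2 : ∫ w, ((‖g w‖ : ℂ)) ^ 2 ∂μ = ((∫ w, ‖g w‖ ^ 2 ∂μ : ℝ) : ℂ) := by
    rw [← integral_complex_ofReal]
    simp
  exact Complex.ofReal_injective (by rw [Complex.ofReal_pow]; exact h.trans h2)

omit [IsFiniteMeasure μ] in
theorem amin3_int (g : Lp ℂ 2 μ) : Integrable (fun w => ‖g w‖ ^ 2) μ :=
  (memLp_two_iff_integrable_sq_norm (Lp.aestronglyMeasurable g)).1 (Lp.memLp g)

omit [IsFiniteMeasure μ] in
theorem amin3_zero (hF : Mult μ F) : ∀ᵐ w ∂μ, F 0 w = 1 := by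
  filter_upwards [hF.mul 0 0] with w hw
  have h0 : F 0 w ≠ 0 := norm_ne_zero_iff.1 (by rw [hF.norm_one]; exact one_ne_zero)
  rw [add_zero] at hw
  exact mul_left_cancel₀ h0 (by rw [mul_one]; exact hw.symm)

omit [IsFiniteMeasure μ] in
theorem amin3_cset {T : E → Lp ℂ 2 μ →ₗᵢ[ℂ] Lp ℂ 2 μ}
    (hT : ∀ z g, T z g =ᵐ[μ] fun w => F z w * g w) {ζ : Lp ℂ 2 μ} (hζ : Cont T ζ) {t : ℝ}
    (ht : 0 < t) : CSet μ F {w | t ≤ ‖ζ w‖} := by
  have hm : MeasurableSet {w | t ≤ ‖ζ w‖} :=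
    measurableSet_le measurable_const (Lp.stronglyMeasurable ζ).measurable.norm
  refine ⟨hm, fun η hη => ?_⟩
  obtain ⟨δ, hδ, h⟩ := hζ (t * √η) (by positivity)
  refine ⟨δ, hδ, fun z hz => ?_⟩
  have h1 : ‖T z ζ - ζ‖ ^ 2 ≤ t ^ 2 * η := by
    have := pow_le_pow_left₀ (norm_nonneg _) (h z hz) 2
    rwa [mul_pow, Real.sq_sqrt hη.le] at this
  have hi := (amin3_int (T z ζ - ζ)).const_mul (t ^ 2)⁻¹
  calc ∫ w in {w | t ≤ ‖ζ w‖}, ‖F z w - 1‖ ^ 2 ∂μ
      ≤ ∫ w in {w | t ≤ ‖ζ w‖}, (t ^ 2)⁻¹ * ‖(T z ζ - ζ) w‖ ^ 2 ∂μ := by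
        refine integral_mono_of_nonneg (Eventually.of_forall fun w => sq_nonneg _)
          hi.integrableOn ?_
        filter_upwards [ae_restrict_mem hm, ae_restrict_of_ae (hT z ζ),
          ae_restrict_of_ae (Lp.coeFn_sub (T z ζ) ζ)] with w a b c
        have a' : t ≤ ‖ζ w‖ := a
        rw [c, Pi.sub_apply, b, ← sub_one_mul, norm_mul, mul_pow, le_inv_mul_iff₀ (by positivity),
          mul_comm]
        exact mul_le_mul_of_nonneg_left (pow_le_pow_left₀ ht.le a' 2) (sq_nonneg _)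
    _ ≤ ∫ w, (t ^ 2)⁻¹ * ‖(T z ζ - ζ) w‖ ^ 2 ∂μ :=
        setIntegral_le_integral hi (Eventually.of_forall fun w => by positivity)
    _ ≤ η := by
        rw [integral_const_mul, ← amin3_norm_sq, inv_mul_le_iff₀ (by positivity)]
        exact h1

omit [IsFiniteMeasure μ] in
theorem amin3_sum {ι : Type} (s : Finset ι) (c : ι → ℝ) (g : ι → Lp ℂ 2 μ) :
    ((∑ i ∈ s, c i • g i : Lp ℂ 2 μ) : W → ℂ) =ᵐ[μ] fun w => ∑ i ∈ s, c i • g i w := by
  classical
  induction s using Finset.induction_on with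
  | empty => simp only [Finset.sum_empty]; exact Lp.coeFn_zero ℂ 2 μ
  | insert i s hi ih =>
    rw [Finset.sum_insert hi]
    filter_upwards [ih, Lp.coeFn_add (c i • g i) (∑ i ∈ s, c i • g i), Lp.coeFn_smul (c i) (g i)]
      with w a b d
    rw [b, Pi.add_apply, a, d, Finset.sum_insert hi, Pi.smul_apply]

/-- apply `mn` to multiplication by `F z` on `Lp ℂ 2 μ` and the vector `1`; a continuous vector
`ζ` gives continuity sets `{‖ζ‖ ≥ t}` -/
theorem q0_of_null (hF : Mult μ F) (h : ∀ R, CSet μ F R → μ R = 0) :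
    Q0 fun z => ∫ w, F z w ∂μ := by
  intro ε hε η hη
  obtain ⟨T, hT⟩ := amin3_exists hF
  have h0 : ∀ ξ, T 0 ξ = ξ := fun ξ => Lp.ext <| by
    filter_upwards [hT 0 ξ, amin3_zero hF] with w a b
    rw [a, b, one_mul]
  have hadd : ∀ x y ξ, T (x + y) ξ = T x (T y ξ) := fun x y ξ => Lp.ext <| by
    filter_upwards [hT (x + y) ξ, hT x (T y ξ), hT y ξ, hF.mul x y] with w a b c d
    rw [a, b, c, d, mul_assoc]
  have h1 := (memLp_const (μ := μ) (p := 2) (1 : ℂ)).coeFn_toLp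
  obtain ⟨ζ, hζ, hc⟩ := mn h0 hadd ((memLp_const (μ := μ) (p := 2) (1 : ℂ)).toLp _) hε
  have hz : ζ = 0 := by
    refine Lp.ext ?_
    have h2 : ∀ n : ℕ, ∀ᵐ w ∂μ, ‖ζ w‖ < 1 / ((n : ℝ) + 1) := fun n => by
      rw [ae_iff]
      simpa only [not_lt] using h _ (amin3_cset hT hc Nat.one_div_pos_of_nat)
    filter_upwards [ae_all_iff.2 h2, Lp.coeFn_zero ℂ 2 μ] with w a b
    rw [b, Pi.zero_apply]
    by_contra hne
    obtain ⟨n, hn⟩ := exists_nat_one_div_lt (norm_pos_iff.2 hne)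
    exact absurd (a n) (not_lt.2 hn.le)
  rw [hz, Metric.mem_closure_iff] at hζ
  obtain ⟨v, ⟨p, hp, rfl⟩, hv⟩ := hζ (√η) (Real.sqrt_pos.2 hη)
  refine ⟨p, hp, ?_⟩
  rw [dist_comm, dist_zero_right] at hv
  have h3 := pow_le_pow_left₀ (norm_nonneg _) hv.le 2
  rw [Real.sq_sqrt hη.le, amin3_norm_sq] at h3
  have h4 : n2 μ (fun w => p.av fun z => F z w) = ∫ w, ‖(p.av fun z =>
      T z ((memLp_const (μ := μ) (p := 2) (1 : ℂ)).toLp _)) w‖ ^ 2 ∂μ := by
    refine integral_congr_ae ?_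
    filter_upwards [amin3_sum Finset.univ p.w fun i =>
        T (p.x i) ((memLp_const (μ := μ) (p := 2) (1 : ℂ)).toLp _),
      ae_all_iff.2 fun i => hT (p.x i) ((memLp_const (μ := μ) (p := 2) (1 : ℂ)).toLp _), h1]
      with w a b c
    simp only [FP.av]
    rw [a]
    simp only [b, c, mul_one]
  rw [Q_eq hF p, Complex.norm_real, h4, Real.norm_of_nonneg (integral_nonneg fun w => sq_nonneg _)]
  exact h3

end Crest.Agent.R40.A
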