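import Crest.Agent.R40.APlus
import Crest.Agent.R40.AMin
import Crest.Agent.R40.AAlg1

/-! Row 40 A: the `3/4` bound. -/

set_option autoImplicit false
open MeasureTheory ProbabilityTheory Filter Topology
open scoped ComplexConjugate

noncomputable section
namespace Crest.Agent.R40.A

variable {ν : Measure X} [IsProbabilityMeasure ν]

lemma abase2_int {W : Type} [MeasurableSpace W] (μ : Measure W) [IsFiniteMeasure μ] {g : W → ℝ}
    (hg : Measurable g) {C : ℝ} (hC : ∀ x, |g x| ≤ C) : Integrable g μ :=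
  Integrable.of_bound hg.aestronglyMeasurable C (Eventually.of_forall hC)

lemma abase2_int_cE (Y : Fac) (z : E) : Integrable (fun x => ‖cE ν Y (f z) x‖ ^ 2) ν :=
  abase2_int ν ((cE_bm Y (bm_f z)).1.norm.pow_const 2) (C := 1) fun x => by
    rw [abs_of_nonneg (sq_nonneg _)]
    exact pow_le_one₀ (norm_nonneg _) (cE_norm_le Y (fun d => (norm_f z d).le) x)

lemma abase2_int_F2 (hν : Good ν) (Y : Fac) (z : E) :
    Integrable (fun w => ‖F2 z w - 1‖ ^ 2) (lam ν Y) :=
  abase2_int _ ((((mult_F2 Y hν).meas z).sub_const 1).norm.pow_const 2) (C := 2 ^ 2) fun w => by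
    rw [abs_of_nonneg (sq_nonneg _)]
    refine pow_le_pow_left₀ (norm_nonneg _) ((norm_sub_le _ _).trans ?_) 2
    rw [(mult_F2 Y hν).norm_one, norm_one, one_add_one_eq_two]

lemma abase2_A (hν : Good ν) (Y : Fac) {B : Set X} (hB : MeasurableSet[Y.m] B) (z : E) :
    ∫ w in Prod.fst ⁻¹' B, ‖F2 z w - 1‖ ^ 2 ∂(lam ν Y) =
      2 * (ν.real B - ∫ x in B, ‖cE ν Y (f z) x‖ ^ 2 ∂ν) := by
  have hB' : MeasurableSet B := Y.le B hB
  have hF := mult_F2 Y hν
  have iF : Integrable (F2 z) (lam ν Y) := Integrable.of_bound (hF.meas z).aestronglyMeasurable 1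
    (Eventually.of_forall fun w => (hF.norm_one z w).le)
  have hk : ∀ x, ‖B.indicator (fun _ => (1 : ℂ)) x‖ ≤ 1 := fun x => by
    by_cases hx : x ∈ B <;> simp [hx]
  have e1 : ∀ w, ‖F2 z w - 1‖ ^ 2 = 2 * (1 - (F2 z w).re) := fun w => by
    have := hF.norm_one z w
    rw [Complex.norm_def, Real.sqrt_eq_one, Complex.normSq_apply] at this
    rw [Complex.sq_norm, Complex.normSq_apply]
    simp only [Complex.sub_re, Complex.one_re, Complex.sub_im, Complex.one_im]
    linarith
  have e2 : ∫ w in Prod.fst ⁻¹' B, F2 z w ∂(lam ν Y) =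
      ((∫ x in B, ‖cE ν Y (f z) x‖ ^ 2 ∂ν : ℝ) : ℂ) := by
    have h1 := integral_lam_mul (ν := ν) Y (a := fun x => B.indicator (fun _ => (1 : ℂ)) x * f z x)
      (b := fun x => conj (f z x))
      ⟨(measurable_const.indicator hB').mul (measurable_f z), 1, fun x => by
        rw [norm_mul, norm_f, mul_one]; exact hk x⟩
      ⟨Complex.continuous_conj.measurable.comp (measurable_f z), 1, fun x => by
        rw [Complex.norm_conj, norm_f]⟩
    rw [← integral_complex_ofReal, ← integral_indicator hB', ← integral_indicator (measurable_fst hB')]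
    refine Eq.trans (integral_congr_ae (Eventually.of_forall fun w => ?_))
      (h1.trans (integral_congr_ae ?_))
    · by_cases hw : w.1 ∈ B <;> simp [Set.indicator, hw, F2]
    · filter_upwards [cE_mul (ν := ν) Y (measurable_const.indicator hB) ⟨1, hk⟩ (bm_f z)] with x hx
      rw [hx, cE_conj]
      by_cases hw : x ∈ B <;> simp [hw, Complex.mul_conj, Complex.normSq_eq_norm_sq]
  simp only [e1]
  have iR : Integrable (fun w => (F2 z w).re) (lam ν Y) := iF.re
  rw [integral_const_mul, integral_sub (integrable_const _) iR.integrableOn]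
  congr 2
  · rw [setIntegral_const, smul_eq_mul, mul_one,
      (mp_fst Y).measureReal_preimage hB'.nullMeasurableSet]
  · have := integral_re (μ := (lam ν Y).restrict (Prod.fst ⁻¹' B)) iF.integrableOn
    rw [e2] at this
    exact this

lemma abase2_inv (hν : Good ν) (Y : Fac) {B : Set X} (hB : MeasurableSet B)
    (hi : ∀ u, ∀ᵐ x ∂ν, (act u x ∈ B ↔ x ∈ B)) (u : K) (r : E) :
    ∫ x in B, ‖cE ν Y (f (kv u * r)) x‖ ^ 2 ∂ν = ∫ x in B, ‖cE ν Y (f r) x‖ ^ 2 ∂ν := by
  have hm : Measurable (B.indicator fun x => ‖cE ν Y (f r) x‖ ^ 2) :=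
    ((cE_bm Y (bm_f r)).1.norm.pow_const 2).indicator hB
  rw [← integral_indicator hB, ← integral_indicator hB]
  have h0 := integral_map (μ := ν) (measurable_act u).aemeasurable hm.aestronglyMeasurable
  rw [(hν.mp u).map_eq] at h0
  rw [h0]
  refine integral_congr_ae ?_
  filter_upwards [hi u, cE_act Y hν (bm_f r) u] with x h1 h2
  have h3 : cE ν Y (f (kv u * r)) x = cE ν Y (f r) (act u x) := h2
  by_cases hx : x ∈ B
  · rw [Set.indicator_of_mem hx, Set.indicator_of_mem (h1.2 hx), h3]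
  · rw [Set.indicator_of_notMem hx, Set.indicator_of_notMem fun h => hx (h1.1 h)]

lemma abase2_sum (hν : Good ν) (Y : Fac) (S : Set (X × X)) (x y : E) :
    ∫ w in S, ‖F2 (x + y) w - 1‖ ^ 2 ∂(lam ν Y) ≤
      2 * ∫ w in S, ‖F2 x w - 1‖ ^ 2 ∂(lam ν Y) + 2 * ∫ w in S, ‖F2 y w - 1‖ ^ 2 ∂(lam ν Y) := by
  have i := fun z => (abase2_int_F2 hν Y z).integrableOn (s := S)
  rw [← integral_const_mul, ← integral_const_mul,
    ← integral_add ((i x).const_mul 2) ((i y).const_mul 2)]
  refine integral_mono_ae (i _) (((i x).const_mul 2).add ((i y).const_mul 2))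
    (ae_restrict_of_ae ?_)
  filter_upwards [(mult_F2 Y hν).mul x y] with w hw
  have h1 : ‖F2 (x + y) w - 1‖ ≤ ‖F2 x w - 1‖ + ‖F2 y w - 1‖ := by
    have : F2 (x + y) w - 1 = (F2 x w - 1) * F2 y w + (F2 y w - 1) := by rw [hw]; ring
    rw [this]
    refine (norm_add_le _ _).trans ?_
    rw [norm_mul, (mult_F2 Y hν).norm_one, mul_one]
  have h2 := pow_le_pow_left₀ (norm_nonneg _) h1 2
  nlinarith [sq_nonneg (‖F2 x w - 1‖ - ‖F2 y w - 1‖)]

lemma abase2_Q {φ : E → ℂ} {p : FP E} {c : ℝ} (h : ∀ i j, c ≤ (φ (p.x i - p.x j)).re) :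
    c ≤ ‖Q φ p‖ := by
  refine le_trans ?_ (Complex.re_le_norm _)
  simp only [Q, FP.av, Complex.re_sum, Complex.smul_re, smul_eq_mul]
  calc c = ∑ i, p.w i * ∑ j, p.w j * c := by
        simp only [← Finset.sum_mul, p.sum_one, one_mul]
    _ ≤ _ := Finset.sum_le_sum fun i _ => mul_le_mul_of_nonneg_left
        (Finset.sum_le_sum fun j _ => mul_le_mul_of_nonneg_left (h i j) (p.nonneg j)) (p.nonneg i)

/-- `B = {re h < 1/4}` is invariant, hence `plus`-measurable; on `B × X` the family `F2` is within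
`(2 - 8c) ν B` of `1` for `sz x ≤ 2 sz r` (`two_sum`), so `Q ≥ 4 c ν B` on `B(0, sz r)`. -/
theorem three_quarter (hν : Good ν) (Z : Fac) (hQ : Q0 (psi ν (plus ν Z))) {r : E} (hr : r ≠ 0)
    {h : X → ℂ}
    (hh : IsPI ν act (fun x => ((1 - ‖cE ν (plus ν Z) (f r) x‖ ^ 2 : ℝ) : ℂ)) h) :
    ∀ᵐ x ∂ν, 1 / 4 ≤ (h x).re := by
  by_contra hn
  let B : Set X := {x | (h x).re < 1 / 4}
  have hm : Measurable fun x => (h x).re := Complex.measurable_re.comp hh.bm.1
  have hB : MeasurableSet B := measurableSet_lt hm measurable_const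
  have hB0 : ν B ≠ 0 := fun h0 => hn (by
    rw [ae_iff]
    simpa only [not_le] using h0)
  have hi : ∀ u, ∀ᵐ x ∂ν, (act u x ∈ B ↔ x ∈ B) := fun u => by
    filter_upwards [hh.inv u] with x hx
    simp only [B, Set.mem_ofPred_eq, hx]
  have hk : BM (B.indicator fun _ => (1 : ℂ)) := ⟨measurable_const.indicator hB, 1, fun x => by
    by_cases hx : x ∈ B <;> simp [hx]⟩
  have hk' : Inv ν act (B.indicator fun _ => (1 : ℂ)) := fun u => by
    filter_upwards [hi u] with x hx
    by_cases h1 : x ∈ B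
    · rw [Set.indicator_of_mem h1, Set.indicator_of_mem (hx.2 h1)]
    · rw [Set.indicator_of_notMem h1, Set.indicator_of_notMem fun h => h1 (hx.1 h)]
  have hBY : MeasurableSet[(plus ν Z).m] B := (plus_measurableSet hν B).2 ⟨hB, AP_of_inv hk hk'⟩
  obtain ⟨C, hC⟩ := hh.bm.2
  have ih : Integrable h ν :=
    Integrable.of_bound hh.bm.1.aestronglyMeasurable C (Eventually.of_forall hC)
  have h1 : ∫ x in B, (h x).re ∂ν = ν.real B - ∫ x in B, ‖cE ν (plus ν Z) (f r) x‖ ^ 2 ∂ν := by
    have e : ∀ g : X → ℂ, ∫ x, g x * B.indicator (fun _ => (1 : ℂ)) x ∂ν = ∫ x in B, g x ∂ν :=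
      fun g => by
        rw [← integral_indicator hB]
        refine integral_congr_ae (Eventually.of_forall fun x => ?_)
        by_cases hx : x ∈ B <;> simp [hx]
    have h2 := hh.orth _ hk hk'
    rw [e, e, integral_complex_ofReal,
      integral_sub (integrable_const _) (abase2_int_cE _ r).integrableOn, setIntegral_const,
      smul_eq_mul, mul_one] at h2
    have h3 := integral_re (μ := ν.restrict B) ih.integrableOn
    rw [h2] at h3
    exact h3
  have h2 : ∫ x in B, (h x).re ∂ν < ν.real B / 4 := by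
    have iR : Integrable (fun x => (h x).re) ν := ih.re
    have i1 : IntegrableOn (fun x => 1 / 4 - (h x).re) B ν :=
      (integrable_const _).sub iR.integrableOn
    have h3 := (setIntegral_pos_iff_support_of_nonneg_ae
      ((ae_restrict_iff' hB).2 (Eventually.of_forall fun x hx => sub_nonneg.2 (le_of_lt hx))) i1).2
      ((pos_iff_ne_zero.2 hB0).trans_le (measure_mono fun x hx => ⟨(sub_pos.2 hx).ne', hx⟩))
    rw [integral_sub (integrable_const _) iR.integrableOn, setIntegral_const, smul_eq_mul] at h3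
    linarith
  have key : ∀ x : E, sz x ≤ 2 * sz r →
      ν.real B - 4 * ∫ x in B, (h x).re ∂ν ≤ (psi ν (plus ν Z) x).re := fun x hx => by
    obtain ⟨u, v, rfl⟩ := two_sum hr hx
    have h3 := abase2_sum hν (plus ν Z) (Prod.fst ⁻¹' B) (kv u * r) (kv v * r)
    rw [abase2_A hν _ hBY, abase2_A hν _ hBY, abase2_A hν _ hBY, abase2_inv hν _ hB hi,
      abase2_inv hν _ hB hi, ← h1] at h3
    have h4 := setIntegral_le_integral (s := B) (abase2_int_cE (ν := ν) (plus ν Z)
      (kv u * r + kv v * r)) (Eventually.of_forall fun x => sq_nonneg _)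
    rw [psi, Complex.ofReal_re, n2]
    linarith
  have hr' : 0 < sz r := norm_pos_iff.2 (by exact_mod_cast hr)
  obtain ⟨p, hp, hp'⟩ := hQ (sz r) hr' ((ν.real B - 4 * ∫ x in B, (h x).re ∂ν) / 2) (by linarith)
  have := abase2_Q (p := p) fun i j => key (p.x i - p.x j) (by
    have h3 : sz (p.x i - p.x j) ≤ sz (p.x i) + sz (p.x j) := by
      simp only [sz]
      push_cast
      exact norm_sub_le _ _
    linarith [hp i, hp j])
  linarith

end Crest.Agent.R40.A
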