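import Crest.Agent.R40.ADefs

/-! Row 40 A: mean ergodic theorem (function form). -/

set_option autoImplicit false
open MeasureTheory ProbabilityTheory Filter Topology
open scoped ComplexConjugate

noncomputable section
namespace Crest.Agent.R40.A

variable {G W : Type} [CommGroup G] [MeasurableSpace W] {μ : Measure W} [IsProbabilityMeasure μ]
  {S : G → W → W}

/-- the σ-algebra of the a.e. invariant sets -/
@[reducible] def aerg2_m (μ : Measure W) (S : G → W → W) : MeasurableSpace W where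
  MeasurableSet' A := MeasurableSet A ∧ ∀ u, ∀ᵐ x ∂μ, S u x ∈ A ↔ x ∈ A
  measurableSet_empty := ⟨MeasurableSet.empty, fun _ => ae_of_all _ fun _ => Iff.rfl⟩
  measurableSet_compl A hA := ⟨hA.1.compl, fun u => (hA.2 u).mono fun _ h => h.not⟩
  measurableSet_iUnion f hf := ⟨MeasurableSet.iUnion fun i => (hf i).1, fun u =>
    (ae_all_iff.2 fun i => (hf i).2 u).mono fun x h => by
      simp only [Set.mem_iUnion]; exact exists_congr h⟩

omit [CommGroup G] [IsProbabilityMeasure μ] in
theorem aerg2_meas_iff {k : W → ℂ} : Measurable[aerg2_m μ S] k ↔ Measurable k ∧ Inv μ S k :=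
  ⟨fun h => ⟨fun _ hA => (h hA).1, fun u =>
      EventuallyEq.of_forall_separating_mem_iff MeasurableSet fun _ hA => (h hA).2 u⟩,
    fun h _ hA => ⟨h.1 hA, fun u => (h.2 u).mono fun x hx => by
      simp only [Set.mem_preimage]; rw [show k (S u x) = k x from hx]⟩⟩

theorem aerg2_memLp {g : W → ℂ} (hg : BM g) (p : ENNReal) : MemLp g p μ := by
  obtain ⟨C, hC⟩ := hg.2
  exact MemLp.of_bound hg.1.aestronglyMeasurable C (ae_of_all _ hC)

theorem aerg2_int {g : W → ℂ} (hg : BM g) : Integrable g μ :=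
  memLp_one_iff_integrable.1 (aerg2_memLp hg 1)

theorem aerg2_mul {g k : W → ℂ} (hg : BM g) (hk : BM k) : BM fun x => g x * k x := by
  obtain ⟨C, hC⟩ := hg.2
  obtain ⟨D, hD⟩ := hk.2
  exact ⟨hg.1.mul hk.1, C * D, fun x => (norm_mul_le _ _).trans
    (mul_le_mul (hC x) (hD x) (norm_nonneg _) ((norm_nonneg _).trans (hC x)))⟩

theorem aerg2_sub {g k : W → ℂ} (hg : BM g) (hk : BM k) : BM fun x => g x - k x := by
  obtain ⟨C, hC⟩ := hg.2
  obtain ⟨D, hD⟩ := hk.2
  exact ⟨hg.1.sub hk.1, C + D, fun x => (norm_sub_le _ _).trans (add_le_add (hC x) (hD x))⟩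

theorem aerg2_norm_av {α V : Type} [NormedAddCommGroup V] [NormedSpace ℝ V] (p : FP α)
    {g : α → V} {C : ℝ} (h : ∀ u, ‖g u‖ ≤ C) : ‖p.av g‖ ≤ C := by
  refine (norm_sum_le _ _).trans ?_
  calc ∑ i, ‖p.w i • g (p.x i)‖ ≤ ∑ i, p.w i * C := Finset.sum_le_sum fun i _ => by
        rw [norm_smul, Real.norm_of_nonneg (p.nonneg i)]
        exact mul_le_mul_of_nonneg_left (h _) (p.nonneg i)
    _ = C := by rw [← Finset.sum_mul, p.sum_one, one_mul]

theorem aerg2_av_sub {α V : Type} [AddCommGroup V] [Module ℝ V] (p : FP α) (g k : α → V) :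
    p.av (fun u => g u - k u) = p.av g - p.av k := by
  simp only [FP.av, smul_sub, Finset.sum_sub_distrib]

theorem aerg2_av_const {α V : Type} [AddCommGroup V] [Module ℝ V] (p : FP α) (c : V) :
    p.av (fun _ => c) = c := by
  rw [FP.av, ← Finset.sum_smul, p.sum_one, one_smul]

/-- the mean ergodic theorem in a Hilbert space -/
theorem aerg2_hilbert {H : Type} [NormedAddCommGroup H] [InnerProductSpace ℂ H] [CompleteSpace H]
    (q : Fol G) (U : G → H →ₗᵢ[ℂ] H) (hU : ∀ a b x, U (a * b) x = U b (U a x)) {v : H}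
    (hv : ∀ w, (∀ a, U a w = w) → inner ℂ w v = 0) :
    Tendsto (fun n => (q.p n).av fun u => U u v) atTop (𝓝 0) := by
  let T : Submodule ℂ H :=
    { carrier := {x | Tendsto (fun n => (q.p n).av fun u => U u x) atTop (𝓝 0)}
      add_mem' := fun {x y} hx hy => by
        have := Tendsto.add hx hy
        simpa only [FP.av, map_add, smul_add, Finset.sum_add_distrib, add_zero,
          Set.mem_ofPred_eq] using this
      zero_mem' := by simp [FP.av]
      smul_mem' := fun c x hx => by
        have := Tendsto.const_smul hx c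
        simpa only [FP.av, map_smul, Finset.smul_sum, smul_zero, smul_comm c,
          Set.mem_ofPred_eq] using this }
  have hT : IsClosed (T : Set H) := by
    refine Equicontinuous.isClosed_setOfPred_tendsto (F := fun n x => (q.p n).av fun u => U u x)
      (f := fun _ => 0) (LipschitzWith.uniformEquicontinuous _ 1 fun n => ?_).equicontinuous
      continuous_const
    refine LipschitzWith.mk_one fun x y => ?_
    rw [dist_eq_norm, dist_eq_norm, ← aerg2_av_sub]
    exact aerg2_norm_av _ fun u => by rw [← map_sub, LinearIsometry.norm_map]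
  have h1 : v ∈ Tᗮᗮ := fun w hw => hv w fun a => by
    have h2 : U a w - w ∈ T := by
      have := q.inv a (fun u => U u w) ‖w‖ fun u => ((U u).norm_map w).le
      simpa only [T, Submodule.mem_mk, AddSubmonoid.mem_mk, AddSubsemigroup.mem_mk,
        Set.mem_ofPred_eq, map_sub, aerg2_av_sub, hU] using this
    have h3 := hw _ h2
    rw [inner_sub_left, sub_eq_zero] at h3
    exact eq_of_norm_le_re_inner_eq_norm_sq (𝕜 := ℂ) ((U a).norm_map w).le
      (by rw [h3, inner_self_eq_norm_sq])
  rwa [Submodule.orthogonal_orthogonal_eq_closure, hT.submodule_topologicalClosure_eq] at h1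

omit [CommGroup G] in
/-- orthogonality to the integrable invariant functions -/
theorem aerg2_orth {g h k : W → ℂ} (hg : BM g) (hh : IsPI μ S g h) (hk : Measurable k)
    (hki : Integrable k μ) (hinv : Inv μ S k) : ∫ x, (g x - h x) * k x ∂μ = 0 := by
  obtain ⟨C, hC⟩ := (aerg2_sub hg hh.bm).2
  have hm : ∀ n : ℕ, BM fun x => if ‖k x‖ ≤ n then k x else 0 := fun n =>
    ⟨Measurable.ite (measurableSet_le hk.norm measurable_const) hk measurable_const, n, fun x => by
      dsimp only
      split_ifs with h1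
      · exact h1
      · simp⟩
  have h0 : ∀ n : ℕ, ∫ x, (g x - h x) * (if ‖k x‖ ≤ n then k x else 0) ∂μ = 0 := fun n => by
    simp only [sub_mul]
    rw [integral_sub (aerg2_int (aerg2_mul hg (hm n))) (aerg2_int (aerg2_mul hh.bm (hm n))),
      hh.orth _ (hm n) fun u => (hinv u).mono fun x hx => by
        simp only [show k (S u x) = k x from hx], sub_self]
  have h1 := tendsto_integral_of_dominated_convergence (μ := μ)
    (F := fun (n : ℕ) x => (g x - h x) * (if ‖k x‖ ≤ n then k x else 0))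
    (f := fun x => (g x - h x) * k x) (fun x => C * ‖k x‖)
    (fun n => (aerg2_mul (aerg2_sub hg hh.bm) (hm n)).1.aestronglyMeasurable)
    (hki.norm.const_mul C) (fun n => ae_of_all _ fun x => (norm_mul_le _ _).trans
      (mul_le_mul (hC x) (by split_ifs <;> simp) (norm_nonneg _) ((norm_nonneg _).trans (hC x))))
    (ae_of_all _ fun x => tendsto_const_nhds.congr' (by
      filter_upwards [tendsto_natCast_atTop_atTop.eventually_ge_atTop ‖k x‖] with n hn
      rw [if_pos hn]))
  simp only [h0] at h1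
  exact (tendsto_nhds_unique tendsto_const_nhds h1).symm

omit [IsProbabilityMeasure μ] in
theorem aerg2_n2 {F : Lp ℂ 2 μ} {g : W → ℂ} (h : F =ᵐ[μ] g) : n2 μ g = ‖F‖ ^ 2 := by
  rw [← inner_self_eq_norm_sq (𝕜 := ℂ), L2.inner_def, ← integral_re (L2.integrable_inner F F), n2]
  exact integral_congr_ae (h.mono fun x hx => by simp only [← hx, inner_self_eq_norm_sq])

theorem aerg2_l1 {g : W → ℂ} (hg : BM g) : ∫ x, ‖g x‖ ∂μ ≤ √(n2 μ g) := by
  have h1 := variance_eq_sub (aerg2_memLp (μ := μ) hg 2).norm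
  have h2 := variance_nonneg (fun x => ‖g x‖) μ
  exact Real.le_sqrt_of_sq_le (by rw [h1] at h2; exact sub_nonneg.1 h2)

/-- existence of the invariant projection (orthogonal projection in `Lp ℂ 2 μ`, or the limit of
`met`; truncate a measurable representative to get the bound everywhere) -/
theorem exists_isPI [Countable G] (hS : IsAct μ S) {g : W → ℂ} (hg : Measurable g) {C : ℝ}
    (hC : ∀ x, ‖g x‖ ≤ C) : ∃ h, IsPI μ S g h ∧ ∀ x, ‖h x‖ ≤ C := by
  have hm : aerg2_m μ S ≤ ‹MeasurableSpace W› := fun _ h => h.1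
  have hgi : Integrable g μ := aerg2_int ⟨hg, C, hC⟩
  have h1 : Measurable[aerg2_m μ S] (μ[g | aerg2_m μ S]) := stronglyMeasurable_condExp.measurable
  have h2 : ∀ᵐ x ∂μ, ‖μ[g | aerg2_m μ S] x‖ ≤ C := ae_bdd_norm_condExp_of_ae_bdd_norm (ae_of_all _ hC)
  have h3 : Measurable[aerg2_m μ S]
      fun x => if ‖μ[g | aerg2_m μ S] x‖ ≤ C then μ[g | aerg2_m μ S] x else 0 :=
    Measurable.ite (measurableSet_le (measurable_norm.comp h1) measurable_const) h1 measurable_const
  have h4 : ∀ x, ‖if ‖μ[g | aerg2_m μ S] x‖ ≤ C then μ[g | aerg2_m μ S] x else 0‖ ≤ C := fun x => by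
    split_ifs with h
    · exact h
    · rw [norm_zero]; exact (norm_nonneg _).trans (hC x)
  refine ⟨_, ⟨⟨(aerg2_meas_iff.1 h3).1, C, h4⟩, (aerg2_meas_iff.1 h3).2, fun k hk hki => ?_⟩, h4⟩
  have h5 := condExp_bilin_of_stronglyMeasurable_right (ContinuousLinearMap.mul ℝ ℂ)
    (aerg2_meas_iff.2 ⟨hk.1, hki⟩).stronglyMeasurable (aerg2_int (aerg2_mul ⟨hg, C, hC⟩ hk)) hgi
  refine Eq.trans (integral_congr_ae ?_) (integral_condExp hm)
  filter_upwards [h2, h5] with x hx hx'
  rw [if_pos hx]
  exact hx'.symm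

/-- mean ergodic theorem along `σ u`, `σ` an onto endomorphism -/
theorem met [Countable G] (hS : IsAct μ S) (q : Fol G) (σ : G →* G) (hσ : Function.Surjective σ)
    {g h : W → ℂ} (hg : BM g) (hh : IsPI μ S g h) :
    Tendsto (fun n => n2 μ fun x => ((q.p n).av fun u => g (S (σ u) x)) - h x) atTop (𝓝 0) := by
  have hv := aerg2_memLp (μ := μ) (aerg2_sub hg hh.bm) 2
  let U : G → Lp ℂ 2 μ →ₗᵢ[ℂ] Lp ℂ 2 μ := fun u =>
    Lp.compMeasurePreservingₗᵢ ℂ (S (σ u)) (hS.mp (σ u))
  have hU : ∀ u F, U u F =ᵐ[μ] fun x => F (S (σ u) x) := fun u F =>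
    Lp.coeFn_compMeasurePreserving F (hS.mp (σ u))
  have h1 := aerg2_hilbert q U (fun a b F => Lp.ext ?_) (v := hv.toLp _) fun w hw => ?_
  · have h2 := h1.norm.pow 2
    rw [norm_zero, zero_pow two_ne_zero] at h2
    refine h2.congr fun n => (aerg2_n2 ?_).symm
    have h3 : ∀ i, ⇑((q.p n).w i • U ((q.p n).x i) (hv.toLp _)) =ᵐ[μ]
        fun x => (q.p n).w i • (g (S (σ ((q.p n).x i)) x) - h x) := fun i => by
      filter_upwards [Lp.coeFn_smul ((q.p n).w i) (U ((q.p n).x i) (hv.toLp _)),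
        hU ((q.p n).x i) (hv.toLp _), hh.inv (σ ((q.p n).x i)),
        (hS.mp (σ ((q.p n).x i))).quasiMeasurePreserving.ae hv.coeFn_toLp] with x e1 e2 e3 e4
      rw [e1, Pi.smul_apply, e2, e4, show h (S (σ ((q.p n).x i)) x) = h x from e3]
    filter_upwards [Lp.coeFn_fun_finsetSum Finset.univ
      fun i => (q.p n).w i • U ((q.p n).x i) (hv.toLp _), ae_all_iff.2 h3] with x e1 e2
    rw [← aerg2_av_const (q.p n) (h x), ← aerg2_av_sub]
    exact e1.trans (Finset.sum_congr rfl fun i _ => e2 i)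
  · filter_upwards [hU (a * b) F, hU b (U a F),
      (hS.mp (σ b)).quasiMeasurePreserving.ae (hU a F)] with x e1 e2 e3
    rw [e1, e2, e3, map_mul, hS.mul]
  · have hw0 := (Lp.aestronglyMeasurable w).ae_eq_mk
    have hk : Measurable fun x => conj ((Lp.aestronglyMeasurable w).mk w x) :=
      Complex.continuous_conj.measurable.comp (Lp.aestronglyMeasurable w).measurable_mk
    have h2 := aerg2_orth hg hh hk ?_ fun u => ?_
    · rw [L2.inner_def, ← h2]
      refine integral_congr_ae ?_
      filter_upwards [hw0, hv.coeFn_toLp] with x e1 e2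
      rw [e2, ← e1]
      simp
    · refine (((Lp.memLp w).integrable one_le_two).norm.mono' hk.aestronglyMeasurable ?_)
      filter_upwards [hw0] with x e1
      rw [← e1, Complex.norm_conj]
    · obtain ⟨a, rfl⟩ := hσ u
      have h3 := hU a w
      rw [hw a] at h3
      filter_upwards [hw0, h3, (hS.mp (σ a)).quasiMeasurePreserving.ae hw0] with x e1 e2 e3
      rw [← e1, ← e3, e2]

/-- two-term averages -/
theorem met_two [Countable G] (hS : IsAct μ S) (q : Fol G) (σ : G →* G)
    (hσ : Function.Surjective σ) {g h k : W → ℂ} (hg : BM g) (hh : IsPI μ S g h) (hk : BM k) :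
    Tendsto (fun n => (q.p n).av fun u => ∫ x, g (S (σ u) x) * k x ∂μ) atTop
      (𝓝 (∫ x, h x * k x ∂μ)) := by
  obtain ⟨C, hC⟩ := hg.2
  obtain ⟨D, hD⟩ := hk.2
  have hgu : ∀ u, BM fun x => g (S (σ u) x) := fun u =>
    ⟨hg.1.comp (hS.mp _).measurable, C, fun x => hC _⟩
  have hav : ∀ n, BM fun x => (q.p n).av fun u => g (S (σ u) x) := fun n =>
    ⟨Finset.measurable_fun_sum _ fun i _ => (hgu _).1.const_smul _, C,
      fun x => aerg2_norm_av _ fun u => hC _⟩
  have h1 : Tendsto (fun n => √(n2 μ fun x => ((q.p n).av fun u => g (S (σ u) x)) - h x) * |D|)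
      atTop (𝓝 0) := by
    simpa using (met hS q σ hσ hg hh).sqrt.mul_const |D|
  rw [tendsto_iff_norm_sub_tendsto_zero]
  refine squeeze_zero (fun n => norm_nonneg _) (fun n => ?_) h1
  have h2 : ((q.p n).av fun u => ∫ x, g (S (σ u) x) * k x ∂μ) =
      ∫ x, ((q.p n).av fun u => g (S (σ u) x)) * k x ∂μ := by
    simp only [FP.av, Finset.sum_mul, smul_mul_assoc]
    rw [integral_finsetSum _ (f := fun i x => (q.p n).w i • (g (S (σ ((q.p n).x i)) x) * k x))
      fun i _ => (aerg2_int (aerg2_mul (hgu ((q.p n).x i)) hk)).smul ((q.p n).w i)]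
    simp only [integral_smul]
  rw [h2, ← integral_sub (aerg2_int (aerg2_mul (hav n) hk)) (aerg2_int (aerg2_mul hh.bm hk))]
  refine (norm_integral_le_of_norm_le ((aerg2_int (aerg2_sub (hav n) hh.bm)).norm.mul_const |D|)
    (ae_of_all _ fun x => ?_)).trans ?_
  · rw [← sub_mul, norm_mul]
    exact mul_le_mul_of_nonneg_left ((hD x).trans (le_abs_self D)) (norm_nonneg _)
  · rw [integral_mul_const]
    exact mul_le_mul_of_nonneg_right (aerg2_l1 (aerg2_sub (hav n) hh.bm)) (abs_nonneg D)

end Crest.Agent.R40.A
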