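import Crest.Agent.R40.ARel1
import Crest.Agent.R40.AErg
import Crest.Agent.R40.AAlg1

/-! Row 40 A: non-orthogonality. -/

set_option autoImplicit false
open MeasureTheory ProbabilityTheory Filter Topology
open scoped ComplexConjugate

noncomputable section
namespace Crest.Agent.R40.A

variable {ν : Measure X} [IsProbabilityMeasure ν]

lemma abase3_bessel {H ι : Type*} [NormedAddCommGroup H] [InnerProductSpace ℂ H] (s : Finset ι)
    (v : ι → H) (g : H) (h1 : ∀ i ∈ s, ‖v i‖ ≤ 1) (hg : ‖g‖ ≤ 1)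
    (h0 : ∀ i ∈ s, ∀ j ∈ s, i ≠ j → inner ℂ (v i) (v j) = 0) :
    ∑ i ∈ s, ‖inner ℂ g (v i)‖ ^ 2 ≤ 1 := by
  obtain ⟨w, hw⟩ : ∃ w, w = ∑ i ∈ s, inner ℂ (v i) g • v i := ⟨_, rfl⟩
  obtain ⟨S, hS⟩ : ∃ S, S = ∑ i ∈ s, ‖inner ℂ g (v i)‖ ^ 2 := ⟨_, rfl⟩
  have e1 : inner ℂ g w = (S : ℂ) := by
    rw [hw, hS, inner_sum]
    push_cast
    refine Finset.sum_congr rfl fun i _ => ?_
    rw [inner_smul_right, ← inner_conj_symm (v i) g, Complex.conj_mul']
  have e2 : ‖w‖ ^ 2 ≤ S := by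
    rw [← inner_self_eq_norm_sq (𝕜 := ℂ), hS]
    conv_lhs => rw [hw, sum_inner, map_sum]
    refine Finset.sum_le_sum fun i hi => ?_
    rw [inner_smul_left, inner_sum, Finset.sum_eq_single i (fun j hj hne => by
      rw [inner_smul_right, h0 i hi j hj hne.symm, mul_zero]) fun h => absurd hi h,
      inner_smul_right, ← mul_assoc, Complex.conj_mul', inner_self_eq_norm_sq_to_K,
      norm_inner_symm]
    refine (RCLike.re_le_norm _).trans ?_
    simp only [norm_mul, norm_pow, Complex.norm_real, norm_norm, Complex.coe_algebraMap]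
    exact mul_le_of_le_one_right (sq_nonneg _) (pow_le_one₀ (norm_nonneg _) (h1 i hi))
  have e3 : S ≤ ‖w‖ := by
    have h2 := norm_inner_le_norm (𝕜 := ℂ) g w
    rw [e1, Complex.norm_real] at h2
    exact (le_abs_self S).trans (h2.trans (mul_le_of_le_one_left (norm_nonneg _) hg))
  rw [← hS]
  nlinarith [norm_nonneg w]

lemma abase3_bm_mul {g h : X → ℂ} (hg : BM g) (hh : BM h) : BM fun x => g x * h x := by
  obtain ⟨h1, C, hC⟩ := hg
  obtain ⟨h2, D, hD⟩ := hh
  exact ⟨h1.mul h2, C * D, fun x => (norm_mul_le _ _).trans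
    (mul_le_mul (hC x) (hD x) (norm_nonneg _) ((norm_nonneg _).trans (hC x)))⟩

lemma abase3_bm_conj {g : X → ℂ} (hg : BM g) : BM fun x => conj (g x) := by
  obtain ⟨h1, C, hC⟩ := hg
  exact ⟨Complex.continuous_conj.measurable.comp h1, C, fun x => by simpa using hC x⟩

omit [IsProbabilityMeasure ν] in
lemma abase3_inv_mul {g h : X → ℂ} (hg : Inv ν act g) (hh : Inv ν act h) :
    Inv ν act fun x => g x * h x := fun u => by
  filter_upwards [hg u, hh u] with x h1 h2
  rw [h1, h2]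

omit [IsProbabilityMeasure ν] in
lemma abase3_inv_conj {g : X → ℂ} (hg : Inv ν act g) : Inv ν act fun x => conj (g x) := fun u => by
  filter_upwards [hg u] with x h1
  rw [h1]

/-- Bessel's inequality in function form -/
lemma abase3_bessel' {ι : Type*} (s : Finset ι) (v : ι → X → ℂ) (k : X → ℂ)
    (hv : ∀ i, Measurable (v i)) (h1 : ∀ i x, ‖v i x‖ ≤ 1) (hk : Measurable k)
    (hk1 : ∀ x, ‖k x‖ ≤ 1)
    (h0 : ∀ i ∈ s, ∀ j ∈ s, i ≠ j → ∫ x, v j x * conj (v i x) ∂ν = 0) :
    ∑ i ∈ s, ‖∫ x, v i x * k x ∂ν‖ ^ 2 ≤ 1 := by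
  have key : ∀ g : X → ℂ, Measurable g → (∀ x, ‖g x‖ ≤ 1) →
      ∃ G : Lp ℂ 2 ν, ‖G‖ ≤ 1 ∧ G =ᵐ[ν] g := fun g hg hb => by
    have hm : MemLp g 2 ν := MemLp.of_bound hg.aestronglyMeasurable 1 (.of_forall hb)
    refine ⟨hm.toLp g, ?_, hm.coeFn_toLp⟩
    have := Lp.norm_le_of_ae_bound (f := hm.toLp g) zero_le_one (by
      filter_upwards [hm.coeFn_toLp] with x hx
      rw [hx]
      exact hb x)
    simpa [measureUnivNNReal] using this
  choose V hV hV' using fun i => key (v i) (hv i) (h1 i)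
  obtain ⟨G, hG, hG'⟩ := key (fun x => conj (k x)) (Complex.continuous_conj.measurable.comp hk)
    fun x => by simpa using hk1 x
  refine le_trans (le_of_eq (Finset.sum_congr rfl fun i _ => ?_))
    (abase3_bessel s V G (fun i _ => hV i) hG fun i hi j hj hij => ?_)
  · rw [L2.inner_def]
    congr 2
    refine integral_congr_ae ?_
    filter_upwards [hV' i, hG'] with x a1 a2
    simp [a1, a2]
  · rw [L2.inner_def, ← h0 i hi j hj hij]
    refine integral_congr_ae ?_
    filter_upwards [hV' i, hV' j] with x a1 a2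
    simp [a1, a2]

/-- `ξ_a` = invariant projection of `f a` depends only on `sz a`. Averages of
`∫ f (r + u r) conj(ξ_r²) = ∫ ξ_{r+ur} conj(ξ_r²)` tend to `∫ ‖ξ_r‖⁴ > 0`; if the `ξ` of different
radii were orthogonal, Bessel + `fiber_finite` + `Fol.finite_mass` would give limit `0`. -/
theorem nonorth (hν : Good ν) {r : E} (hr : r ≠ 0) (h : ∫ d, f r d ∂ν ≠ 0) :
    ∃ a b : E, a ≠ 0 ∧ b ≠ 0 ∧ sz a ≠ sz b ∧
      ∃ ξ, IsPI ν act (f b) ξ ∧ ∫ x, ξ x * f (-a) x ∂ν ≠ 0 := by
  by_contra hne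
  push Not at hne
  choose ξ hξ hξ1 using fun a : E =>
    exists_isPI (isAct_act hν) (measurable_f a) fun x => (norm_f a x).le
  have hM := mult_f hν
  have hneg : ∀ a, ∀ᵐ x ∂ν, f (-a) x = conj (f a x) := fun a => by
    filter_upwards [hM.mul 0 0, hM.mul a (-a)] with x h0 h1
    have n0 : ∀ z, f z x ≠ 0 := fun z h => by simpa [h] using norm_f z x
    rw [add_zero] at h0
    have h2 : f 0 x = 1 := mul_left_cancel₀ (n0 0) (by rw [← h0, mul_one])
    rw [add_neg_cancel, h2] at h1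
    refine mul_left_cancel₀ (n0 a) ?_
    rw [← h1, Complex.mul_conj', norm_f]
    simp
  have horth : ∀ a b : E, a ≠ 0 → b ≠ 0 → sz a ≠ sz b → ∫ x, ξ b x * conj (ξ a x) ∂ν = 0 :=
    fun a b ha hb hab => by
      have h1 := congrArg conj ((hξ a).orth _ (abase3_bm_conj (hξ b).bm)
        (abase3_inv_conj (hξ b).inv))
      rw [← integral_conj, ← integral_conj] at h1
      simp only [map_mul, Complex.conj_conj, mul_comm _ (ξ b _)] at h1
      rw [h1, ← hne a b ha hb hab _ (hξ b)]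
      refine integral_congr_ae ?_
      filter_upwards [hneg a] with x hx
      rw [hx]
  let k : X → ℂ := fun x => conj (ξ r x) * conj (ξ r x)
  have kb : BM k := abase3_bm_mul (abase3_bm_conj (hξ r).bm) (abase3_bm_conj (hξ r).bm)
  have ki : Inv ν act k := abase3_inv_mul (abase3_inv_conj (hξ r).inv) (abase3_inv_conj (hξ r).inv)
  have k1 : ∀ x, ‖k x‖ ≤ 1 := fun x => by
    simp only [k, norm_mul, Complex.norm_conj]
    exact mul_le_one₀ (hξ1 r x) (norm_nonneg _) (hξ1 r x)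
  obtain ⟨q⟩ := exists_fol K
  have hlim := met_two (isAct_act hν) q (MonoidHom.id K) Function.surjective_id (bm_f r) (hξ r)
    (abase3_bm_mul (bm_f r) kb)
  obtain ⟨L, hL⟩ : ∃ L, L = ∫ x, ξ r x * (f r x * k x) ∂ν := ⟨_, rfl⟩
  rw [← hL] at hlim
  have hL0 : L ≠ 0 := fun h0 => by
    have h1 := (hξ r).orth _ (abase3_bm_mul (hξ r).bm kb) (abase3_inv_mul (hξ r).inv ki)
    simp only [mul_left_comm (f r _)] at h1
    rw [← hL, h0] at h1
    have h2 : ∀ x, ξ r x * (ξ r x * k x) = ((‖ξ r x‖ ^ 4 : ℝ) : ℂ) := fun x => by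
      have := Complex.mul_conj' (ξ r x)
      push_cast
      simp only [k]
      linear_combination (ξ r x * conj (ξ r x) + (‖ξ r x‖ : ℂ) ^ 2) * this
    simp only [h2] at h1
    rw [integral_complex_ofReal, Complex.ofReal_eq_zero, integral_eq_zero_iff_of_nonneg
      (fun x => by positivity) (Integrable.of_bound
        ((hξ r).bm.1.norm.pow_const 4).aestronglyMeasurable 1 (.of_forall fun x => by
          rw [norm_pow, norm_norm]
          exact pow_le_one₀ (norm_nonneg _) (hξ1 r x)))] at h1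
    have h3 := (hξ r).orth (fun _ => 1) ⟨measurable_const, 1, fun _ => by simp⟩
      fun _ => .rfl
    simp only [mul_one] at h3
    refine h (h3.symm.trans (integral_eq_zero_of_ae ?_))
    filter_upwards [h1] with x hx
    simpa using hx
  have hδ : 0 < ‖L‖ / 2 := half_pos (norm_pos_iff.2 hL0)
  have hR : {t : ℝ | ∃ a : E, a ≠ 0 ∧ sz a = t ∧ ‖L‖ / 2 ≤ ‖∫ x, ξ a x * k x ∂ν‖}.Finite := by
    by_contra hinf
    obtain ⟨N, hN⟩ := exists_nat_gt (1 / (‖L‖ / 2) ^ 2)
    obtain ⟨s, hs, rfl⟩ := Set.Infinite.exists_subset_card_eq hinf N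
    choose! a ha0 ha1 ha2 using fun t (ht : t ∈ s) => hs ht
    have h1 := abase3_bessel' (ν := ν) s (fun t => ξ (a t)) k (fun t => (hξ _).bm.1)
      (fun t => hξ1 _) kb.1 k1 fun i hi j hj hij =>
        horth _ _ (ha0 i hi) (ha0 j hj) (by rwa [ha1 i hi, ha1 j hj])
    have h2 := Finset.card_nsmul_le_sum s (fun t => ‖∫ x, ξ (a t) x * k x ∂ν‖ ^ 2) _
      fun t ht => pow_le_pow_left₀ hδ.le (ha2 t ht) 2
    rw [nsmul_eq_mul] at h2
    rw [div_lt_iff₀ (by positivity)] at hN
    linarith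
  have hT := (hR.insert 0).biUnion fun t _ => fiber_finite hr t
  have h1 := (q.finite_mass hT).const_add (‖L‖ / 2)
  have h2 := le_of_tendsto_of_tendsto' hlim.norm h1 fun n => by
    have e0 : ∑ i, (q.p n).w i * (‖L‖ / 2) = ‖L‖ / 2 := by
      rw [← Finset.sum_mul, (q.p n).sum_one, one_mul]
    refine le_trans ?_ (add_le_add_left e0.le _)
    rw [FP.av, FP.av, ← Finset.sum_add_distrib]
    refine (norm_sum_le _ _).trans (Finset.sum_le_sum fun i _ => ?_)
    rw [norm_smul, Real.norm_of_nonneg ((q.p n).nonneg i), smul_eq_mul, ← mul_add]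
    refine mul_le_mul_of_nonneg_left ?_ ((q.p n).nonneg i)
    generalize (q.p n).x i = u
    have e : ∫ x, f r (act (MonoidHom.id K u) x) * (f r x * k x) ∂ν =
        ∫ x, ξ (r + kv u * r) x * k x ∂ν := by
      rw [(hξ _).orth k kb ki]
      refine integral_congr_ae ?_
      filter_upwards [hM.mul r (kv u * r)] with x hx
      rw [hx, MonoidHom.id_apply, f_act]
      ring
    rw [e]
    by_cases hu : ‖∫ x, ξ (r + kv u * r) x * k x ∂ν‖ < ‖L‖ / 2
    · exact hu.le.trans (le_add_of_nonneg_right (Set.indicator_nonneg (fun _ _ => zero_le_one) _))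
    · rw [Set.indicator_of_mem]
      · refine le_trans ?_ (le_add_of_nonneg_left hδ.le)
        have h3 := norm_integral_le_of_norm_le_const (μ := ν) (C := 1)
          (f := fun x => ξ (r + kv u * r) x * k x) (.of_forall fun x => by
            rw [norm_mul]
            exact mul_le_one₀ (hξ1 _ x) (norm_nonneg _) (k1 x))
        simpa using h3
      · refine Set.mem_biUnion (x := sz (r + kv u * r)) ?_ rfl
        by_cases h0 : r + kv u * r = 0
        · exact Or.inl (by simp [h0])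
        · exact Or.inr ⟨_, h0, rfl, not_lt.1 hu⟩
  linarith

end Crest.Agent.R40.A
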