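import Crest.Agent.R40.ARel
import Crest.Agent.R40.AMin
import Crest.Agent.R40.AAlg1

/-! Row 40 A: the bottom of the tower. -/

set_option autoImplicit false
open MeasureTheory ProbabilityTheory Filter Topology
open scoped ComplexConjugate

noncomputable section
namespace Crest.Agent.R40.A

variable {ν : Measure X} [IsProbabilityMeasure ν]

lemma abase1_fst : MeasurePreserving Prod.fst (ν.prod ν) ν := measurePreserving_fst

lemma abase1_snd : MeasurePreserving Prod.snd (ν.prod ν) ν := measurePreserving_snd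

lemma abase1_mult_snd (hν : Good ν) : Mult (ν.prod ν) fun z w => f z w.2 :=
  ⟨fun z => (measurable_f z).comp measurable_snd, fun z w => norm_f z w.2,
    fun x y => abase1_snd.quasiMeasurePreserving.ae ((mult_f hν).mul x y)⟩

lemma abase1_mult (hν : Good ν) : Mult (ν.prod ν) F2 := by
  refine ⟨fun z => ((measurable_f z).comp measurable_fst).mul
    (Complex.continuous_conj.measurable.comp ((measurable_f z).comp measurable_snd)),
    fun z w => by simp [F2, norm_f], fun x y => ?_⟩
  filter_upwards [abase1_fst.quasiMeasurePreserving.ae ((mult_f hν).mul x y),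
    abase1_snd.quasiMeasurePreserving.ae ((mult_f hν).mul x y)] with w h1 h2
  simp only [F2, h1, h2, map_mul]
  ring

lemma abase1_psi : psi ν Fac.bot = fun z => ∫ w, F2 z w ∂(ν.prod ν) := by
  funext z
  have h1 : cE ν Fac.bot (f z) =ᵐ[ν] fun _ => ∫ d, f z d ∂ν := by
    have h := cE_ae (ν := ν) Fac.bot (bm_f z)
    rwa [show Fac.bot.m = ⊥ from rfl, condExp_bot] at h
  have h2 : n2 ν (cE ν Fac.bot (f z)) = ‖∫ d, f z d ∂ν‖ ^ 2 := by
    rw [n2, integral_congr_ae (g := fun _ => ‖∫ d, f z d ∂ν‖ ^ 2)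
      (h1.mono fun x hx => by simp only [hx])]
    simp
  rw [psi, h2]
  simp only [F2]
  rw [integral_prod_mul (f z) fun d => conj (f z d), integral_conj, Complex.mul_conj,
    Complex.normSq_eq_norm_sq]

lemma abase1_int {W : Type} [MeasurableSpace W] {μ : Measure W} [IsFiniteMeasure μ] {g : W → ℂ}
    (hg : Measurable g) (h1 : ∀ w, ‖g w‖ = 1) : Integrable (fun w => ‖g w - 1‖ ^ 2) μ := by
  refine Integrable.of_bound ((hg.sub_const 1).norm.pow_const 2).aestronglyMeasurable 4
    (Eventually.of_forall fun w => ?_)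
  have h2 : ‖g w - 1‖ ≤ 2 := (norm_sub_le _ _).trans (by rw [h1, norm_one]; norm_num)
  rw [norm_pow, norm_norm]
  nlinarith [norm_nonneg (g w - 1)]

lemma abase1_ineq {a b c e : ℂ} (hb : ‖b‖ = 1) (hc : ‖c‖ = 1) (h : b = e * c) :
    ‖e - 1‖ ^ 2 ≤ 2 * ‖a * conj b - 1‖ ^ 2 + 2 * ‖a * conj c - 1‖ ^ 2 := by
  have key : ∀ b : ℂ, ‖b‖ = 1 → ‖a * conj b - 1‖ = ‖a - b‖ := fun b hb => by
    have h1 : (a * conj b - 1) * b = a - b := by
      rw [sub_mul, mul_assoc, mul_comm (conj b), Complex.mul_conj, Complex.normSq_eq_norm_sq, hb]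
      simp
    rw [← h1, norm_mul, hb, mul_one]
  have h1 : ‖e - 1‖ = ‖(a - c) - (a - b)‖ := by
    rw [show a - c - (a - b) = (e - 1) * c by rw [h]; ring, norm_mul, hc, mul_one]
  rw [key b hb, key c hc, h1]
  have h2 := norm_sub_le (a - c) (a - b)
  have h3 := pow_le_pow_left₀ (norm_nonneg _) h2 2
  nlinarith [sq_nonneg (‖a - c‖ - ‖a - b‖)]

/-- `psi ν ⊥ z = ‖φ z‖² = ∫ F2 z d(ν.prod ν)`. If `R` is a continuity set of `F2` for `ν.prod ν`,
the sets `R_u = (id × act u)⁻¹ R` have the same mass, two of them overlap (`K` infinite), on the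
overlap `f ((u-v) z) w.2 → 1`, so the second marginal gives a continuity set of `f`. -/
theorem q0_bot (hν : Good ν) (h : Q0 fun z => ∫ d, f z d ∂ν) : Q0 (psi ν Fac.bot) := by
  rw [abase1_psi]
  refine q0_of_null (abase1_mult hν) fun R hR => ?_
  by_contra h0
  have hq : Q0 fun z => ∫ w, f z w.2 ∂(ν.prod ν) := by
    simpa only [integral_fun_snd, probReal_univ, one_smul] using h
  have hmp : ∀ u : K, MeasurePreserving (Prod.map id (act u)) (ν.prod ν) (ν.prod ν) := fun u =>
    (MeasurePreserving.id ν).prod (hν.mp u)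
  have hmeas : ∀ u : K, MeasurableSet (Prod.map id (act u) ⁻¹' R) := fun u =>
    (hmp u).measurable hR.1
  obtain ⟨u, v, huv, hW⟩ : ∃ u v : K, u ≠ v ∧
      (ν.prod ν) (Prod.map id (act u) ⁻¹' R ∩ Prod.map id (act v) ⁻¹' R) ≠ 0 := by
    by_contra hn
    push Not at hn
    have h1 := tsum_measure_le_measure_univ (μ := ν.prod ν)
      (fun u => (hmeas u).nullMeasurableSet) fun u v huv => hn u v huv
    simp only [fun u => (hmp u).measure_preimage hR.1.nullMeasurableSet] at h1
    rw [ENNReal.tsum_const_eq_top_of_ne_zero h0] at h1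
    exact measure_ne_top _ _ (top_le_iff.1 h1)
  refine hW (null_of_q0 (abase1_mult_snd hν) hq ⟨(hmeas u).inter (hmeas v), fun η hη => ?_⟩)
  obtain ⟨δ, hδ, hδ'⟩ := hR.2 (η / 4) (by positivity)
  have hs : kv u - kv v ≠ 0 := sub_ne_zero.2 (kv_injective.ne huv)
  have hs' : 0 < sz (kv u - kv v) := norm_pos_iff.2 (by exact_mod_cast hs)
  refine ⟨δ * sz (kv u - kv v), mul_pos hδ hs', fun z' hz' => ?_⟩
  obtain ⟨z, rfl⟩ : ∃ z, z' = z * (kv u - kv v) := ⟨z' / (kv u - kv v), (div_mul_cancel₀ _ hs).symm⟩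
  have hz : sz z < δ := by
    refine lt_of_mul_lt_mul_right ?_ hs'.le
    simpa only [sz, MulMemClass.coe_mul, norm_mul] using hz'
  have hm : ∀ u : K, Measurable fun w => F2 z (Prod.map id (act u) w) := fun u =>
    ((abase1_mult hν).meas z).comp (hmp u).measurable
  have hi : ∀ u : K, Integrable (fun w => ‖F2 z (Prod.map id (act u) w) - 1‖ ^ 2) (ν.prod ν) :=
    fun u => abase1_int (hm u) fun w => (abase1_mult hν).norm_one z _
  have hb : ∀ (t : K) (S : Set (X × X)), S ⊆ Prod.map id (act t) ⁻¹' R →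
      ∫ w in S, ‖F2 z (Prod.map id (act t) w) - 1‖ ^ 2 ∂(ν.prod ν) ≤ η / 4 := by
    intro t S hS
    refine (setIntegral_mono_set (hi t).integrableOn
      (Eventually.of_forall fun _ => by positivity) hS.eventuallyLE).trans (le_trans ?_ (hδ' z hz))
    have h1 := ((hmp t).restrict_preimage hR.1).map_eq
    rw [← h1, integral_map (hmp t).measurable.aemeasurable
      ((((abase1_mult hν).meas z).sub_const 1).norm.pow_const 2).aestronglyMeasurable]
  have h1 := hb u _ (Set.inter_subset_left (t := Prod.map id (act v) ⁻¹' R))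
  have h2 := hb v _ (Set.inter_subset_right (s := Prod.map id (act u) ⁻¹' R))
  have h3 : ∀ᵐ w ∂(ν.prod ν), ‖f (z * (kv u - kv v)) w.2 - 1‖ ^ 2 ≤
      2 * ‖F2 z (Prod.map id (act u) w) - 1‖ ^ 2 + 2 * ‖F2 z (Prod.map id (act v) w) - 1‖ ^ 2 := by
    filter_upwards [(abase1_mult_snd hν).mul (z * (kv u - kv v)) (kv v * z)] with w hw
    rw [show z * (kv u - kv v) + kv v * z = kv u * z by ring] at hw
    exact abase1_ineq (norm_f _ _) (norm_f _ _) hw
  refine (integral_mono_ae (abase1_int ((abase1_mult_snd hν).meas _) fun w => norm_f _ _)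
    (((hi u).const_mul 2).add ((hi v).const_mul 2)).integrableOn (ae_restrict_of_ae h3)).trans ?_
  simp only [Pi.add_apply]
  rw [integral_add ((hi u).const_mul 2).integrableOn ((hi v).const_mul 2).integrableOn,
    integral_const_mul, integral_const_mul]
  linarith

end Crest.Agent.R40.A
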