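import Crest.Agent.R40.ADefs

/-! Row 40 A: Følner averages and van der Corput. -/

set_option autoImplicit false
open MeasureTheory ProbabilityTheory Filter Topology
open scoped ComplexConjugate

noncomputable section
namespace Crest.Agent.R40.A

section av

variable {α γ V : Type}

theorem aerg1_av_comm [AddCommMonoid V] [Module ℝ V] (p : FP α) (q : FP γ) (g : α → γ → V) :
    (p.av fun a => q.av fun b => g a b) = q.av fun b => p.av fun a => g a b := by
  simp only [FP.av, Finset.smul_sum]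
  rw [Finset.sum_comm]
  simp only [smul_comm (p.w _)]

theorem aerg1_av_const [AddCommMonoid V] [Module ℝ V] (p : FP α) (c : V) :
    (p.av fun _ => c) = c := by
  rw [FP.av, ← Finset.sum_smul, p.sum_one, one_smul]

theorem aerg1_av_add [AddCommMonoid V] [Module ℝ V] (p : FP α) (g h : α → V) :
    (p.av fun a => g a + h a) = p.av g + p.av h := by
  simp only [FP.av, smul_add, Finset.sum_add_distrib]

theorem aerg1_av_sub [AddCommGroup V] [Module ℝ V] (p : FP α) (g h : α → V) :
    (p.av fun a => g a - h a) = p.av g - p.av h := by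
  simp only [FP.av, smul_sub, Finset.sum_sub_distrib]

theorem aerg1_av_sum [AddCommMonoid V] [Module ℝ V] (p : FP α) (T : Finset γ) (g : γ → α → V) :
    (p.av fun a => ∑ b ∈ T, g b a) = ∑ b ∈ T, p.av (g b) := by
  simp only [FP.av, Finset.smul_sum]
  rw [Finset.sum_comm]

theorem aerg1_av_mono (p : FP α) {g h : α → ℝ} (hle : ∀ i, g (p.x i) ≤ h (p.x i)) :
    p.av g ≤ p.av h :=
  Finset.sum_le_sum fun i _ => mul_le_mul_of_nonneg_left (hle i) (p.nonneg i)

theorem aerg1_norm_av [NormedAddCommGroup V] [NormedSpace ℝ V] (p : FP α) (g : α → V) :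
    ‖p.av g‖ ≤ p.av fun a => ‖g a‖ :=
  (norm_sum_le _ _).trans (le_of_eq (Finset.sum_congr rfl fun i _ => by
    rw [norm_smul, Real.norm_of_nonneg (p.nonneg i), smul_eq_mul]))

theorem aerg1_norm_av_le [NormedAddCommGroup V] [NormedSpace ℝ V] (p : FP α) {g : α → V} {C : ℝ}
    (h : ∀ a, ‖g a‖ ≤ C) : ‖p.av g‖ ≤ C :=
  (aerg1_norm_av p g).trans ((aerg1_av_mono p (h := fun _ => C) fun _ => h _).trans
    (aerg1_av_const p C).le)

theorem aerg1_norm_av_sq [NormedAddCommGroup V] [NormedSpace ℝ V] (p : FP α) (g : α → V) :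
    ‖p.av g‖ ^ 2 ≤ p.av fun a => ‖g a‖ ^ 2 :=
  (pow_le_pow_left₀ (norm_nonneg _) (aerg1_norm_av p g) 2).trans
    (Real.pow_arith_mean_le_arith_mean_pow Finset.univ p.w (fun i => ‖g (p.x i)‖)
      (fun i _ => p.nonneg i) p.sum_one (fun _ _ => norm_nonneg _) 2)

theorem aerg1_tendsto (p : FP α) [NormedAddCommGroup V] [NormedSpace ℝ V] {g : ℕ → α → V}
    (h : ∀ a, Tendsto (fun n => g n a) atTop (𝓝 0)) :
    Tendsto (fun n => p.av (g n)) atTop (𝓝 0) := by
  have := tendsto_finsetSum Finset.univ fun (i : p.ι) _ => (h (p.x i)).const_smul (p.w i)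
  simpa only [smul_zero, Finset.sum_const_zero, FP.av] using this

end av

section fol

variable {G : Type} [CommGroup G]

/-- convolution -/
def aerg1_conv (p q : FP G) : FP G where
  ι := p.ι × q.ι
  w i := p.w i.1 * q.w i.2
  x i := p.x i.1 * q.x i.2
  nonneg i := mul_nonneg (p.nonneg _) (q.nonneg _)
  sum_one := by
    rw [Fintype.sum_prod_type]
    simp only [← Finset.mul_sum, q.sum_one, mul_one, p.sum_one]

theorem aerg1_conv_av {V : Type} [AddCommMonoid V] [Module ℝ V] (p q : FP G) (g : G → V) :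
    (aerg1_conv p q).av g = p.av fun u => q.av fun v => g (u * v) := by
  simp only [FP.av, Finset.smul_sum, smul_smul]
  exact Fintype.sum_prod_type _

/-- uniform measure on the powers -/
def aerg1_U (a : G) (N : ℕ) : FP G where
  ι := Fin (N + 1)
  w _ := 1 / ((N : ℝ) + 1)
  x i := a ^ (i : ℕ)
  nonneg _ := by positivity
  sum_one := by
    rw [Finset.sum_const, Finset.card_univ, Fintype.card_fin, nsmul_eq_mul]
    push_cast
    field_simp

/-- almost invariance -/
def aerg1_Inv (p : FP G) (a : G) (δ : ℝ) : Prop :=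
  ∀ (V : Type) [NormedAddCommGroup V] [NormedSpace ℝ V] (g : G → V) (C : ℝ), (∀ u, ‖g u‖ ≤ C) →
    ‖p.av (fun u => g (a * u)) - p.av g‖ ≤ δ * C

theorem aerg1_inv_U (a : G) (N : ℕ) : aerg1_Inv (aerg1_U a N) a (2 / ((N : ℝ) + 1)) := by
  intro V _ _ g C hg
  have h : (aerg1_U a N).av (fun u => g (a * u)) - (aerg1_U a N).av g =
      (1 / ((N : ℝ) + 1)) • (g (a ^ (N + 1)) - g (a ^ 0)) := by
    rw [← Finset.sum_range_sub (fun i => g (a ^ i)), Finset.smul_sum, Finset.sum_range,
      ← aerg1_av_sub]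
    exact Finset.sum_congr rfl fun i _ => by rw [pow_succ']; rfl
  rw [h, norm_smul, Real.norm_of_nonneg (by positivity)]
  have := (norm_sub_le _ _).trans (add_le_add (hg (a ^ (N + 1))) (hg (a ^ 0)))
  calc _ ≤ 1 / ((N : ℝ) + 1) * (C + C) := by gcongr
    _ = _ := by ring

theorem aerg1_inv_right (p : FP G) {q : FP G} {a : G} {δ : ℝ} (h : aerg1_Inv q a δ) :
    aerg1_Inv (aerg1_conv p q) a δ := by
  intro V _ _ g C hg
  rw [aerg1_conv_av, aerg1_conv_av, ← aerg1_av_sub]
  refine aerg1_norm_av_le p fun u => ?_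
  simpa only [mul_left_comm] using h V (fun v => g (u * v)) C fun _ => hg _

theorem aerg1_inv_left {p : FP G} (q : FP G) {a : G} {δ : ℝ} (h : aerg1_Inv p a δ) :
    aerg1_Inv (aerg1_conv p q) a δ := by
  intro V _ _ g C hg
  rw [aerg1_conv_av, aerg1_conv_av]
  simpa only [mul_assoc] using
    h V (fun u => q.av fun v => g (u * v)) C fun _ => aerg1_norm_av_le q fun _ => hg _

/-- box averages -/
def aerg1_P (g : ℕ → G) (N : ℕ) : ℕ → FP G
  | 0 => aerg1_U 1 0
  | k + 1 => aerg1_conv (aerg1_P g N k) (aerg1_U (g k) N)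

theorem aerg1_inv_P (g : ℕ → G) (N : ℕ) {j k : ℕ} (h : j < k) :
    aerg1_Inv (aerg1_P g N k) (g j) (2 / ((N : ℝ) + 1)) := by
  induction k with
  | zero => omega
  | succ k ih =>
    rcases Nat.lt_succ_iff_lt_or_eq.1 h with h | rfl
    · exact aerg1_inv_left _ (ih h)
    · exact aerg1_inv_right _ (aerg1_inv_U _ _)

theorem aerg1_point [Infinite G] [DecidableEq G] (q : Fol G) (x : G) :
    Tendsto (fun n => (q.p n).av fun u => if u = x then (1 : ℝ) else 0) atTop (𝓝 0) := by
  have h0 : ∀ n, 0 ≤ (q.p n).av fun u => if u = x then (1 : ℝ) else 0 := fun n =>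
    (aerg1_av_const (q.p n) (0 : ℝ)).ge.trans (aerg1_av_mono _ fun i => by split_ifs <;> simp)
  refine tendsto_order.2 ⟨fun a ha => .of_forall fun n => ha.trans_le (h0 n), fun ε hε => ?_⟩
  obtain ⟨k, hk⟩ := exists_nat_gt (2 / ε)
  obtain ⟨T, hT⟩ := Infinite.exists_subset_card_eq G k
  have h1 := tendsto_finsetSum T fun a _ =>
    q.inv a (fun u => if u = x then (1 : ℝ) else 0) 1 fun u => by split_ifs <;> simp
  rw [Finset.sum_const_zero] at h1
  filter_upwards [h1.eventually (lt_mem_nhds (show (-1 : ℝ) < 0 by norm_num))] with n hn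
  rw [Finset.sum_sub_distrib, Finset.sum_const, hT, nsmul_eq_mul, ← aerg1_av_sum] at hn
  have h2 : ((q.p n).av fun u => ∑ a ∈ T, if a * u = x then (1 : ℝ) else 0) ≤ 1 := by
    refine (aerg1_av_mono _ (h := fun _ => 1) fun i => ?_).trans (aerg1_av_const _ _).le
    simp only [← eq_mul_inv_iff_mul_eq, Finset.sum_ite_eq']
    split_ifs <;> simp
  rw [div_lt_iff₀ hε] at hk
  by_contra hc
  have := mul_le_mul_of_nonneg_left (not_lt.1 hc) (Nat.cast_nonneg (α := ℝ) k)
  linarith

/-- van der Corput in a real inner product space -/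
theorem aerg1_vdc {H : Type} [NormedAddCommGroup H] [InnerProductSpace ℝ H] (q : Fol G)
    {v : G → H} (hb : ∀ u, ‖v u‖ ≤ 1) (β : G → ℝ)
    (hβ : ∀ h, ∀ ε > 0, ∀ᶠ n in atTop, ((q.p n).av fun u => inner ℝ (v u) (v (h * u))) ≤ β h + ε)
    (h0 : ∀ ε > 0, ∃ r : FP G, (r.av fun h => r.av fun h' => β (h / h')) ≤ ε) :
    Tendsto (fun n => ‖(q.p n).av v‖ ^ 2) atTop (𝓝 0) := by
  refine tendsto_order.2 ⟨fun a ha => .of_forall fun n => ha.trans_le (sq_nonneg _), fun ε hε => ?_⟩
  obtain ⟨r, hr⟩ := h0 (ε / 8) (by positivity)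
  have h1 : Tendsto (fun n => ‖(q.p n).av (fun u => r.av fun h => v (h * u)) - (q.p n).av v‖ ^ 2)
      atTop (𝓝 0) := by
    have := ((aerg1_tendsto r fun h => q.inv h v 1 hb).norm).pow 2
    simpa only [norm_zero, zero_pow two_ne_zero, aerg1_av_sub, aerg1_av_const,
      aerg1_av_comm r] using this
  have h2 : ∀ᶠ n in atTop, ∀ i j : r.ι,
      ((q.p n).av fun u => inner ℝ (v (r.x j * u)) (v (r.x i * u))) ≤ β (r.x i / r.x j) + ε / 4 := by
    refine eventually_all.2 fun i => eventually_all.2 fun j => ?_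
    have h3 := q.inv (r.x j) (fun u => inner ℝ (v u) (v (r.x i / r.x j * u))) 1 fun u =>
      (norm_inner_le_norm _ _).trans (mul_le_one₀ (hb _) (norm_nonneg _) (hb _))
    filter_upwards [hβ (r.x i / r.x j) (ε / 8) (by positivity),
      h3.eventually (gt_mem_nhds (show 0 < ε / 8 by positivity))] with n hn hn'
    simp only [← mul_assoc, div_mul_cancel] at hn'
    linarith
  filter_upwards [h2, h1.eventually (gt_mem_nhds (show 0 < ε / 8 by positivity))] with n hn hn'
  have h3 : ‖(q.p n).av fun u => r.av fun h => v (h * u)‖ ^ 2 ≤ ε / 8 + ε / 4 := by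
    refine (aerg1_norm_av_sq _ _).trans ?_
    have e : ∀ u, ‖r.av fun h => v (h * u)‖ ^ 2 =
        r.av fun h => r.av fun h' => inner ℝ (v (h' * u)) (v (h * u)) := fun u => by
      rw [← real_inner_self_eq_norm_sq]
      simp only [FP.av, inner_sum, sum_inner, real_inner_smul_left, real_inner_smul_right,
        smul_eq_mul, Finset.mul_sum]
    simp only [e, aerg1_av_comm (q.p n)]
    refine (aerg1_av_mono r (h := fun h => r.av fun h' => β (h / h') + ε / 4) fun i =>
      aerg1_av_mono r fun j => hn i j).trans ?_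
    simp only [aerg1_av_add, aerg1_av_const]
    linarith
  have h4 := norm_sub_norm_le ((q.p n).av v) ((q.p n).av fun u => r.av fun h => v (h * u))
  rw [norm_sub_rev] at h4
  generalize ‖(q.p n).av (fun u => r.av fun h => v (h * u)) - (q.p n).av v‖ = d at hn' h4
  generalize ‖(q.p n).av fun u => r.av fun h => v (h * u)‖ = b at h3 h4
  have h5 := pow_le_pow_left₀ (norm_nonneg ((q.p n).av v)) (sub_le_iff_le_add.1 h4) 2
  nlinarith [sq_nonneg (d - b)]

end fol

/-- box averages: enumerate `G = {g₀, g₁, …}`, `p n` = law of `∏_{i<n} gᵢ^{mᵢ}`, `mᵢ` uniform in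
`Fin (n+1)` -/
theorem exists_fol (G : Type) [CommGroup G] [Countable G] : Nonempty (Fol G) := by
  obtain ⟨g, hg⟩ := exists_surjective_nat G
  refine ⟨⟨fun n => aerg1_P g n n, fun a V _ _ φ C hφ => ?_⟩⟩
  obtain ⟨j, rfl⟩ := hg a
  have h := (tendsto_one_div_add_atTop_nhds_zero_nat (𝕜 := ℝ)).const_mul (2 * C)
  rw [mul_zero] at h
  refine squeeze_zero_norm' ?_ h
  filter_upwards [eventually_gt_atTop j] with n hn
  exact (aerg1_inv_P g n hn V φ C hφ).trans (le_of_eq (by ring))

/-- single points have vanishing mass along a Følner sequence of an infinite group -/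
theorem Fol.finite_mass {G : Type} [CommGroup G] [Infinite G] (q : Fol G) {s : Set G}
    (hs : s.Finite) :
    Tendsto (fun n => (q.p n).av fun u => s.indicator (fun _ => (1 : ℝ)) u) atTop (𝓝 0) := by
  classical
  have h := tendsto_finsetSum hs.toFinset fun x _ => aerg1_point q x
  simp only [← aerg1_av_sum, Finset.sum_ite_eq, Finset.sum_const_zero,
    Set.Finite.mem_toFinset] at h
  simpa only [Set.indicator_apply] using h

variable {G W : Type} [CommGroup G] [MeasurableSpace W] {μ : Measure W} [IsProbabilityMeasure μ]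
  {S : G → W → W}

/-- van der Corput -/
theorem vdc (q : Fol G) {F : G → W → ℂ} (hF : ∀ u, Measurable (F u)) (hb : ∀ u x, ‖F u x‖ ≤ 1)
    (β : G → ℝ)
    (hβ : ∀ h, ∀ ε > 0, ∀ᶠ n in atTop,
      ‖(q.p n).av fun u => ∫ x, F (h * u) x * conj (F u x) ∂μ‖ ≤ β h + ε)
    (h0 : ∀ ε > 0, ∃ r : FP G, (r.av fun h => r.av fun h' => β (h / h')) ≤ ε) :
    Tendsto (fun n => n2 μ fun x => (q.p n).av fun u => F u x) atTop (𝓝 0) := by
  have hm : ∀ u, MemLp (F u) 2 μ := fun u =>
    MemLp.of_bound (hF u).aestronglyMeasurable 1 (.of_forall (hb u))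
  let v : G → Lp ℂ 2 μ := fun u => (hm u).toLp (F u)
  have hv : ∀ u, v u =ᵐ[μ] F u := fun u => (hm u).coeFn_toLp
  have h1 : ∀ u, ‖v u‖ ≤ 1 := fun u => by
    have := Lp.norm_le_of_ae_bound (f := v u) zero_le_one
      ((hv u).mono fun x hx => by rw [hx]; exact hb u x)
    simpa [measureUnivNNReal] using this
  have h2 : ∀ a b, inner ℝ (v a) (v b) = (∫ x, F b x * conj (F a x) ∂μ).re := fun a b => by
    have hi : Integrable (fun x => F b x * conj (F a x)) μ :=
      Integrable.of_bound ((hF b).mul (Complex.continuous_conj.measurable.comp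
        (hF a))).aestronglyMeasurable 1 (.of_forall fun x => by
          rw [norm_mul, Complex.norm_conj]
          exact mul_le_one₀ (hb _ _) (norm_nonneg _) (hb _ _))
    rw [L2.inner_def, ← RCLike.re_to_complex, ← integral_re hi]
    refine integral_congr_ae ?_
    filter_upwards [hv a, hv b] with x ha hb
    rw [ha, hb]
    rfl
  refine (aerg1_vdc q h1 β (fun h ε hε => ?_) h0).congr fun n => ?_
  · filter_upwards [hβ h ε hε] with n hn
    refine le_trans (le_of_eq ?_) ((Complex.re_le_norm _).trans hn)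
    simp only [h2, FP.av, Complex.re_sum, Complex.smul_re]
  · rw [← real_inner_self_eq_norm_sq, L2.inner_def, n2]
    refine integral_congr_ae ?_
    filter_upwards [Lp.coeFn_finsetSum Finset.univ fun i => (q.p n).w i • v ((q.p n).x i),
      ae_all_iff.2 fun i => Lp.coeFn_smul ((q.p n).w i) (v ((q.p n).x i)),
      ae_all_iff.2 fun i => hv ((q.p n).x i)] with x e1 e2 e3
    rw [real_inner_self_eq_norm_sq, FP.av, FP.av, e1, Finset.sum_apply]
    simp only [e2, Pi.smul_apply, e3]

end Crest.Agent.R40.A
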