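import Crest.Agent.R40.ADefs

/-! Row 40 A: conditional expectation `cE`. -/

set_option autoImplicit false
open MeasureTheory ProbabilityTheory Filter Topology
open scoped ComplexConjugate

noncomputable section
namespace Crest.Agent.R40.A

lemma measurable_f (z : E) : Measurable (f z) := by
  unfold f
  exact (fourier (T := 1) 1).continuous.measurable.comp (measurable_pi_apply z)

lemma norm_f (z : E) (d : X) : ‖f z d‖ = 1 := by
  unfold f
  rw [fourier_apply]
  exact Circle.norm_coe _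

lemma bm_f (z : E) : BM (f z) := ⟨measurable_f z, 1, fun d => (norm_f z d).le⟩

lemma isAct_act {ν : Measure X} (hν : Good ν) : IsAct ν act := ⟨hν.mp, act_one, act_mul⟩

lemma mult_f {ν : Measure X} (hν : Good ν) : Mult ν f := by
  refine ⟨measurable_f, norm_f, fun x y => ?_⟩
  filter_upwards [hν.add x y] with d hd
  unfold f
  rw [hd, fourier_apply, fourier_apply, fourier_apply, smul_add, AddCircle.toCircle_add,
    Circle.coe_mul]

variable {ν : Measure X} [IsProbabilityMeasure ν] (Z : Fac)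

instance : IsProbabilityMeasure (lam ν Z) := by unfold lam; infer_instance

lemma measurable_ker_apply {s : Set X} (hs : MeasurableSet s) :
    Measurable[Z.m] fun x => ker ν Z x s := by
  exact measurable_condExpKernel (m := Z.m) (μ := ν) hs

lemma cE_meas {g : X → ℂ} (hg : Measurable g) : Measurable[Z.m] (cE ν Z g) := by
  exact (hg.stronglyMeasurable.integral_condExpKernel (m := Z.m) (μ := ν)).measurable

lemma cE_norm_le {g : X → ℂ} {C : ℝ} (hC : ∀ x, ‖g x‖ ≤ C) (x : X) : ‖cE ν Z g x‖ ≤ C := by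
  have := norm_integral_le_of_norm_le_const (μ := ker ν Z x) (f := g) (C := C)
    (Eventually.of_forall hC)
  simpa [cE] using this

lemma cE_bm {g : X → ℂ} (hg : BM g) : BM (cE ν Z g) := by
  obtain ⟨hm, C, hC⟩ := hg
  exact ⟨(cE_meas Z hm).mono Z.le le_rfl, C, cE_norm_le Z hC⟩

omit [IsProbabilityMeasure ν] in
lemma arel1_int [IsFiniteMeasure ν] {g : X → ℂ} (hg : BM g) : Integrable g ν := by
  obtain ⟨hm, C, hC⟩ := hg
  exact Integrable.of_bound hm.aestronglyMeasurable C (Eventually.of_forall hC)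

lemma arel1_bm_mul {a g : X → ℂ} (ha : BM a) (hg : BM g) : BM (fun x => a x * g x) := by
  obtain ⟨hm, C, hC⟩ := ha
  obtain ⟨hm', D, hD⟩ := hg
  refine ⟨hm.mul hm', C * D, fun x => ?_⟩
  rw [norm_mul]
  exact mul_le_mul (hC x) (hD x) (norm_nonneg _) ((norm_nonneg _).trans (hC x))

lemma cE_ae {g : X → ℂ} (hg : BM g) : cE ν Z g =ᵐ[ν] ν[g | Z.m] := by
  exact (condExp_ae_eq_integral_condExpKernel (m := Z.m) Z.le (arel1_int hg)).symm

lemma cE_congr {g g' : X → ℂ} (hg : Measurable g) (hg' : Measurable g') (h : g =ᵐ[ν] g') :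
    cE ν Z g =ᵐ[ν] cE ν Z g' := by
  have h1 : ∀ᵐ y ∂(condExpKernel ν Z.m ∘ₘ ν.trim Z.le), g y = g' y := by
    rw [condExpKernel_comp_trim Z.le]; exact h
  have h2 := Measure.ae_ae_of_ae_comp h1
  have h3 := ae_of_ae_trim Z.le h2
  filter_upwards [h3] with x hx
  exact integral_congr_ae hx

lemma cE_conj (g : X → ℂ) (x : X) : cE ν Z (fun y => conj (g y)) x = conj (cE ν Z g x) := by
  unfold cE
  exact integral_conj

lemma cE_mul {a g : X → ℂ} (ha : Measurable[Z.m] a) (ha' : ∃ C : ℝ, ∀ x, ‖a x‖ ≤ C) (hg : BM g) :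
    cE ν Z (fun x => a x * g x) =ᵐ[ν] fun x => a x * cE ν Z g x := by
  have hab : BM a := ⟨ha.mono Z.le le_rfl, ha'⟩
  have h1 := cE_ae (ν := ν) Z (arel1_bm_mul hab hg)
  have h2 := cE_ae (ν := ν) Z hg
  have h3 := condExp_bilin_of_stronglyMeasurable_left (m := Z.m) (μ := ν)
    (ContinuousLinearMap.mul ℝ ℂ) (f := a) (g := g) ha.stronglyMeasurable
    (arel1_int (arel1_bm_mul hab hg)) (arel1_int hg)
  filter_upwards [h1, h2, h3] with x hx1 hx2 hx3
  rw [hx1, hx2]
  exact hx3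

lemma integral_mul_cE {a g : X → ℂ} (ha : Measurable[Z.m] a) (ha' : ∃ C : ℝ, ∀ x, ‖a x‖ ≤ C)
    (hg : BM g) : ∫ x, a x * cE ν Z g x ∂ν = ∫ x, a x * g x ∂ν := by
  have hab : BM a := ⟨ha.mono Z.le le_rfl, ha'⟩
  rw [← integral_congr_ae (cE_mul (ν := ν) Z ha ha' hg),
    integral_congr_ae (cE_ae (ν := ν) Z (arel1_bm_mul hab hg)), integral_condExp Z.le]

lemma cE_cE {g : X → ℂ} (hg : BM g) : cE ν Z (cE ν Z g) =ᵐ[ν] cE ν Z g := by
  have h1 := cE_ae (ν := ν) Z (cE_bm (ν := ν) Z hg)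
  rw [condExp_of_stronglyMeasurable Z.le (cE_meas Z hg.1).stronglyMeasurable
    (arel1_int (cE_bm (ν := ν) Z hg))] at h1
  exact h1

lemma n2_cE_le {g : X → ℂ} (hg : BM g) : n2 ν (cE ν Z g) ≤ n2 ν g := by
  have hh := cE_bm (ν := ν) Z hg
  have hcm : Measurable[Z.m] fun x => conj (cE ν Z g x) :=
    Complex.continuous_conj.measurable.comp (cE_meas Z hg.1)
  have hcb : ∃ C : ℝ, ∀ x, ‖conj (cE ν Z g x)‖ ≤ C := by
    obtain ⟨C, hC⟩ := hh.2
    exact ⟨C, fun x => by rw [Complex.norm_conj]; exact hC x⟩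
  have hc : BM fun x => conj (cE ν Z g x) := ⟨hcm.mono Z.le le_rfl, hcb⟩
  have h1 := integral_mul_cE (ν := ν) Z hcm hcb hg
  have hsq : ∀ {k : X → ℂ}, BM k → Integrable (fun x => ‖k x‖ ^ 2) ν := by
    intro k hk
    obtain ⟨hm, C, hC⟩ := hk
    refine Integrable.of_bound (hm.norm.pow_const 2).aestronglyMeasurable (C ^ 2)
      (Eventually.of_forall fun x => ?_)
    rw [Real.norm_eq_abs, abs_of_nonneg (by positivity)]
    exact pow_le_pow_left₀ (norm_nonneg _) (hC x) 2
  have h2 : n2 ν (cE ν Z g) = (∫ x, conj (cE ν Z g x) * cE ν Z g x ∂ν).re := by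
    have := integral_re (𝕜 := ℂ) (arel1_int (ν := ν) (arel1_bm_mul hc hh))
    simp only [RCLike.re_to_complex] at this
    rw [← this]
    refine integral_congr_ae (Eventually.of_forall fun x => ?_)
    simp only
    rw [Complex.conj_mul']
    norm_cast
  have h3 : (∫ x, conj (cE ν Z g x) * g x ∂ν).re ≤
      ∫ x, (‖cE ν Z g x‖ ^ 2 + ‖g x‖ ^ 2) / 2 ∂ν := by
    have := integral_re (𝕜 := ℂ) (arel1_int (ν := ν) (arel1_bm_mul hc hg))
    simp only [RCLike.re_to_complex] at this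
    rw [← this]
    refine integral_mono (arel1_int (ν := ν) (arel1_bm_mul hc hg)).re
      (((hsq hh).add (hsq hg)).div_const 2) fun x => ?_
    have h4 : (conj (cE ν Z g x) * g x).re ≤ ‖cE ν Z g x‖ * ‖g x‖ := by
      refine (Complex.re_le_norm _).trans ?_
      rw [norm_mul, Complex.norm_conj]
    have h5 := sq_nonneg (‖cE ν Z g x‖ - ‖g x‖)
    simp only
    nlinarith
  rw [integral_div, integral_add (hsq hh) (hsq hg)] at h3
  rw [h1] at h2
  unfold n2 at h2 ⊢
  linarith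

end Crest.Agent.R40.A
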