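import Crest.Agent.R40.ABoch0
import Crest.Agent.R40.AErg1
import Crest.Agent.R40.ARel1

/-! Row 40 A: the invariant spectral measure. -/

set_option autoImplicit false
open MeasureTheory ProbabilityTheory Filter Topology
open scoped ComplexConjugate BoundedContinuousFunction

noncomputable section
namespace Crest.Agent.R40.A

lemma aboch_add (a b : UnitAddCircle) : fourier 1 (a + b) = fourier 1 a * fourier 1 b := by
  simp only [fourier_one, AddCircle.toCircle_add, Circle.coe_mul]

lemma aboch_neg (a : UnitAddCircle) : fourier 1 (-a) = conj (fourier 1 a) := by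
  simp only [fourier_one, AddCircle.toCircle_neg, Circle.coe_inv_eq_conj]

lemma aboch_inj {a b : UnitAddCircle} (h : fourier 1 a = fourier 1 b) : a = b := by
  simp only [fourier_one] at h
  exact AddCircle.injective_toCircle one_ne_zero (Circle.ext h)

/-- the characters of `X` -/
def aboch_S : Set (X →ᵇ ℂ) :=
  {g | ∃ (n : ℕ) (m : Fin n → ℤ) (z : Fin n → E), ∀ d, g d = fourier 1 (∑ i, m i • d (z i))}

lemma aboch_mul {g h : X →ᵇ ℂ} (hg : g ∈ aboch_S) (hh : h ∈ aboch_S) : g * h ∈ aboch_S := by
  obtain ⟨n, m, z, e⟩ := hg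
  obtain ⟨n', m', z', e'⟩ := hh
  refine ⟨n + n', Fin.append m m', Fin.append z z', fun d => ?_⟩
  rw [Fin.sum_univ_add, aboch_add]
  simp only [Fin.append_left, Fin.append_right, BoundedContinuousFunction.mul_apply, e, e']

lemma aboch_star {g : X →ᵇ ℂ} (hg : g ∈ aboch_S) : star g ∈ aboch_S := by
  obtain ⟨n, m, z, e⟩ := hg
  refine ⟨n, fun i => -m i, z, fun d => ?_⟩
  simp only [neg_smul, Finset.sum_neg_distrib, aboch_neg, ← e]
  rfl

lemma aboch_one : (1 : X →ᵇ ℂ) ∈ aboch_S :=
  ⟨0, Fin.elim0, Fin.elim0, fun d => by simp⟩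

/-- trigonometric polynomials -/
def aboch_A : StarSubalgebra ℂ (X →ᵇ ℂ) where
  toSubalgebra := (Submodule.span ℂ aboch_S).toSubalgebra (Submodule.subset_span aboch_one)
    fun x y hx hy => by
      have := Submodule.mul_mem_mul hx hy
      rw [Submodule.span_mul_span] at this
      refine Submodule.span_mono ?_ this
      rintro _ ⟨a, ha, b, hb, rfl⟩
      exact aboch_mul ha hb
  star_mem' := fun {x} hx => by
    change x ∈ Submodule.span ℂ aboch_S at hx
    change star x ∈ Submodule.span ℂ aboch_S
    induction hx using Submodule.span_induction with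
    | mem x hx => exact Submodule.subset_span (aboch_star hx)
    | zero => simp
    | add x y _ _ hx hy => rw [star_add]; exact add_mem hx hy
    | smul c x _ hx => rw [star_smul]; exact Submodule.smul_mem _ _ hx

lemma aboch_ext {P P' : Measure X} [IsFiniteMeasure P] [IsFiniteMeasure P']
    (h : ∀ (n : ℕ) (m : Fin n → ℤ) (z : Fin n → E),
      ∫ d, fourier 1 (∑ i, m i • d (z i)) ∂P = ∫ d, fourier 1 (∑ i, m i • d (z i)) ∂P') :
    P = P' := by
  refine ext_of_forall_mem_subalgebra_integral_eq_of_polish (𝕜 := ℂ) (A := aboch_A) ?_ ?_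
  · intro d d' hd
    obtain ⟨z, hz⟩ := Function.ne_iff.1 hd
    let g : X →ᵇ ℂ := BoundedContinuousFunction.mkOfCompact
      ((fourier 1).comp ⟨fun d : X => d z, continuous_apply z⟩)
    refine ⟨g, ⟨g.toContinuousMap, ⟨g, Submodule.subset_span
      ⟨1, fun _ => 1, fun _ => z, fun d => by simp [g]⟩, rfl⟩, rfl⟩, fun h => hz (aboch_inj h)⟩
  · intro g hg
    change g ∈ Submodule.span ℂ aboch_S at hg
    induction hg using Submodule.span_induction with
    | mem x hx =>
      obtain ⟨n, m, z, e⟩ := hx
      simp only [e, h]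
    | zero => simp
    | add x y _ _ hx hy =>
      simp only [BoundedContinuousFunction.add_apply]
      rw [integral_add (x.integrable _) (y.integrable _),
        integral_add (x.integrable _) (y.integrable _), hx, hy]
    | smul c x _ hx =>
      simp only [BoundedContinuousFunction.smul_apply, integral_smul, hx]

lemma aboch_cont {n : ℕ} (m : Fin n → ℤ) (z : Fin n → E) :
    Continuous fun d : X => fourier 1 (∑ i, m i • d (z i)) := by
  fun_prop

lemma aboch_ae {ν : Measure X} [IsProbabilityMeasure ν] {g : X → UnitAddCircle}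
    (hg : Continuous g) (h : ∫ d, fourier 1 (g d) ∂ν = 1) : ∀ᵐ d ∂ν, g d = 0 := by
  have hc : Continuous fun d => fourier 1 (g d) := by fun_prop
  have hn : ∀ d, ‖fourier 1 (g d)‖ = 1 := fun d => Circle.norm_coe _
  have hi : Integrable (fun d => fourier 1 (g d)) ν :=
    Integrable.of_bound hc.aestronglyMeasurable 1 (Eventually.of_forall fun d => (hn d).le)
  have h1 : ∫ d, (1 - (fourier 1 (g d)).re) ∂ν = 0 := by
    have := integral_re hi
    simp only [RCLike.re_to_complex] at this
    have hr : Integrable (fun d => (fourier 1 (g d)).re) ν := hi.re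
    rw [integral_sub (integrable_const _) hr, this, h]
    simp
  have h2 := (integral_eq_zero_iff_of_nonneg (fun d => sub_nonneg.2
    ((Complex.re_le_norm _).trans (hn d).le)) ((integrable_const _).sub hi.re)).1 h1
  filter_upwards [h2] with d hd
  have h3 : (fourier 1 (g d)).re = 1 := by
    simp only [Pi.zero_apply] at hd
    linarith
  have h4 : (fourier 1 (g d)).im = 0 := by
    have := Complex.sq_norm (fourier 1 (g d))
    rw [hn, Complex.normSq_apply, h3] at this
    nlinarith
  refine aboch_inj ?_
  rw [fourier_eval_zero]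
  exact Complex.ext h3 h4

/-- average the measure of `bochner0` over `K`; additivity a.e. from
`∫ ‖f (x+y) - f x * f y‖² = 0` -/
theorem bochner {φ : E → ℂ} (hpd : PD φ) (h0 : φ 0 = 1) (hrad : ∀ (u : K) z, φ (kv u * z) = φ z) :
    ∃ ν : Measure X, Good ν ∧ ∀ z, ∫ d, f z d ∂ν = φ z := by
  obtain ⟨ν, hν, h⟩ := bochner0 hpd h0
  refine ⟨ν, ⟨hν, fun u => ⟨measurable_act u, ?_⟩, fun x y => ?_⟩, fun z => ?_⟩
  · refine aboch_ext fun n m z => ?_
    rw [integral_map (measurable_act u).aemeasurable (aboch_cont m z).aestronglyMeasurable]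
    simp only [act]
    rw [h n m fun i => kv u * z i, h, ← hrad u (∑ i, m i • z i), Finset.mul_sum]
    simp only [mul_smul_comm]
  · have h1 := h 3 ![1, -1, -1] ![x + y, x, y]
    have h2 : ∑ i, (![1, -1, -1] : Fin 3 → ℤ) i • (![x + y, x, y] : Fin 3 → E) i = 0 := by
      simp [Fin.sum_univ_three]
    rw [h2, h0] at h1
    filter_upwards [aboch_ae (by fun_prop) h1] with d hd
    simp only [Fin.sum_univ_three, Matrix.cons_val_zero, Matrix.cons_val_one, Matrix.cons_val,
      one_smul, neg_smul] at hd
    rw [← sub_eq_zero, ← hd]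
    abel
  · simpa [f] using h 1 (fun _ => 1) fun _ => z

end Crest.Agent.R40.A
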