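import Crest.Agent.R40.ADefs

/-! Row 40 A: Bochner on the free abelian group on `E`. -/

set_option autoImplicit false
open MeasureTheory ProbabilityTheory Filter Topology
open scoped ComplexConjugate

noncomputable section
namespace Crest.Agent.R40.A

/-- characters of `X` supported on `S` -/
def aboch0_chi (S : Finset E) (g : S → ℤ) (d : X) : ℂ := fourier 1 (∑ e : S, g e • d e)

/-- the corresponding element of `E` -/
def aboch0_y (S : Finset E) (g : S → ℤ) : E := ∑ e : S, g e • (e : E)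

/-- number of pairs with a given difference -/
def aboch0_cnt (N : ℕ) (m : ℤ) : ℂ :=
  ∑ s : Fin N, ∑ t : Fin N, if m - ((s : ℕ) : ℤ) + ((t : ℕ) : ℤ) = 0 then 1 else 0

lemma aboch0_f_add (x y : UnitAddCircle) : fourier 1 (x + y) = fourier 1 x * fourier 1 y := by
  simp only [fourier_one, AddCircle.toCircle_add, Circle.coe_mul]

lemma aboch0_f_neg (x : UnitAddCircle) : fourier 1 (-x) = conj (fourier 1 x) := by
  rw [← fourier_neg, fourier_apply, fourier_apply, neg_zsmul, zsmul_neg]

lemma aboch0_chi_cont (S : Finset E) (g : S → ℤ) : Continuous (aboch0_chi S g) := by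
  unfold aboch0_chi
  exact (fourier 1).continuous.comp
    (continuous_finsetSum _ fun e _ => (continuous_apply (e : E)).zsmul _)

lemma aboch0_chi_add (S : Finset E) (g h : S → ℤ) (d : X) :
    aboch0_chi S (g + h) d = aboch0_chi S g d * aboch0_chi S h d := by
  unfold aboch0_chi
  rw [← aboch0_f_add, ← Finset.sum_add_distrib]
  simp only [Pi.add_apply, add_zsmul]

lemma aboch0_chi_neg (S : Finset E) (g : S → ℤ) (d : X) :
    aboch0_chi S (-g) d = conj (aboch0_chi S g d) := by
  unfold aboch0_chi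
  rw [← aboch0_f_neg, ← Finset.sum_neg_distrib]
  simp only [Pi.neg_apply, neg_zsmul]

lemma aboch0_chi_zero (S : Finset E) (d : X) : aboch0_chi S 0 d = 1 := by
  unfold aboch0_chi
  simp

lemma aboch0_chi_add_right (S : Finset E) (g : S → ℤ) (d d' : X) :
    aboch0_chi S g (d + d') = aboch0_chi S g d * aboch0_chi S g d' := by
  unfold aboch0_chi
  rw [← aboch0_f_add, ← Finset.sum_add_distrib]
  simp only [Pi.add_apply, zsmul_add]

lemma aboch0_y_sub (S : Finset E) (g h : S → ℤ) :
    aboch0_y S (g - h) = aboch0_y S g - aboch0_y S h := by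
  unfold aboch0_y
  rw [← Finset.sum_sub_distrib]
  simp only [Pi.sub_apply, sub_smul]

lemma aboch0_y_zero (S : Finset E) : aboch0_y S 0 = 0 := by
  unfold aboch0_y
  simp

lemma aboch0_chi_ne (S : Finset E) {g : S → ℤ} (hg : g ≠ 0) : ∃ d : X, aboch0_chi S g d = -1 := by
  classical
  obtain ⟨e, he⟩ := Function.ne_iff.1 hg
  refine ⟨Pi.single (e : E) (((1 : ℝ) / 2 / (g e : ℝ) : ℝ) : UnitAddCircle), ?_⟩
  unfold aboch0_chi
  rw [Finset.sum_eq_single e]
  · have h := fourier_add_half_inv_index (T := 1) he one_pos 0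
    rw [zero_add, fourier_eval_zero] at h
    rw [Pi.single_eq_same, fourier_apply, one_zsmul, ← fourier_apply]
    exact h
  · intro b _ hb
    rw [Pi.single_eq_of_ne (fun h => hb (Subtype.ext h)), zsmul_zero]
  · intro h
    exact absurd (Finset.mem_univ e) h

lemma aboch0_int_chi (μ : Measure X) [IsProbabilityMeasure μ] [μ.IsAddLeftInvariant]
    (S : Finset E) (g : S → ℤ) [Decidable (g = 0)] :
    ∫ d, aboch0_chi S g d ∂μ = if g = 0 then 1 else 0 := by
  split_ifs with hg
  · simp [hg, aboch0_chi_zero]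
  · obtain ⟨d₀, hd⟩ := aboch0_chi_ne S hg
    have h := integral_add_left_eq_self (μ := μ) (aboch0_chi S g) d₀
    simp only [aboch0_chi_add_right, hd, neg_mul, one_mul, integral_neg] at h
    linear_combination (-1 / 2 : ℂ) * h

lemma aboch0_integrable (μ : Measure X) [IsFiniteMeasure μ] {h : X → ℂ} (hh : Continuous h) :
    Integrable h μ :=
  hh.integrable_of_hasCompactSupport (HasCompactSupport.of_compactSpace h)

lemma aboch0_cnt_eq (N : ℕ) (m : ℤ) (hN : m.natAbs ≤ N) :
    aboch0_cnt N m = (N : ℂ) - (m.natAbs : ℂ) := by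
  unfold aboch0_cnt
  rw [Finset.sum_comm]
  have h1 : ∀ t : Fin N, (∑ s : Fin N, if m - ((s : ℕ) : ℤ) + ((t : ℕ) : ℤ) = 0 then (1 : ℂ) else 0) =
      if 0 ≤ ((t : ℕ) : ℤ) + m ∧ ((t : ℕ) : ℤ) + m < N then 1 else 0 := by
    intro t
    split_ifs with h
    · rw [Finset.sum_eq_single (⟨(((t : ℕ) : ℤ) + m).toNat, by omega⟩ : Fin N)]
      · rw [if_pos]
        simp only
        omega
      · intro b _ hb
        rw [if_neg]
        intro hh
        apply hb
        apply Fin.ext
        simp only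
        omega
      · intro hh
        exact absurd (Finset.mem_univ _) hh
    · refine Finset.sum_eq_zero fun s _ => ?_
      rw [if_neg]
      have := s.2
      omega
  simp only [h1]
  rw [Fin.sum_univ_eq_sum_range (fun t : ℕ => if 0 ≤ (t : ℤ) + m ∧ (t : ℤ) + m < N then (1 : ℂ) else 0),
    Finset.sum_boole]
  have h2 : (Finset.range N).filter (fun t : ℕ => 0 ≤ (t : ℤ) + m ∧ (t : ℤ) + m < N) =
      Finset.Ico (-m).toNat (N - m.toNat) := by
    ext t
    simp only [Finset.mem_filter, Finset.mem_range, Finset.mem_Ico]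
    omega
  rw [h2, Nat.card_Ico, ← Nat.cast_sub hN]
  congr 1
  omega

lemma aboch0_cnt_tendsto (m : ℤ) :
    Tendsto (fun N : ℕ => aboch0_cnt (N + 1) m / ((N + 1 : ℕ) : ℂ)) atTop (𝓝 1) := by
  have h1 : Tendsto (fun N : ℕ => 1 - (m.natAbs : ℂ) / (N : ℂ)) atTop (𝓝 (1 - 0)) :=
    tendsto_const_nhds.sub (tendsto_const_div_atTop_nhds_zero_nat _)
  rw [sub_zero] at h1
  refine (h1.comp (tendsto_add_atTop_nat 1)).congr' ?_
  filter_upwards [eventually_ge_atTop m.natAbs] with N hN
  rw [aboch0_cnt_eq _ _ (by omega)]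
  have : ((N + 1 : ℕ) : ℂ) ≠ 0 := Nat.cast_ne_zero.2 (by omega)
  simp only [Function.comp]
  field_simp

lemma aboch0_pd {φ : E → ℂ} (hpd : PD φ) {ι : Type} [Fintype ι] (c : ι → ℂ) (x : ι → E) :
    0 ≤ (∑ i, ∑ j, c i * conj (c j) * φ (x i - x j)).re ∧
      (∑ i, ∑ j, c i * conj (c j) * φ (x i - x j)).im = 0 := by
  have q := (Fintype.equivFin ι).symm
  have h := hpd _ (fun i => c (q i)) fun i => x (q i)
  have h2 : ∑ i, ∑ j, c (q i) * conj (c (q j)) * φ (x (q i) - x (q j)) =
      ∑ i, ∑ j, c i * conj (c j) * φ (x i - x j) := by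
    rw [← q.sum_comp]
    refine Finset.sum_congr rfl fun i _ => ?_
    exact q.sum_comp fun j => c (q i) * conj (c j) * φ (x (q i) - x j)
  rwa [h2] at h

lemma aboch0_fejer {φ : E → ℂ} (hpd : PD φ) (h0 : φ 0 = 1) (S : Finset E) {N : ℕ} (hN : 0 < N) :
    ∃ ν : ProbabilityMeasure X, ∀ g : S → ℤ, ∫ d, aboch0_chi S g d ∂(ν : Measure X) =
      (∏ e : S, aboch0_cnt N (g e) / (N : ℂ)) * φ (aboch0_y S g) := by
  classical
  set μ : Measure X := Measure.addHaarMeasure ⊤ with hμ
  have : IsProbabilityMeasure μ := ⟨Measure.addHaarMeasure_self⟩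
  obtain ⟨v, hv⟩ : ∃ v : (S → Fin N) → S → ℤ, ∀ a e, v a e = ((a e : ℕ) : ℤ) := ⟨_, fun _ _ => rfl⟩
  obtain ⟨p, hp⟩ : ∃ p : X → ℂ, ∀ d, p d = ∑ a, ∑ b, aboch0_chi S (-v a) d *
      conj (aboch0_chi S (-v b) d) * φ (aboch0_y S (v a) - aboch0_y S (v b)) := ⟨_, fun _ => rfl⟩
  have hpc : Continuous p := by
    rw [show p = _ from funext hp]
    refine continuous_finsetSum _ fun a _ => continuous_finsetSum _ fun b _ => ?_
    exact ((aboch0_chi_cont _ _).mul
      (Complex.continuous_conj.comp (aboch0_chi_cont _ _))).mul continuous_const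
  have hp0 : ∀ d, 0 ≤ (p d).re ∧ (p d).im = 0 := fun d => by
    rw [hp]
    exact aboch0_pd hpd _ _
  have hpre : ∀ d, (((p d).re : ℝ) : ℂ) = p d := fun d => by
    apply Complex.ext
    · simp
    · simp [(hp0 d).2]
  have hint : ∀ g : S → ℤ, ∫ d, p d * aboch0_chi S g d ∂μ =
      (∏ e : S, aboch0_cnt N (g e)) * φ (aboch0_y S g) := by
    intro g
    have h1 : ∀ d, p d * aboch0_chi S g d = ∑ a, ∑ b,
        φ (aboch0_y S (v a) - aboch0_y S (v b)) * aboch0_chi S (g - v a + v b) d := by
      intro d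
      rw [hp, Finset.sum_mul]
      refine Finset.sum_congr rfl fun a _ => ?_
      rw [Finset.sum_mul]
      refine Finset.sum_congr rfl fun b _ => ?_
      rw [← aboch0_chi_neg, neg_neg, sub_eq_add_neg g, aboch0_chi_add, aboch0_chi_add]
      ring
    simp only [h1]
    rw [integral_finsetSum _ fun a _ => integrable_finsetSum _ fun b _ =>
      (aboch0_integrable μ (aboch0_chi_cont _ _)).const_mul _]
    have h2 : ∀ a, ∫ d, ∑ b, φ (aboch0_y S (v a) - aboch0_y S (v b)) *
        aboch0_chi S (g - v a + v b) d ∂μ =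
        ∑ b : S → Fin N, (∏ e : S, if g e - ((a e : ℕ) : ℤ) + ((b e : ℕ) : ℤ) = 0 then (1 : ℂ) else 0) *
          φ (aboch0_y S g) := by
      intro a
      rw [integral_finsetSum _ fun b _ => (aboch0_integrable μ (aboch0_chi_cont _ _)).const_mul _]
      refine Finset.sum_congr rfl fun b _ => ?_
      rw [integral_const_mul, aboch0_int_chi, Finset.prod_boole]
      by_cases hg : g - v a + v b = 0
      · rw [if_pos hg, if_pos, mul_one, one_mul, ← aboch0_y_sub]
        · congr 2
          linear_combination (-1 : S → ℤ) * hg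
        · intro e _
          have := congrFun hg e
          simpa [hv] using this
      · rw [if_neg hg, if_neg, mul_zero, zero_mul]
        intro hh
        apply hg
        funext e
        have := hh e (Finset.mem_univ e)
        simpa [hv] using this
    simp only [h2, ← Finset.sum_mul]
    congr 1
    unfold aboch0_cnt
    rw [Fintype.prod_sum]
    refine Finset.sum_congr rfl fun a _ => ?_
    rw [Fintype.prod_sum]
  obtain ⟨c, hc⟩ : ∃ c : ℝ, c = ∏ _e : S, ((N : ℝ))⁻¹ := ⟨_, rfl⟩
  have hc0 : 0 ≤ c := by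
    rw [hc]
    exact Finset.prod_nonneg fun _ _ => by positivity
  have hmeas : Measurable fun d => ENNReal.ofReal (c * (p d).re) :=
    (continuous_const.mul (Complex.continuous_re.comp hpc)).measurable.ennreal_ofReal
  have hmain : ∀ g : S → ℤ, ∫ d, aboch0_chi S g d
      ∂(μ.withDensity fun d => ENNReal.ofReal (c * (p d).re)) =
      (∏ e : S, aboch0_cnt N (g e) / (N : ℂ)) * φ (aboch0_y S g) := by
    intro g
    rw [integral_withDensity_eq_integral_toReal_smul hmeas
      (Eventually.of_forall fun _ => ENNReal.ofReal_lt_top)]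
    have h1 : ∀ d, (ENNReal.ofReal (c * (p d).re)).toReal • aboch0_chi S g d =
        (c : ℂ) * (p d * aboch0_chi S g d) := by
      intro d
      rw [ENNReal.toReal_ofReal (mul_nonneg hc0 (hp0 d).1), Complex.real_smul, Complex.ofReal_mul,
        hpre, mul_assoc]
    simp only [h1]
    rw [integral_const_mul, hint, hc, ← mul_assoc]
    congr 1
    push_cast
    rw [← Finset.prod_mul_distrib]
    refine Finset.prod_congr rfl fun e _ => ?_
    rw [div_eq_inv_mul]
  have hprob : IsProbabilityMeasure (μ.withDensity fun d => ENNReal.ofReal (c * (p d).re)) := by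
    have h1 := hmain 0
    have hN' : (N : ℂ) ≠ 0 := Nat.cast_ne_zero.2 hN.ne'
    simp only [aboch0_chi_zero, aboch0_y_zero, h0, Pi.zero_apply, aboch0_cnt_eq N 0 (by simp),
      Int.natAbs_zero, Nat.cast_zero, sub_zero, div_self hN', Finset.prod_const_one, mul_one,
      integral_const, Complex.real_smul, Complex.ofReal_eq_one] at h1
    exact isProbabilityMeasure_iff_real.2 h1
  exact ⟨⟨_, hprob⟩, hmain⟩

/-- Bochner on the free abelian group on `E`: Fejér densities
`(1/N^k) ∑_{n,n'} φ(n·z - n'·z) conj (χ_{n-n'})` against Haar measure of `X`, cluster point in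
`ProbabilityMeasure X` -/
theorem bochner0 {φ : E → ℂ} (hpd : PD φ) (h0 : φ 0 = 1) :
    ∃ ν : Measure X, IsProbabilityMeasure ν ∧
      ∀ (n : ℕ) (m : Fin n → ℤ) (z : Fin n → E),
        ∫ d, fourier 1 (∑ i, m i • d (z i)) ∂ν = φ (∑ i, m i • z i) := by
  classical
  choose ν hν using fun w : Finset E × ℕ => aboch0_fejer hpd h0 w.1 (Nat.succ_pos w.2)
  obtain ⟨U, hU⟩ := Ultrafilter.exists_le (atTop : Filter (Finset E × ℕ))
  obtain ⟨ν₀, -, hν₀⟩ := isCompact_univ.ultrafilter_le_nhds (U.map ν) (by simp)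
  refine ⟨ν₀, inferInstance, fun n m z => ?_⟩
  obtain ⟨g, hg⟩ : ∃ g : E → ℤ, ∀ e, g e = ∑ i ∈ Finset.univ.filter fun i => z i = e, m i :=
    ⟨_, fun _ => rfl⟩
  have hsum : ∀ {V : Type} [AddCommGroup V] (S : Finset E), (∀ i, z i ∈ S) → ∀ u : E → V,
      ∑ e : S, g e • u e = ∑ i, m i • u (z i) := by
    intro V _ S hS u
    rw [Finset.sum_coe_sort S fun e => g e • u e,
      ← Finset.sum_fiberwise_of_maps_to (s := Finset.univ) (t := S) (g := z) fun i _ => hS i]
    refine Finset.sum_congr rfl fun e _ => ?_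
    rw [hg, Finset.sum_smul]
    refine Finset.sum_congr rfl fun i hi => ?_
    rw [(Finset.mem_filter.1 hi).2]
  have hcont : Continuous fun d : X => fourier 1 (∑ i, m i • d (z i)) :=
    (fourier 1).continuous.comp (continuous_finsetSum _ fun i _ => (continuous_apply (z i)).zsmul _)
  have h1 := (ProbabilityMeasure.tendsto_iff_forall_integral_rclike_tendsto ℂ).1
    (show Tendsto ν U (𝓝 ν₀) from hν₀) (BoundedContinuousFunction.mkOfCompact ⟨_, hcont⟩)
  have h2 : Tendsto (fun w : Finset E × ℕ => ∫ d, fourier 1 (∑ i, m i • d (z i)) ∂(ν w : Measure X))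
      atTop (𝓝 (φ (∑ i, m i • z i))) := by
    have hsnd : Tendsto (fun w : Finset E × ℕ => w.2) atTop atTop := by
      rw [← prod_atTop_atTop_eq]
      exact tendsto_snd
    have h3 : Tendsto (fun w : Finset E × ℕ =>
        (∏ e ∈ Finset.univ.image z, aboch0_cnt (w.2 + 1) (g e) / ((w.2 + 1 : ℕ) : ℂ)) *
          φ (∑ i, m i • z i)) atTop (𝓝 ((∏ _e ∈ Finset.univ.image z, (1 : ℂ)) *
            φ (∑ i, m i • z i))) :=
      (tendsto_finsetProd _ fun e _ => (aboch0_cnt_tendsto (g e)).comp hsnd).mul_const _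
    rw [Finset.prod_const_one, one_mul] at h3
    refine h3.congr' ?_
    filter_upwards [eventually_ge_atTop ((Finset.univ.image z, 0) : Finset E × ℕ)] with w hw
    have hS : ∀ i, z i ∈ w.1 := fun i => hw.1 (Finset.mem_image_of_mem z (Finset.mem_univ i))
    have h4 := hν w fun e => g e
    unfold aboch0_chi aboch0_y at h4
    simp only [hsum w.1 hS] at h4
    rw [hsum w.1 hS fun e => e] at h4
    rw [h4, Finset.prod_coe_sort w.1 fun e => aboch0_cnt w.2.succ (g e) / ((w.2.succ : ℕ) : ℂ)]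
    congr 1
    refine Finset.prod_subset hw.1 fun e _ he => ?_
    have hge : g e = 0 := by
      rw [hg]
      refine Finset.sum_eq_zero fun i hi => ?_
      exact absurd (Finset.mem_image.2 ⟨i, Finset.mem_univ i, (Finset.mem_filter.1 hi).2⟩) he
    rw [hge, aboch0_cnt_eq _ _ (by simp)]
    have : ((w.2 + 1 : ℕ) : ℂ) ≠ 0 := Nat.cast_ne_zero.2 (by omega)
    simp only [Int.natAbs_zero, Nat.cast_zero, sub_zero]
    exact div_self this
  exact tendsto_nhds_unique h1 (h2.mono_left hU)

end Crest.Agent.R40.A
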