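import Crest.Agent.R40.ARel1
import Crest.Agent.R40.AErg
import Crest.Agent.R40.AAlg1

/-! Row 40 A: Chebyshev decay. -/

set_option autoImplicit false
open MeasureTheory ProbabilityTheory Filter Topology
open scoped ComplexConjugate

noncomputable section
namespace Crest.Agent.R40.A

lemma achar2_prod {ι : Type} (s : Finset ι) (t : ι → ℝ) (h0 : ∀ j, 0 ≤ t j) (h1 : ∀ j, t j ≤ 1) :
    (∏ j ∈ s, t j) * (1 + ∑ j ∈ s, (1 - t j)) ≤ 1 := by
  classical
  induction s using Finset.induction_on with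
  | empty => simp
  | insert a s ha ih =>
    rw [Finset.prod_insert ha, Finset.sum_insert ha]
    have hP : 0 ≤ ∏ j ∈ s, t j := Finset.prod_nonneg fun j _ => h0 j
    have hS : 0 ≤ ∑ j ∈ s, (1 - t j) := Finset.sum_nonneg fun j _ => sub_nonneg.2 (h1 j)
    have h2 : t a * (1 + (1 - t a + ∑ j ∈ s, (1 - t j))) ≤ 1 + ∑ j ∈ s, (1 - t j) := by
      nlinarith [mul_le_mul_of_nonneg_right (h1 a) hS, sq_nonneg (1 - t a)]
    calc t a * (∏ j ∈ s, t j) * (1 + (1 - t a + ∑ j ∈ s, (1 - t j)))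
        = (∏ j ∈ s, t j) * (t a * (1 + (1 - t a + ∑ j ∈ s, (1 - t j)))) := by ring
      _ ≤ (∏ j ∈ s, t j) * (1 + ∑ j ∈ s, (1 - t j)) := mul_le_mul_of_nonneg_left h2 hP
      _ ≤ 1 := ih

lemma achar2_pt {n : ℕ} (hn : 0 < n) (t : Fin n → ℝ) (h0 : ∀ j, 0 ≤ t j) (h1 : ∀ j, t j ≤ 1)
    (e : Fin n → ℂ) (he : ∀ j, 1 / 4 ≤ (e j).re) :
    ∏ j, t j ≤ 8 / n + 64 / n ^ 2 * ‖∑ j, (((1 - t j : ℝ) : ℂ) - e j)‖ ^ 2 := by
  have hn' : (0 : ℝ) < n := by exact_mod_cast hn
  have hP : 0 ≤ ∏ j, t j := Finset.prod_nonneg fun j _ => h0 j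
  have hP1 : ∏ j, t j ≤ 1 := Finset.prod_le_one (fun j _ => h0 j) fun j _ => h1 j
  have h2 := achar2_prod Finset.univ t h0 h1
  rcases le_or_gt ((n : ℝ) / 8) (∑ j, (1 - t j)) with h3 | h3
  · have h4 : ∏ j, t j ≤ 8 / n := by
      rw [le_div_iff₀ hn']
      nlinarith [mul_le_mul_of_nonneg_left h3 hP]
    have : 0 ≤ 64 / (n : ℝ) ^ 2 * ‖∑ j, (((1 - t j : ℝ) : ℂ) - e j)‖ ^ 2 := by positivity
    linarith
  · have h4 : (n : ℝ) / 4 ≤ ∑ j, (e j).re := by
      have := Finset.sum_le_sum fun j (_ : j ∈ (Finset.univ : Finset (Fin n))) => he j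
      simp only [Finset.sum_const, Finset.card_univ, Fintype.card_fin, nsmul_eq_mul] at this
      linarith
    have h5 : (∑ j, (((1 - t j : ℝ) : ℂ) - e j)).re = ∑ j, (1 - t j) - ∑ j, (e j).re := by
      rw [Complex.re_sum, ← Finset.sum_sub_distrib]
      simp only [Complex.sub_re, Complex.ofReal_re]
    have h6 : (n : ℝ) / 8 ≤ ‖∑ j, (((1 - t j : ℝ) : ℂ) - e j)‖ := by
      refine le_trans ?_ (Complex.abs_re_le_norm _)
      rw [h5]
      exact le_abs.2 (Or.inr (by linarith))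
    have h7 : ((n : ℝ) / 8) ^ 2 ≤ ‖∑ j, (((1 - t j : ℝ) : ℂ) - e j)‖ ^ 2 :=
      pow_le_pow_left₀ (by positivity) h6 2
    have h8 : (1 : ℝ) = 64 / n ^ 2 * ((n : ℝ) / 8) ^ 2 := by field_simp; norm_num
    have h9 := mul_le_mul_of_nonneg_left h7 (by positivity : (0 : ℝ) ≤ 64 / n ^ 2)
    have : (0 : ℝ) ≤ 8 / n := by positivity
    linarith

lemma achar2_av_mono {α : Type} (p : FP α) {F G : α → ℝ} (h : ∀ u, F u ≤ G u) :
    p.av F ≤ p.av G :=
  Finset.sum_le_sum fun i _ => by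
    simpa only [smul_eq_mul] using mul_le_mul_of_nonneg_left (h _) (p.nonneg i)

lemma achar2_av_sq {α : Type} (p : FP α) (F : α → ℂ) :
    ‖p.av F‖ ^ 2 ≤ p.av fun u => ‖F u‖ ^ 2 := by
  have h1 : ‖p.av F‖ ≤ ∑ i, p.w i * ‖F (p.x i)‖ := by
    refine (norm_sum_le _ _).trans (Finset.sum_le_sum fun i _ => ?_)
    rw [norm_smul, Real.norm_of_nonneg (p.nonneg i)]
  refine (pow_le_pow_left₀ (norm_nonneg _) h1 2).trans ?_
  have h2 := Finset.sum_mul_sq_le_sq_mul_sq Finset.univ (fun i => √(p.w i))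
    (fun i => √(p.w i) * ‖F (p.x i)‖)
  simp only [← mul_assoc, Real.mul_self_sqrt (p.nonneg _), Real.sq_sqrt (p.nonneg _), mul_pow,
    p.sum_one, one_mul] at h2
  simpa only [FP.av, smul_eq_mul] using h2

lemma achar2_av_lin {α ι : Type} [Fintype ι] (p : FP α) (A B : ℝ) (c : ι → ι → α → ℂ) :
    (p.av fun u => A + B * ∑ j, ∑ k, (c j k u).re) = A + B * ∑ j, ∑ k, (p.av (c j k)).re := by
  simp only [FP.av, smul_eq_mul, mul_add, Finset.sum_add_distrib, ← Finset.sum_mul, p.sum_one,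
    one_mul, Complex.re_sum, Complex.real_smul, Complex.re_ofReal_mul, Finset.mul_sum]
  congr 1
  rw [Finset.sum_comm]
  refine Finset.sum_congr rfl fun j _ => ?_
  rw [Finset.sum_comm]
  refine Finset.sum_congr rfl fun k _ => Finset.sum_congr rfl fun i _ => ?_
  ring

variable {ν : Measure X} [IsProbabilityMeasure ν]

lemma achar2_int {F : X → ℂ} (hF : BM F) : Integrable F ν := by
  obtain ⟨C, hC⟩ := hF.2
  exact (integrable_const C).mono' hF.1.aestronglyMeasurable (.of_forall hC)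

lemma achar2_mul {F G : X → ℂ} (hF : BM F) (hG : BM G) : BM fun x => F x * G x := by
  obtain ⟨C, hC⟩ := hF.2
  obtain ⟨D, hD⟩ := hG.2
  refine ⟨hF.1.mul hG.1, C * D, fun x => ?_⟩
  rw [norm_mul]
  exact mul_le_mul (hC x) (hD x) (norm_nonneg _) ((norm_nonneg _).trans (hC x))

lemma achar2_conj {F : X → ℂ} (hF : BM F) : BM fun x => conj (F x) := by
  obtain ⟨C, hC⟩ := hF.2
  exact ⟨Complex.continuous_conj.measurable.comp hF.1, C, fun x => by
    rw [Complex.norm_conj]; exact hC x⟩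

lemma achar2_sub {F G : X → ℂ} (hF : BM F) (hG : BM G) : BM fun x => F x - G x := by
  obtain ⟨C, hC⟩ := hF.2
  obtain ⟨D, hD⟩ := hG.2
  exact ⟨hF.1.sub hG.1, C + D, fun x => (norm_sub_le _ _).trans (add_le_add (hC x) (hD x))⟩

lemma achar2_act {F : X → ℂ} (hF : BM F) (u : K) : BM fun x => F (act u x) := by
  obtain ⟨C, hC⟩ := hF.2
  exact ⟨hF.1.comp (measurable_act u), C, fun x => hC _⟩

omit [IsProbabilityMeasure ν] in
lemma achar2_inv (hν : Good ν) {F : X → ℂ} (hF : Measurable F) (u : K) :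
    ∫ x, F (act u x) ∂ν = ∫ x, F x ∂ν := by
  rw [← integral_map (hν.mp u).measurable.aemeasurable hF.aestronglyMeasurable, (hν.mp u).map_eq]

lemma achar2_pi {G H : X → ℂ} (hG : BM G) (hH : IsPI ν act G H) :
    IsPI ν act (fun x => G x - H x) fun _ => 0 := by
  refine ⟨⟨measurable_const, 0, fun x => by simp⟩, fun u => .rfl, fun k hk hk' => ?_⟩
  simp only [zero_mul, integral_zero, sub_mul]
  rw [integral_sub (achar2_int (achar2_mul hG hk)) (achar2_int (achar2_mul hH.bm hk)),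
    hH.orth k hk hk', sub_self]

lemma achar2_diag {G H : X → ℂ} (hG : BM G) (hG1 : ∀ x, ‖G x‖ ≤ 1) (hH : IsPI ν act G H) :
    (∫ x, (G x - H x) * conj (G x - H x) ∂ν).re ≤ 1 := by
  have hE := achar2_sub hG hH.bm
  have h1 : ∫ x, (G x - H x) * conj (H x) ∂ν = 0 := by
    have := (achar2_pi hG hH).orth (fun x => conj (H x)) (achar2_conj hH.bm) fun u => by
      filter_upwards [hH.inv u] with x hx
      rw [hx]
    simpa using this.symm
  have i1 := achar2_int (ν := ν) (achar2_mul hE (achar2_conj hE))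
  have i2 := achar2_int (ν := ν) (achar2_mul hE (achar2_conj hH.bm))
  have h2 : (∫ x, (G x - H x) * conj (G x - H x) ∂ν).re =
      (∫ x, ((G x - H x) * conj (G x - H x) + 2 * ((G x - H x) * conj (H x))) ∂ν).re := by
    rw [integral_add i1 (i2.const_mul 2), integral_const_mul, h1]; simp
  have i3 : Integrable
      (fun x => (G x - H x) * conj (G x - H x) + 2 * ((G x - H x) * conj (H x))) ν :=
    i1.add (i2.const_mul 2)
  rw [h2, ← RCLike.re_to_complex, ← integral_re i3]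
  have h3 : ∫ _, (1 : ℝ) ∂ν = 1 := by simp
  refine le_trans (integral_mono i3.re (integrable_const _) fun x => ?_) h3.le
  have h4 : ‖G x‖ ^ 2 ≤ 1 := pow_le_one₀ (norm_nonneg _) (hG1 x)
  rw [Complex.sq_norm, Complex.normSq_apply] at h4
  simp only [RCLike.re_to_complex, Complex.add_re, Complex.mul_re, Complex.sub_re,
    Complex.conj_re, Complex.sub_im, Complex.conj_im, Complex.mul_im, Complex.re_ofNat,
    Complex.im_ofNat, map_sub]
  nlinarith [sq_nonneg (H x).re, sq_nonneg (H x).im]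

lemma achar2_sq {ι : Type} [Fintype ι] (D : ι → X → ℂ) (hD : ∀ j, BM (D j)) :
    Integrable (fun x => ‖∑ j, D j x‖ ^ 2) ν ∧
      ∫ x, ‖∑ j, D j x‖ ^ 2 ∂ν = ∑ j, ∑ k, (∫ x, D j x * conj (D k x) ∂ν).re := by
  have hi : ∀ j k, Integrable (fun x => D j x * conj (D k x)) ν := fun j k =>
    achar2_int (achar2_mul (hD j) (achar2_conj (hD k)))
  have e : ∀ x, ‖∑ j, D j x‖ ^ 2 = ∑ j, ∑ k, RCLike.re (D j x * conj (D k x)) := by
    intro x
    simp only [← map_sum, ← Finset.mul_sum, ← Finset.sum_mul]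
    rw [Complex.mul_conj, Complex.sq_norm]; simp
  simp only [e]
  refine ⟨integrable_finsetSum _ fun j _ => integrable_finsetSum _ fun k _ => (hi j k).re, ?_⟩
  rw [integral_finsetSum _ fun j _ => integrable_finsetSum _ fun k _ => (hi j k).re]
  refine Finset.sum_congr rfl fun j _ => ?_
  rw [integral_finsetSum _ fun k _ => (hi j k).re]
  refine Finset.sum_congr rfl fun k _ => ?_
  rw [integral_re (hi j k)]; rfl

/-- pairwise independence + Chebyshev: with `S = ∑ⱼ T^{aⱼ u}(1 - ‖gⱼ‖²)`,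
`∏ ‖gⱼ‖² ≤ 1/(1+S) ≤ 8/n + 64 (S - ∑ hⱼ)²/n²` -/
theorem decay (hν : Good ν) (q : Fol K) (n : ℕ) (hn : 0 < n) (a : Fin n → ℤ)
    (ha : Function.Injective a) (g h : Fin n → X → ℂ) (hg : ∀ j, Measurable (g j))
    (hb : ∀ j x, ‖g j x‖ ≤ 1)
    (hh : ∀ j, IsPI ν act (fun x => ((1 - ‖g j x‖ ^ 2 : ℝ) : ℂ)) (h j))
    (h14 : ∀ j, ∀ᵐ x ∂ν, 1 / 4 ≤ (h j x).re) {ε : ℝ} (hε : 0 < ε) :
    ∀ᶠ N in atTop,
      ‖(q.p N).av fun u => ∫ x, ∏ j, g j (act (u ^ a j) x) ∂ν‖ ^ 2 ≤ 72 / n + ε := by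
  have hn' : (0 : ℝ) < n := by exact_mod_cast hn
  have ht0 : ∀ j x, 0 ≤ ‖g j x‖ ^ 2 := fun j x => by positivity
  have ht1 : ∀ j x, ‖g j x‖ ^ 2 ≤ 1 := fun j x => pow_le_one₀ (norm_nonneg _) (hb j x)
  have hG1 : ∀ j x, ‖((1 - ‖g j x‖ ^ 2 : ℝ) : ℂ)‖ ≤ 1 := fun j x => by
    rw [Complex.norm_real, Real.norm_eq_abs, abs_le]
    constructor <;> linarith [ht0 j x, ht1 j x]
  have hG : ∀ j, BM fun x => ((1 - ‖g j x‖ ^ 2 : ℝ) : ℂ) := fun j =>
    ⟨Complex.measurable_ofReal.comp (measurable_const.sub ((hg j).norm.pow_const 2)), 1, hG1 j⟩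
  set D : Fin n → X → ℂ := fun j x => ((1 - ‖g j x‖ ^ 2 : ℝ) : ℂ) - h j x with hDdef
  have hD : ∀ j, BM (D j) := fun j => achar2_sub (hG j) (hh j).bm
  set c : Fin n → Fin n → K → ℂ := fun j k u =>
    ∫ x, D j (act (u ^ a j) x) * conj (D k (act (u ^ a k) x)) ∂ν with hcdef
  have hc : ∀ j k u, c j k u = ∫ x, D j (act (u ^ (a j - a k)) x) * conj (D k x) ∂ν := by
    intro j k u
    rw [← achar2_inv hν (achar2_mul (achar2_act (hD j) _) (achar2_conj (hD k))).1 (u ^ a k)]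
    simp only [hcdef, ← act_mul, ← zpow_add, sub_add_cancel]
  -- the bound for a single `u`
  have h1 : ∀ u : K, ‖∫ x, ∏ j, g j (act (u ^ a j) x) ∂ν‖ ^ 2 ≤
      8 / n + 64 / n ^ 2 * ∑ j, ∑ k, (c j k u).re := by
    intro u
    obtain ⟨i1, e1⟩ := achar2_sq (ν := ν) (fun j x => D j (act (u ^ a j) x))
      fun j => achar2_act (hD j) _
    have hm : Measurable fun x => ∏ j, g j (act (u ^ a j) x) :=
      Finset.measurable_prod _ fun j _ => (hg j).comp (measurable_act _)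
    have hb' : ∀ x, ‖∏ j, g j (act (u ^ a j) x)‖ ≤ 1 := fun x => by
      rw [norm_prod]
      exact Finset.prod_le_one (fun j _ => norm_nonneg _) fun j _ => hb j _
    have hL : MemLp (fun x => ‖∏ j, g j (act (u ^ a j) x)‖) 2 ν :=
      MemLp.of_bound hm.norm.aestronglyMeasurable 1 (.of_forall fun x => by
        rw [norm_norm]; exact hb' x)
    have h2 : (∫ x, ‖∏ j, g j (act (u ^ a j) x)‖ ∂ν) ^ 2 ≤
        ∫ x, ‖∏ j, g j (act (u ^ a j) x)‖ ^ 2 ∂ν := by
      have := variance_nonneg (fun x => ‖∏ j, g j (act (u ^ a j) x)‖) ν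
      rw [variance_eq_sub hL] at this
      simp only [Pi.pow_apply] at this
      linarith
    have h3 : ∫ x, ‖∏ j, g j (act (u ^ a j) x)‖ ^ 2 ∂ν ≤
        ∫ x, (8 / n + 64 / n ^ 2 * ‖∑ j, D j (act (u ^ a j) x)‖ ^ 2) ∂ν := by
      refine integral_mono_ae hL.integrable_sq ((integrable_const _).add (i1.const_mul _)) ?_
      have : ∀ᵐ x ∂ν, ∀ j, 1 / 4 ≤ (h j (act (u ^ a j) x)).re :=
        ae_all_iff.2 fun j => (hν.mp _).quasiMeasurePreserving.ae (h14 j)
      filter_upwards [this] with x hx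
      rw [norm_prod, ← Finset.prod_pow]
      exact achar2_pt hn _ (fun j => ht0 j _) (fun j => ht1 j _) _ hx
    rw [integral_add (integrable_const _) (i1.const_mul _), integral_const_mul, e1] at h3
    simp only [integral_const, probReal_univ, smul_eq_mul, one_mul] at h3
    exact ((pow_le_pow_left₀ (norm_nonneg _) (norm_integral_le_integral_norm _) 2).trans h2).trans h3
  have h2 : ∀ j k, ∀ᶠ N in atTop,
      ((q.p N).av (c j k)).re ≤ (if j = k then 1 else 0) + ε / 64 := by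
    intro j k
    by_cases hjk : j = k
    · subst hjk
      refine .of_forall fun N => ?_
      have e : c j j = fun _ => ∫ x, D j x * conj (D j x) ∂ν := by
        funext u
        rw [hc]
        simp only [sub_self, zpow_zero, act_one]
      have e2 : (q.p N).av (c j j) = ∫ x, D j x * conj (D j x) ∂ν := by
        rw [e, FP.av, ← Finset.sum_smul, (q.p N).sum_one, one_smul]
      rw [e2, if_pos rfl]
      have := achar2_diag (hG j) (hG1 j) (hh j)
      exact le_trans this (by linarith)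
    · have hne : a j - a k ≠ 0 := sub_ne_zero.2 fun h' => hjk (ha h')
      have h3 := met_two (isAct_act hν) q (zpowGroupHom (a j - a k)) (zpow_surj hne) (hD j)
        (achar2_pi (hG j) (hh j)) (achar2_conj (hD k))
      simp only [zero_mul, integral_zero] at h3
      have e : c j k = fun u => ∫ x, D j (act (zpowGroupHom (a j - a k) u) x) * conj (D k x) ∂ν :=
        funext fun u => hc j k u
      rw [← e] at h3
      have h4 := (Complex.continuous_re.tendsto 0).comp h3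
      rw [if_neg hjk, zero_add]
      exact (h4.eventually_le_const (by simpa using hε))
  filter_upwards [eventually_all.2 fun j => eventually_all.2 fun k => h2 j k] with N hN
  refine (achar2_av_sq _ _).trans ((achar2_av_mono _ h1).trans ?_)
  rw [achar2_av_lin]
  have h3 : ∑ j, ∑ k, ((q.p N).av (c j k)).re ≤ n + n ^ 2 * (ε / 64) := by
    refine (Finset.sum_le_sum fun j _ => Finset.sum_le_sum fun k _ => hN j k).trans (le_of_eq ?_)
    simp only [Finset.sum_add_distrib, Finset.sum_ite_eq, Finset.mem_univ, if_true,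
      Finset.sum_const, Finset.card_univ, Fintype.card_fin, nsmul_eq_mul]
    ring
  have h4 := mul_le_mul_of_nonneg_left h3 (by positivity : (0 : ℝ) ≤ 64 / n ^ 2)
  have h5 : (64 : ℝ) / n ^ 2 * (n + n ^ 2 * (ε / 64)) = 64 / n + ε := by field_simp
  have h6 : (72 : ℝ) / n = 8 / n + 64 / n := by ring
  linarith

end Crest.Agent.R40.A
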