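import Crest.Agent.R40.APlus
import Crest.Agent.R40.AErg
import Crest.Agent.R40.AAlg1

/-! Row 40 A: `tower ν k` is characteristic for `(k+2)`-term averages. -/

set_option autoImplicit false
open MeasureTheory ProbabilityTheory Filter Topology
open scoped ComplexConjugate

noncomputable section
namespace Crest.Agent.R40.A

section Aux
variable {α W : Type} [MeasurableSpace W] {μ : Measure W} [IsProbabilityMeasure μ]

omit [IsProbabilityMeasure μ] in
lemma achar1_mp {W' V : Type} [MeasurableSpace W'] {μ' : Measure W'} [NormedAddCommGroup V]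
    [NormedSpace ℝ V] {T : W → W'} (hT : MeasurePreserving T μ μ') {g : W' → V}
    (hg : StronglyMeasurable g) : ∫ x, g x ∂μ' = ∫ x, g (T x) ∂μ := by
  rw [← hT.map_eq, integral_map hT.measurable.aemeasurable hg.aestronglyMeasurable]

lemma achar1_int {g : W → ℂ} (hg : Measurable g) {C : ℝ} (hb : ∀ x, ‖g x‖ ≤ C) :
    Integrable g μ :=
  Integrable.of_bound hg.aestronglyMeasurable C (Eventually.of_forall hb)

lemma achar1_av_sub (p : FP α) (a b : α → ℂ) : p.av a - p.av b = p.av fun u => a u - b u := by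
  simp only [FP.av, smul_sub, Finset.sum_sub_distrib]

lemma achar1_av_mul (p : FP α) (c : ℂ) (a : α → ℂ) : (p.av fun u => c * a u) = c * p.av a := by
  simp only [FP.av, Finset.mul_sum, mul_smul_comm]

lemma achar1_av_le (p : FP α) {a b : α → ℝ} (h : ∀ u, a u ≤ b u) : p.av a ≤ p.av b :=
  Finset.sum_le_sum fun i _ => smul_le_smul_of_nonneg_left (h _) (p.nonneg i)

lemma achar1_av_aff (p : FP α) (c d : ℝ) (a : α → ℝ) :
    (p.av fun u => c + d * a u) = c + d * p.av a := by
  simp only [FP.av, smul_eq_mul, mul_add, Finset.sum_add_distrib, ← Finset.sum_mul, p.sum_one,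
    one_mul, Finset.mul_sum, mul_left_comm]

lemma achar1_av_norm (p : FP α) {a : α → ℂ} {C : ℝ} (h : ∀ u, ‖a u‖ ≤ C) : ‖p.av a‖ ≤ C := by
  refine (norm_sum_le _ _).trans ?_
  calc ∑ i, ‖p.w i • a (p.x i)‖ ≤ ∑ i, p.w i * C := Finset.sum_le_sum fun i _ => by
        rw [norm_smul, Real.norm_of_nonneg (p.nonneg i)]
        exact mul_le_mul_of_nonneg_left (h _) (p.nonneg i)
    _ = C := by rw [← Finset.sum_mul, p.sum_one, one_mul]

lemma achar1_av_meas (p : FP α) {F : α → W → ℂ} (hF : ∀ u, Measurable (F u)) :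
    Measurable fun x => p.av fun u => F u x :=
  Finset.measurable_sum _ fun _ _ => (hF _).const_smul _

omit [IsProbabilityMeasure μ] in
lemma achar1_av_int (p : FP α) {F : α → W → ℂ} (hF : ∀ u, Integrable (F u) μ) :
    (p.av fun u => ∫ x, F u x ∂μ) = ∫ x, (p.av fun u => F u x) ∂μ := by
  simp only [FP.av]
  rw [integral_finsetSum (f := fun i x => p.w i • F (p.x i) x) _ fun i _ => (hF _).smul (p.w i)]
  simp only [integral_smul]

lemma achar1_av_ofReal (p : FP α) (a : α → ℝ) :
    ((p.av a : ℝ) : ℂ) = p.av fun u => (a u : ℂ) := by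
  simp [FP.av]

lemma achar1_av_conj (p : FP α) (a : α → ℂ) :
    conj (p.av a) = p.av fun u => conj (a u) := by
  simp [FP.av]

omit [IsProbabilityMeasure μ] in
lemma achar1_n2 (g : W → ℂ) : ((n2 μ g : ℝ) : ℂ) = ∫ x, g x * conj (g x) ∂μ := by
  rw [n2, ← integral_complex_ofReal]
  refine integral_congr_ae (Eventually.of_forall fun x => ?_)
  simp [Complex.mul_conj, Complex.normSq_eq_norm_sq]

omit [IsProbabilityMeasure μ] in
lemma achar1_n2_nonneg (g : W → ℂ) : 0 ≤ n2 μ g := integral_nonneg fun _ => by positivity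

/-- Cauchy–Schwarz -/
lemma achar1_cs {g : W → ℂ} (hg : Measurable g) {C : ℝ} (hb : ∀ x, ‖g x‖ ≤ C) :
    ∫ x, ‖g x‖ ∂μ ≤ √(n2 μ g) := by
  have h1 : Integrable (fun x => ‖g x‖) μ := (achar1_int hg hb).norm
  have h2 : Integrable (fun x => ‖g x‖ ^ 2) μ :=
    Integrable.of_bound (hg.norm.pow_const 2).aestronglyMeasurable (C ^ 2)
      (Eventually.of_forall fun x => by
        rw [Real.norm_of_nonneg (by positivity)]
        exact pow_le_pow_left₀ (norm_nonneg _) (hb x) 2)
  set m := ∫ x, ‖g x‖ ∂μ with hm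
  refine Real.le_sqrt_of_sq_le ?_
  have h3 : ∫ x, (2 * m * ‖g x‖ - m ^ 2) ∂μ ≤ n2 μ g :=
    integral_mono ((h1.const_mul _).sub (integrable_const _)) h2 fun x => by
      nlinarith [sq_nonneg (‖g x‖ - m)]
  rw [integral_sub (h1.const_mul _) (integrable_const _), integral_const_mul, integral_const] at h3
  simp only [probReal_univ, smul_eq_mul, one_mul, ← hm] at h3
  nlinarith

/-- the Gram sum of a family -/
lemma achar1_gram (p : FP α) {F : α → W → ℂ} (hF : ∀ u, Measurable (F u))
    (hb : ∀ u x, ‖F u x‖ ≤ 1) (γ : α → α → ℝ)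
    (hγ : ∀ h h', (γ h h' : ℂ) = ∫ x, F h x * conj (F h' x) ∂μ) :
    (p.av fun h => p.av fun h' => γ h h') = n2 μ fun x => p.av fun u => F u x := by
  have hi : ∀ h h', Integrable (fun x => F h x * conj (F h' x)) μ := fun h h' =>
    achar1_int ((hF h).mul (Complex.continuous_conj.measurable.comp (hF h'))) (C := 1) fun x => by
      rw [norm_mul, Complex.norm_conj]; exact mul_le_one₀ (hb _ _) (norm_nonneg _) (hb _ _)
  apply Complex.ofReal_injective
  rw [achar1_n2]
  simp only [achar1_av_ofReal, hγ, achar1_av_int p (hi _)]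
  rw [achar1_av_int p (F := fun h x => p.av fun h' => F h x * conj (F h' x))
    fun h => integrable_finsetSum _ fun i _ => (hi h _).smul (p.w i)]
  refine integral_congr_ae (Eventually.of_forall fun x => ?_)
  simp only [achar1_av_mul, achar1_av_conj]
  simp only [mul_comm (F _ x), achar1_av_mul]
  rw [mul_comm]

omit [MeasurableSpace W] in
lemma achar1_prod_update {ι : Type} [Fintype ι] [DecidableEq ι] (g : ι → W → ℂ) (i : ι)
    (φ : W → ℂ) (y : ι → W) :
    ∏ j, Function.update g i φ j (y j) = φ (y i) * ∏ j ∈ Finset.univ.erase i, g j (y j) := by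
  rw [← Finset.mul_prod_erase _ _ (Finset.mem_univ i), Function.update_self]
  congr 1
  exact Finset.prod_congr rfl fun j hj => by rw [Function.update_of_ne (Finset.ne_of_mem_erase hj)]

lemma achar1_prod_le {ι : Type} (s : Finset ι) {c : ι → ℂ} (h : ∀ j, ‖c j‖ ≤ 1) :
    ‖∏ j ∈ s, c j‖ ≤ 1 := by
  rw [norm_prod]
  exact Finset.prod_le_one (fun _ _ => norm_nonneg _) fun j _ => h j

end Aux

variable {ν : Measure X} [IsProbabilityMeasure ν]

/-- the statement of `char` -/
def achar1_St (ν : Measure X) [IsProbabilityMeasure ν] (q : Fol K) (k : ℕ) : Prop :=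
  ∀ (a : Fin (k + 2) → ℤ), Function.Injective a → ∀ (g : Fin (k + 2) → X → ℂ),
    (∀ j, Measurable (g j)) → (∀ j x, ‖g j x‖ ≤ 1) → ∀ i, cE ν (tower ν k) (g i) =ᵐ[ν] 0 →
    Tendsto (fun n => (q.p n).av fun u => ∫ x, ∏ j, g j (act (u ^ a j) x) ∂ν) atTop (𝓝 0)

lemma achar1_cE_meas (Z : Fac) {g : X → ℂ} (hg : Measurable g) : Measurable (cE ν Z g) :=
  (cE_meas Z hg).mono Z.le le_rfl

lemma achar1_upd {ι : Type} [DecidableEq ι] {g : ι → X → ℂ} (hg : ∀ j, Measurable (g j))
    (hb : ∀ j x, ‖g j x‖ ≤ 1) (i : ι) {φ : X → ℂ} (h1 : Measurable φ) (h2 : ∀ x, ‖φ x‖ ≤ 1) :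
    (∀ j, Measurable (Function.update g i φ j)) ∧ ∀ j x, ‖Function.update g i φ j x‖ ≤ 1 := by
  refine ⟨fun j => ?_, fun j x => ?_⟩ <;> rcases eq_or_ne j i with rfl | h
  · rwa [Function.update_self]
  · rw [Function.update_of_ne h]; exact hg j
  · rw [Function.update_self]; exact h2 x
  · rw [Function.update_of_ne h]; exact hb j x

lemma achar1_prod_meas {ι : Type} [Fintype ι] {g : ι → X → ℂ} (hg : ∀ j, Measurable (g j))
    (v : ι → K) : Measurable fun x => ∏ j, g j (act (v j) x) :=
  Finset.measurable_prod _ fun j _ => (hg j).comp (measurable_act _)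

/-- one function may be replaced by its conditional expectation -/
lemma achar1_step {q : Fol K} {k : ℕ} (h : achar1_St ν q k) (a : Fin (k + 2) → ℤ)
    (ha : Function.Injective a) (g : Fin (k + 2) → X → ℂ) (hg : ∀ j, Measurable (g j))
    (hb : ∀ j x, ‖g j x‖ ≤ 1) (i : Fin (k + 2)) :
    Tendsto (fun n => ((q.p n).av fun u => ∫ x, ∏ j, g j (act (u ^ a j) x) ∂ν) -
      (q.p n).av fun u => ∫ x, ∏ j, Function.update g i (cE ν (tower ν k) (g i)) j
        (act (u ^ a j) x) ∂ν) atTop (𝓝 0) := by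
  set Z := tower ν k
  have m1 : Measurable (cE ν Z (g i)) := achar1_cE_meas Z (hg i)
  have b1 : ∀ x, ‖cE ν Z (g i) x‖ ≤ 1 := cE_norm_le Z (hb i)
  set φ : X → ℂ := fun x => (1 / 2 : ℂ) * (g i x - cE ν Z (g i) x) with hφ
  have m2 : Measurable φ := ((hg i).sub m1).const_mul _
  have b2 : ∀ x, ‖φ x‖ ≤ 1 := fun x => by
    have := norm_sub_le (g i x) (cE ν Z (g i) x)
    simp only [hφ, norm_mul, norm_div, norm_one, Complex.norm_ofNat]
    linarith [hb i x, b1 x]
  obtain ⟨m3, b3⟩ := achar1_upd hg hb i m2 b2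
  obtain ⟨m4, b4⟩ := achar1_upd hg hb i m1 b1
  have h0 : cE ν Z (Function.update g i φ i) =ᵐ[ν] 0 := by
    rw [Function.update_self]
    filter_upwards [cE_cE Z (ν := ν) (g := g i) ⟨hg i, 1, hb i⟩] with x hx
    have : cE ν Z φ x = (1 / 2 : ℂ) * (cE ν Z (g i) x - cE ν Z (cE ν Z (g i)) x) := by
      rw [cE, hφ, integral_const_mul, integral_sub (achar1_int (hg i) (hb i)) (achar1_int m1 b1)]
      rfl
    rw [this, hx, sub_self, mul_zero, Pi.zero_apply]
  have := (h a ha _ m3 b3 i h0).const_mul 2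
  rw [mul_zero] at this
  refine this.congr fun n => ?_
  rw [achar1_av_sub, ← achar1_av_mul]
  congr 1
  funext u
  rw [← integral_sub (achar1_int (achar1_prod_meas hg _) fun x => achar1_prod_le _ fun j => hb j _)
    (achar1_int (achar1_prod_meas m4 _) fun x => achar1_prod_le _ fun j => b4 j _),
    ← integral_const_mul]
  refine integral_congr_ae (Eventually.of_forall fun x => ?_)
  simp only [achar1_prod_update]
  rw [← Finset.mul_prod_erase _ _ (Finset.mem_univ i), hφ]
  ring

omit [IsProbabilityMeasure ν] in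
/-- shift so that the index `j₀` has exponent `0` -/
lemma achar1_shift (hν : Good ν) {m : ℕ} (a : Fin (m + 1) → ℤ) (g : Fin (m + 1) → X → ℂ)
    (hg : ∀ j, Measurable (g j)) (j₀ : Fin (m + 1)) (u : K) :
    ∫ x, ∏ j, g j (act (u ^ a j) x) ∂ν =
      ∫ x, (∏ j, g (j₀.succAbove j) (act (u ^ (a (j₀.succAbove j) - a j₀)) x)) * g j₀ x ∂ν := by
  have m1 : Measurable fun x =>
      (∏ j, g (j₀.succAbove j) (act (u ^ (a (j₀.succAbove j) - a j₀)) x)) * g j₀ x :=
    (achar1_prod_meas (fun j => hg _) _).mul (hg _)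
  rw [achar1_mp (hν.mp (u ^ a j₀)) m1.stronglyMeasurable]
  refine integral_congr_ae (Eventually.of_forall fun x => ?_)
  simp only [← act_mul, ← zpow_add, sub_add_cancel]
  rw [Fin.prod_univ_succAbove _ j₀, mul_comm]

lemma achar1_zero (hν : Good ν) (q : Fol K) : achar1_St ν q 0 := by
  intro a ha g hg hb i hi
  obtain ⟨j₀, hj₀⟩ := exists_ne i
  obtain ⟨i', rfl⟩ := Fin.exists_succAbove_eq hj₀.symm
  obtain rfl : i' = 0 := Subsingleton.elim (α := Fin 1) _ _
  have := met_two (isAct_act hν) q (zpowGroupHom (a (j₀.succAbove 0) - a j₀))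
    (zpow_surj (sub_ne_zero.2 (ha.ne hj₀.symm))) (k := g j₀) ⟨hg _, 1, hb _⟩
    (plus_pi0 hν ⟨hg _, 1, hb _⟩ hi) ⟨hg _, 1, hb _⟩
  simp only [Pi.zero_apply, zero_mul, integral_zero] at this
  refine this.congr fun n => ?_
  congr 1
  funext u
  rw [achar1_shift hν a g hg j₀ u]
  simp

/-- `β (h / h') ^ 2` is a Gram matrix -/
lemma achar1_beta (hν : Good ν) (Z : Fac) {g : X → ℂ} (hg : Measurable g) (hb : ∀ x, ‖g x‖ ≤ 1)
    (v v' : K) : ((n2 ν (cE ν Z fun x => g (act (v / v') x) * conj (g x)) : ℝ) : ℂ) =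
      ∫ w, (g (act2 v w).1 * conj (g (act2 v w).2)) *
        conj (g (act2 v' w).1 * conj (g (act2 v' w).2)) ∂(lam ν Z) := by
  have mc : Measurable fun z : ℂ => conj z := Complex.continuous_conj.measurable
  have m1 : Measurable fun x => g (act (v / v') x) * conj (g x) :=
    (hg.comp (measurable_act _)).mul (mc.comp hg)
  have b1 : ∀ x, ‖g (act (v / v') x) * conj (g x)‖ ≤ 1 := fun x => by
    rw [norm_mul, Complex.norm_conj]; exact mul_le_one₀ (hb _) (norm_nonneg _) (hb _)
  rw [achar1_n2]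
  simp only [← cE_conj]
  rw [← integral_lam_mul Z (b := fun y => conj (g (act (v / v') y) * conj (g y))) ⟨m1, 1, b1⟩
    ⟨mc.comp m1, 1, fun x => by rw [Complex.norm_conj]; exact b1 x⟩]
  have m2 : Measurable fun w : X × X => g (act (v / v') w.1) * conj (g w.1) *
      conj (g (act (v / v') w.2) * conj (g w.2)) :=
    (m1.comp measurable_fst).mul ((mc.comp m1).comp measurable_snd)
  rw [achar1_mp ((isAct_act2 Z hν).mp v') m2.stronglyMeasurable]
  refine integral_congr_ae (Eventually.of_forall fun w => ?_)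
  simp only [act2, ← act_mul, div_mul_cancel, map_mul, Complex.conj_conj]
  ring

lemma achar1_h0 (hν : Good ν) (q : Fol K) (Z : Fac) {g : X → ℂ} (hg : Measurable g)
    (hb : ∀ x, ‖g x‖ ≤ 1) (h0 : cE ν (plus ν Z) g =ᵐ[ν] 0) {b : ℤ} (hb0 : b ≠ 0) (ε : ℝ)
    (hε : 0 < ε) : ∃ r : FP K, (r.av fun h => r.av fun h' =>
      √(n2 ν (cE ν Z fun x => g (act ((h / h') ^ b) x) * conj (g x)))) ≤ ε := by
  have mc : Measurable fun z : ℂ => conj z := Complex.continuous_conj.measurable
  have m1 : Measurable fun w : X × X => g w.1 * conj (g w.2) :=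
    (hg.comp measurable_fst).mul ((mc.comp hg).comp measurable_snd)
  have b1 : ∀ w : X × X, ‖g w.1 * conj (g w.2)‖ ≤ 1 := fun x => by
    rw [norm_mul, Complex.norm_conj]; exact mul_le_one₀ (hb _) (norm_nonneg _) (hb _)
  have hA := isAct_act2 Z hν
  have h1 := met hA q (zpowGroupHom b) (zpow_surj hb0) ⟨m1, 1, b1⟩ (plus_orth hν ⟨hg, 1, hb⟩ h0)
  obtain ⟨n, hn⟩ := (h1.eventually (gt_mem_nhds (show (0 : ℝ) < ε ^ 2 by positivity))).exists
  refine ⟨q.p n, ?_⟩
  have h2 := achar1_gram (μ := lam ν Z) (q.p n)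
    (F := fun u w => g (act2 (u ^ b) w).1 * conj (g (act2 (u ^ b) w).2))
    (fun u => m1.comp (hA.mp _).measurable) (fun u w => b1 _)
    (fun h h' => n2 ν (cE ν Z fun x => g (act ((h / h') ^ b) x) * conj (g x)))
    (fun h h' => by rw [div_zpow]; exact achar1_beta hν Z hg hb _ _)
  simp only [Pi.zero_apply, sub_zero, zpowGroupHom_apply] at hn
  rw [← h2] at hn
  have h3 : ∀ t : ℝ, 0 ≤ t → √t ≤ ε / 2 + 1 / (2 * ε) * t := fun t ht => by
    have a1 := Real.sq_sqrt ht
    have a2 : ε / 2 + 1 / (2 * ε) * t - √t = (ε - √t) ^ 2 / (2 * ε) := by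
      field_simp
      nlinarith
    have a3 : 0 ≤ (ε - √t) ^ 2 / (2 * ε) := by positivity
    linarith
  refine (achar1_av_le _ fun h => (achar1_av_le _ fun h' => h3 _ (achar1_n2_nonneg _)).trans
    (achar1_av_aff _ _ _ _).le).trans ?_
  rw [achar1_av_aff]
  have h4 : 1 / (2 * ε) * ε ^ 2 = ε / 2 := by field_simp
  have h5 := mul_le_mul_of_nonneg_left hn.le (show 0 ≤ 1 / (2 * ε) by positivity)
  linarith

lemma achar1_succ (hν : Good ν) (q : Fol K) {k : ℕ} (ih : achar1_St ν q k) :
    achar1_St ν q (k + 1) := by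
  intro a ha g hg hb i hi
  obtain ⟨j₀, hj₀⟩ := exists_ne i
  obtain ⟨i', rfl⟩ := Fin.exists_succAbove_eq hj₀.symm
  have mc : Measurable fun z : ℂ => conj z := Complex.continuous_conj.measurable
  set b : Fin (k + 2) → ℤ := fun j => a (j₀.succAbove j) - a j₀ with hbdef
  have hbi : Function.Injective b := fun j j' h =>
    Fin.succAbove_right_injective (ha (sub_left_injective h))
  set g' : Fin (k + 2) → X → ℂ := fun j => g (j₀.succAbove j) with hg'
  set F : K → X → ℂ := fun u x => ∏ j, g' j (act (u ^ b j) x) with hF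
  have mF : ∀ u, Measurable (F u) := fun u => achar1_prod_meas (fun j => hg _) _
  have bF : ∀ u x, ‖F u x‖ ≤ 1 := fun u x => achar1_prod_le _ fun j => hb _ _
  have key := vdc (μ := ν) q mF bF
    (fun h => √(n2 ν (cE ν (tower ν k) fun x => g' i' (act (h ^ b i') x) * conj (g' i' x))))
    (fun h ε hε => ?_)
    (achar1_h0 hν q (tower ν k) (hg _) (hb _) hi (sub_ne_zero.2 (ha.ne hj₀.symm)))
  · have k2 := key.sqrt
    rw [Real.sqrt_zero] at k2
    refine squeeze_zero_norm (fun n => ?_) k2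
    simp only [achar1_shift hν a g hg j₀]
    rw [achar1_av_int _ (F := fun u x => F u x * g j₀ x) fun u =>
      achar1_int ((mF u).mul (hg j₀)) (C := 1) fun x => by
        rw [norm_mul]; exact mul_le_one₀ (bF _ _) (norm_nonneg _) (hb _ _)]
    refine (norm_integral_le_integral_norm _).trans (le_trans ?_
      (achar1_cs (achar1_av_meas _ mF) fun x => achar1_av_norm _ fun u => bF u x))
    refine integral_mono_of_nonneg (Eventually.of_forall fun _ => norm_nonneg _)
      (achar1_int (achar1_av_meas _ mF) fun x => achar1_av_norm _ fun u => bF u x).norm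
      (Eventually.of_forall fun x => ?_)
    simp only [mul_comm (F _ x), achar1_av_mul, norm_mul]
    exact mul_le_of_le_one_left (norm_nonneg _) (hb _ _)
  · set G : Fin (k + 2) → X → ℂ := fun j x => g' j (act (h ^ b j) x) * conj (g' j x) with hG
    have mG : ∀ j, Measurable (G j) := fun j =>
      ((hg _).comp (measurable_act _)).mul (mc.comp (hg _))
    have bG : ∀ j x, ‖G j x‖ ≤ 1 := fun j x => by
      simp only [hG]
      rw [norm_mul, Complex.norm_conj]; exact mul_le_one₀ (hb _ _) (norm_nonneg _) (hb _ _)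
    have e1 : ∀ u x, F (h * u) x * conj (F u x) = ∏ j, G j (act (u ^ b j) x) := fun u x => by
      simp only [hF, hG, map_prod, ← Finset.prod_mul_distrib, mul_zpow, act_mul]
    have h1 := (achar1_step ih b hbi G mG bG i').norm
    rw [norm_zero] at h1
    filter_upwards [h1.eventually (gt_mem_nhds hε)] with n hn
    simp only [e1]
    refine (norm_le_norm_add_norm_sub' _ _).trans (add_le_add ?_ hn.le)
    refine achar1_av_norm _ fun u => ?_
    have m1 : Measurable (cE ν (tower ν k) (G i')) := achar1_cE_meas _ (mG i')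
    have b1 : ∀ x, ‖cE ν (tower ν k) (G i') x‖ ≤ 1 := cE_norm_le _ (bG i')
    refine (norm_integral_le_integral_norm _).trans (le_trans ?_ (achar1_cs m1 b1))
    rw [achar1_mp (hν.mp (u ^ b i')) m1.norm.stronglyMeasurable]
    refine integral_mono_of_nonneg (Eventually.of_forall fun _ => norm_nonneg _)
      (achar1_int (m1.comp (measurable_act _)) fun x => b1 _).norm
      (Eventually.of_forall fun x => ?_)
    simp only [achar1_prod_update, norm_mul]
    exact mul_le_of_le_one_right (norm_nonneg _) (achar1_prod_le _ fun j => bG j _)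

lemma achar1_all (hν : Good ν) (q : Fol K) (k : ℕ) : achar1_St ν q k := by
  induction k with
  | zero => exact achar1_zero hν q
  | succ k ih => exact achar1_succ hν q ih

/-- Induction on `k`. Shift so that some index `j₀ ≠ i` has exponent `0`; `vdc` with
`β h = ‖cE (tower k) (T^{aᵢ h} gᵢ · conj gᵢ)‖₂` (induction hypothesis applied to
`G - cE G`, divided by `2`), and `β(h/h')²` is the Gram matrix of `act2 (h^{aᵢ}) (gᵢ ⊗ conj gᵢ)` in
`L²(lam)`, so `plus_orth` and `met` give `h0`. -/
theorem char (hν : Good ν) (q : Fol K) (k : ℕ) (a : Fin (k + 2) → ℤ) (ha : Function.Injective a)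
    (g : Fin (k + 2) → X → ℂ) (hg : ∀ j, Measurable (g j)) (hb : ∀ j x, ‖g j x‖ ≤ 1)
    (i : Fin (k + 2)) (hi : cE ν (tower ν k) (g i) =ᵐ[ν] 0) :
    Tendsto (fun n => (q.p n).av fun u => ∫ x, ∏ j, g j (act (u ^ a j) x) ∂ν) atTop (𝓝 0) :=
  achar1_all hν q k a ha g hg hb i hi

/-- telescoping -/
theorem telescope (hν : Good ν) (q : Fol K) (k : ℕ) (a : Fin (k + 2) → ℤ)
    (ha : Function.Injective a) (g : Fin (k + 2) → X → ℂ) (hg : ∀ j, Measurable (g j))
    (hb : ∀ j x, ‖g j x‖ ≤ 1) :
    Tendsto (fun n => ((q.p n).av fun u => ∫ x, ∏ j, g j (act (u ^ a j) x) ∂ν) -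
      (q.p n).av fun u => ∫ x, ∏ j, cE ν (tower ν k) (g j) (act (u ^ a j) x) ∂ν) atTop (𝓝 0) := by
  classical
  have key : ∀ s : Finset (Fin (k + 2)), Tendsto (fun n =>
      ((q.p n).av fun u => ∫ x, ∏ j, g j (act (u ^ a j) x) ∂ν) -
      (q.p n).av fun u => ∫ x, ∏ j, (if j ∈ s then cE ν (tower ν k) (g j) else g j)
        (act (u ^ a j) x) ∂ν) atTop (𝓝 0) := by
    intro s
    induction s using Finset.induction_on with
    | empty => simp
    | insert i s hi ih =>
      have h1 := achar1_step (achar1_all hν q k) a ha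
        (fun j => if j ∈ s then cE ν (tower ν k) (g j) else g j)
        (fun j => by
          split_ifs
          · exact achar1_cE_meas _ (hg j)
          · exact hg j)
        (fun j x => by
          split_ifs
          · exact cE_norm_le _ (hb j) x
          · exact hb j x) i
      have e : Function.update (fun j => if j ∈ s then cE ν (tower ν k) (g j) else g j) i
          (cE ν (tower ν k) (if i ∈ s then cE ν (tower ν k) (g i) else g i)) =
          fun j => if j ∈ insert i s then cE ν (tower ν k) (g j) else g j := by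
        funext j
        rcases eq_or_ne j i with rfl | h
        · simp [hi]
        · simp [h]
      rw [e] at h1
      have := ih.add h1
      simpa only [sub_add_sub_cancel, add_zero] using this
  simpa only [Finset.mem_univ, if_true] using key Finset.univ

end Crest.Agent.R40.A
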