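import Crest.Agent.R40.Defs

/-! Row 40, part A (arbitrary colouring → measurable colouring): definitions.
See the lead's idea of 05:05 UTC on row 40 for the proof. -/

set_option autoImplicit false
open MeasureTheory ProbabilityTheory Filter Topology
open scoped ComplexConjugate

noncomputable section
namespace Crest.Agent.R40.A

/-- complex algebraic numbers -/
abbrev E : Type := algebraicClosure ℚ ℂ

instance : Countable E := by
  have h := Algebraic.countable ℚ ℂ
  exact (h.mono fun x hx => (mem_algebraicClosure_iff (F := ℚ) (E := ℂ)).1 hx).to_subtype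

/-- size of an algebraic number -/
abbrev sz (z : E) : ℝ := ‖(z : ℂ)‖

/-- the unit circle of `E` as a subgroup of the units -/
def Ksub : Subgroup Eˣ where
  carrier := {u | sz (u : E) = 1}
  mul_mem' := by
    intro a b ha hb
    simp only [Set.mem_ofPred_eq, sz] at *
    simp [ha, hb]
  one_mem' := by simp [sz]
  inv_mem' := by
    intro a ha
    simp only [Set.mem_ofPred_eq, sz] at *
    simp [ha]

abbrev K : Type := Ksub

instance : Countable K := by
  have : Countable Eˣ := Function.Injective.countable (f := fun u : Eˣ => (u : E)) Units.val_injective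
  infer_instance

/-- the element of `E` underlying `u : K` -/
def kv (u : K) : E := ((u : Eˣ) : E)

@[simp] lemma kv_mul (u v : K) : kv (u * v) = kv u * kv v := rfl
@[simp] lemma kv_one : kv 1 = 1 := rfl
lemma sz_kv (u : K) : sz (kv u) = 1 := u.2

/-- finitely supported probability vectors (points may repeat) -/
structure FP (α : Type) : Type 1 where
  ι : Type
  [fin : Fintype ι]
  w : ι → ℝ
  x : ι → α
  nonneg : ∀ i, 0 ≤ w i
  sum_one : ∑ i, w i = 1

attribute [instance] FP.fin

/-- average of `g` against `p` -/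
def FP.av {α V : Type} [AddCommMonoid V] [Module ℝ V] (p : FP α) (g : α → V) : V :=
  ∑ i, p.w i • g (p.x i)

/-- push-forward -/
def FP.map {α β : Type} (p : FP α) (h : α → β) : FP β :=
  { ι := p.ι, w := p.w, x := fun i => h (p.x i), nonneg := p.nonneg, sum_one := p.sum_one }

/-- an asymptotically invariant sequence of averages on a commutative group -/
structure Fol (G : Type) [CommGroup G] : Type 1 where
  p : ℕ → FP G
  inv : ∀ (a : G) {V : Type} [NormedAddCommGroup V] [NormedSpace ℝ V] (g : G → V) (C : ℝ),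
    (∀ u, ‖g u‖ ≤ C) →
      Tendsto (fun n => (p n).av (fun u => g (a * u)) - (p n).av g) atTop (𝓝 0)

/-- bounded measurable -/
def BM {W : Type} [MeasurableSpace W] (g : W → ℂ) : Prop :=
  Measurable g ∧ ∃ C : ℝ, ∀ x, ‖g x‖ ≤ C

/-- squared `L²` norm -/
def n2 {W : Type} [MeasurableSpace W] (μ : Measure W) (g : W → ℂ) : ℝ := ∫ x, ‖g x‖ ^ 2 ∂μ

/-- `S` is a measure preserving action -/
structure IsAct {G W : Type} [CommGroup G] [MeasurableSpace W] (μ : Measure W)
    (S : G → W → W) : Prop where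
  mp : ∀ u, MeasurePreserving (S u) μ μ
  one : ∀ x, S 1 x = x
  mul : ∀ a b x, S (a * b) x = S a (S b x)

/-- a.e. invariant function -/
def Inv {G W : Type} [MeasurableSpace W] (μ : Measure W) (S : G → W → W) (k : W → ℂ) : Prop :=
  ∀ u, (fun x => k (S u x)) =ᵐ[μ] k

/-- `h` is the projection of `g` to the invariant functions -/
structure IsPI {G W : Type} [MeasurableSpace W] (μ : Measure W) (S : G → W → W)
    (g h : W → ℂ) : Prop where
  bm : BM h
  inv : Inv μ S h
  orth : ∀ k, BM k → Inv μ S k → ∫ x, h x * k x ∂μ = ∫ x, g x * k x ∂μ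

/-- the quadratic form of `φ` at `p` -/
def Q (φ : E → ℂ) (p : FP E) : ℂ := p.av fun z => p.av fun z' => φ (z - z')

/-- "no continuous part" for a positive definite function -/
def Q0 (φ : E → ℂ) : Prop :=
  ∀ ε > 0, ∀ η > 0, ∃ p : FP E, (∀ i, sz (p.x i) < ε) ∧ ‖Q φ p‖ ≤ η

/-- a multiplicative family of unimodular functions -/
structure Mult {W : Type} [MeasurableSpace W] (μ : Measure W) (F : E → W → ℂ) : Prop where
  meas : ∀ z, Measurable (F z)
  norm_one : ∀ z w, ‖F z w‖ = 1
  mul : ∀ x y, ∀ᵐ w ∂μ, F (x + y) w = F x w * F y w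

/-- `R` is a continuity set of the family `F` -/
def CSet {W : Type} [MeasurableSpace W] (μ : Measure W) (F : E → W → ℂ) (R : Set W) : Prop :=
  MeasurableSet R ∧ ∀ η > 0, ∃ δ > 0, ∀ z, sz z < δ → ∫ w in R, ‖F z w - 1‖ ^ 2 ∂μ ≤ η

/-- continuous vector of a representation of `E` -/
def Cont {H : Type} [NormedAddCommGroup H] [NormedSpace ℂ H] (T : E → H →ₗᵢ[ℂ] H) (ζ : H) : Prop :=
  ∀ η > 0, ∃ δ > 0, ∀ z, sz z < δ → ‖T z ζ - ζ‖ ≤ η

/-- the space carrying the spectral measure -/
abbrev X : Type := E → UnitAddCircle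

instance : StandardBorelSpace UnitAddCircle := inferInstance

instance : StandardBorelSpace X := inferInstance

/-- evaluation character -/
def f (z : E) (d : X) : ℂ := fourier 1 (d z)

/-- action of `K` on `X` -/
def act (u : K) (d : X) : X := fun z => d (kv u * z)

lemma f_act (z : E) (u : K) (d : X) : f z (act u d) = f (kv u * z) d := rfl

lemma act_mul (a b : K) (d : X) : act (a * b) d = act a (act b d) := by
  funext z; simp only [act, kv_mul]; congr 1; ring

lemma act_one (d : X) : act 1 d = d := by funext z; simp [act]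

lemma measurable_act (u : K) : Measurable (act u) :=
  measurable_pi_lambda _ fun _ => measurable_pi_apply _

/-- an invariant probability measure carried by the characters of `E` -/
structure Good (ν : Measure X) : Prop where
  prob : IsProbabilityMeasure ν
  mp : ∀ u, MeasurePreserving (act u) ν ν
  add : ∀ x y, ∀ᵐ d ∂ν, d (x + y) = d x + d y

/-- an invariant sub-σ-algebra -/
structure Fac : Type where
  m : MeasurableSpace X
  le : m ≤ MeasurableSpace.pi
  inv : ∀ u, @Measurable X X m m (act u)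

/-- the trivial factor -/
def Fac.bot : Fac := ⟨⊥, bot_le, fun u => by
  intro s hs
  rcases MeasurableSpace.measurableSet_bot_iff.1 hs with rfl | rfl <;> simp⟩

/-- the conditional kernel over `Z`, as a kernel on the full σ-algebra -/
def ker (ν : Measure X) [IsFiniteMeasure ν] (Z : Fac) : Kernel X X :=
  (@condExpKernel X MeasurableSpace.pi _ ν _ Z.m).comap id
    (@Measurable.mono X X MeasurableSpace.pi MeasurableSpace.pi MeasurableSpace.pi Z.m id
      measurable_id le_rfl Z.le)

instance (ν : Measure X) [IsFiniteMeasure ν] (Z : Fac) : IsMarkovKernel (ker ν Z) := by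
  unfold ker; infer_instance

/-- conditional expectation over `Z`, pointwise version -/
def cE (ν : Measure X) [IsFiniteMeasure ν] (Z : Fac) (g : X → ℂ) (x : X) : ℂ :=
  ∫ y, g y ∂(ker ν Z x)

/-- relative product over `Z` -/
def lam (ν : Measure X) [IsFiniteMeasure ν] (Z : Fac) : Measure (X × X) := ν ⊗ₘ ker ν Z

/-- the diagonal action -/
def act2 (u : K) (w : X × X) : X × X := (act u w.1, act u w.2)

/-- the family `f z ⊗ conj (f z)` -/
def F2 (z : E) (w : X × X) : ℂ := f z w.1 * conj (f z w.2)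

/-- `ψ_Z(z) = ‖E[f z | Z]‖₂²` -/
def psi (ν : Measure X) [IsFiniteMeasure ν] (Z : Fac) (z : E) : ℂ :=
  (n2 ν (cE ν Z (f z)) : ℝ)

/-- almost periodic over `Z` (uniform `L²` version) -/
def AP (ν : Measure X) (Z : Fac) (φ : X → ℂ) : Prop :=
  ∀ ε > 0, ∃ (N : ℕ) (b : Fin N → X → ℂ) (B : ℝ), (∀ l, Measurable (b l)) ∧ (∀ l x, ‖b l x‖ ≤ B) ∧
    ∀ u : K, ∃ a : Fin N → X → ℂ, (∀ l, Measurable[Z.m] (a l)) ∧ (∀ l x, ‖a l x‖ ≤ B) ∧
      n2 ν (fun x => φ (act u x) - ∑ l, a l x * b l x) ≤ ε

lemma AP.comp_act {ν : Measure X} {Z : Fac} {φ : X → ℂ} (h : AP ν Z φ) (v : K) :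
    AP ν Z (fun x => φ (act v x)) := by
  intro ε hε
  obtain ⟨N, b, B, hb, hB, hu⟩ := h ε hε
  refine ⟨N, b, B, hb, hB, fun u => ?_⟩
  obtain ⟨a, ha, ha', hn⟩ := hu (v * u)
  exact ⟨a, ha, ha', by simpa only [act_mul] using hn⟩

/-- the maximal compact extension of `Z` -/
def plus (ν : Measure X) (Z : Fac) : Fac where
  m := MeasurableSpace.generateFrom
    {B | MeasurableSet B ∧ AP ν Z (B.indicator fun _ => (1 : ℂ))}
  le := MeasurableSpace.generateFrom_le fun _ h => h.1
  inv := fun u => by
    refine @measurable_generateFrom X X (MeasurableSpace.generateFrom _) _ _ fun B hB => ?_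
    refine MeasurableSpace.measurableSet_generateFrom ⟨measurable_act u hB.1, ?_⟩
    have := hB.2.comp_act u
    convert this using 1
    funext x
    by_cases hx : act u x ∈ B <;> simp [Set.indicator, hx]

/-- the tower `Z₀ = ⊥⁺`, `Z_{k+1} = Z_k⁺` -/
def tower (ν : Measure X) : ℕ → Fac
  | 0 => plus ν Fac.bot
  | k + 1 => plus ν (tower ν k)

lemma tower_zero (ν : Measure X) : tower ν 0 = plus ν Fac.bot := rfl

lemma tower_succ (ν : Measure X) (k : ℕ) : tower ν (k + 1) = plus ν (tower ν k) := rfl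

lemma tower_eq_plus (ν : Measure X) (k : ℕ) : ∃ Z, tower ν k = plus ν Z := by
  cases k with
  | zero => exact ⟨_, rfl⟩
  | succ k => exact ⟨_, rfl⟩

/-- Fejér kernel normalised to have maximum `1` on the unit circle -/
def Fej (M : ℕ) (t : ℂ) : ℝ := ‖∑ k ∈ Finset.range M, t ^ k‖ ^ 2 / (M : ℝ) ^ 2

/-- the Fejér smoothing of the law of `g` under `ρ`, evaluated at `t` -/
def FG (M : ℕ) (ρ : Measure X) (g : X → ℂ) (t : ℂ) : ℝ := ∫ y, Fej M (t * conj (g y)) ∂ρ

/-- colourings of `E` -/
abbrev Om : Type := E → Fin 5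

/-- translation of a colouring -/
def tau (z : E) (ω : Om) : Om := fun x => ω (x + z)

/-- rotation of a colouring -/
def rho (u : K) (ω : Om) : Om := fun x => ω (kv u * x)

/-- an invariant random proper colouring -/
structure InvCol (P : Measure Om) : Prop where
  prob : IsProbabilityMeasure P
  tau : ∀ z, MeasurePreserving (tau z) P P
  rho : ∀ u, MeasurePreserving (rho u) P P
  proper : P {ω | ω 0 = ω 1} = 0

/-- positive definite -/
def PD (φ : E → ℂ) : Prop :=
  ∀ (n : ℕ) (c : Fin n → ℂ) (x : Fin n → E),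
    0 ≤ (∑ i, ∑ j, c i * conj (c j) * φ (x i - x j)).re ∧
      (∑ i, ∑ j, c i * conj (c j) * φ (x i - x j)).im = 0

/-- rigidity of radial positive definite functions on `E` -/
def RigidStmt : Prop :=
  ∀ φ : E → ℂ, PD φ → (∀ (u : K) z, φ (kv u * z) = φ z) → Q0 φ → ∀ z, z ≠ 0 → φ z = 0

/-- the continuous parts of the colour indicators -/
structure Soft (P : Measure Om) (g : Fin 5 → Om → ℝ) : Prop where
  meas : ∀ i, Measurable (g i)
  nonneg : ∀ i ω, 0 ≤ g i ω
  le_one : ∀ i ω, g i ω ≤ 1
  sum : ∀ᵐ ω ∂P, ∑ i, g i ω = 1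
  cont : ∀ i, ∀ η > 0, ∃ δ > 0, ∀ z, sz z < δ → ∫ ω, (g i (tau z ω) - g i ω) ^ 2 ∂P ≤ η
  orth : ∀ i (u : K), ∫ ω, g i (tau (kv u) ω) * g i ω ∂P = 0

end Crest.Agent.R40.A
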