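import Crest.Agent.R40.AAlg1
import Crest.Agent.R40.AErg1

/-! Row 40 A: the invariant random colouring. -/

set_option autoImplicit false
open MeasureTheory ProbabilityTheory Filter Topology
open scoped ComplexConjugate

noncomputable section
namespace Crest.Agent.R40.A

lemma ainv_integrable (P : Measure Om) [IsFiniteMeasure P] {g : Om → ℝ} (hg : Continuous g) :
    Integrable g P :=
  (BoundedContinuousFunction.mkOfCompact ⟨g, hg⟩).integrable P

lemma ainv_bdd {g : Om → ℝ} (hg : Continuous g) : ∃ C : ℝ, ∀ ω, ‖g ω‖ ≤ C :=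
  ⟨_, fun ω => (BoundedContinuousFunction.mkOfCompact ⟨g, hg⟩).norm_coe_le_norm ω⟩

/-- the average of the push-forwards of `P` -/
lemma ainv_mix {G : Type} (S : G → Om → Om) (hS : ∀ u, Continuous (S u)) (P : Measure Om)
    [IsProbabilityMeasure P] (p : FP G) : ∃ P' : ProbabilityMeasure Om, ∀ g : Om → ℝ,
      Continuous g → ∫ ω, g ω ∂(P' : Measure Om) = p.av fun u => ∫ ω, g (S u ω) ∂P := by
  have hprob : ∀ u, IsProbabilityMeasure (P.map (S u)) := fun u =>
    Measure.isProbabilityMeasure_map (hS u).measurable.aemeasurable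
  let μ : Measure Om := ∑ i, ENNReal.ofReal (p.w i) • P.map (S (p.x i))
  have hμ : IsProbabilityMeasure μ := by
    constructor
    simp only [μ, Measure.coe_finsetSum, Finset.sum_apply, Measure.smul_apply, measure_univ,
      smul_eq_mul, mul_one]
    rw [← ENNReal.ofReal_sum_of_nonneg fun i _ => p.nonneg i, p.sum_one, ENNReal.ofReal_one]
  refine ⟨⟨μ, hμ⟩, fun g hg => ?_⟩
  show ∫ ω, g ω ∂μ = ∑ i, p.w i • ∫ ω, g (S (p.x i) ω) ∂P
  rw [integral_finsetSum_measure fun i _ =>
    (ainv_integrable _ hg).smul_measure ENNReal.ofReal_ne_top]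
  refine Finset.sum_congr rfl fun i _ => ?_
  rw [integral_smul_measure, ENNReal.toReal_ofReal (p.nonneg i),
    integral_map (hS _).measurable.aemeasurable hg.aestronglyMeasurable]

/-- averaging over a countable commutative group keeps a stable family of linear constraints -/
lemma ainv_avg {G : Type} [CommGroup G] [Countable G] (S : G → Om → Om)
    (hS : ∀ u, Continuous (S u)) (hmul : ∀ a b ω, S (a * b) ω = S a (S b ω))
    (T : Set (Om → ℝ)) (hT : ∀ g ∈ T, Continuous g) (hst : ∀ g ∈ T, ∀ u, (fun ω => g (S u ω)) ∈ T)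
    (P : Measure Om) [IsProbabilityMeasure P] (hP : ∀ g ∈ T, ∫ ω, g ω ∂P = 0) :
    ∃ P' : Measure Om, IsProbabilityMeasure P' ∧ (∀ g ∈ T, ∫ ω, g ω ∂P' = 0) ∧
      ∀ u, ∀ g : Om → ℝ, Continuous g → ∫ ω, g (S u ω) ∂P' = ∫ ω, g ω ∂P' := by
  obtain ⟨q⟩ := exists_fol G
  choose Pn hPn using fun n => ainv_mix S hS P (q.p n)
  let U : Ultrafilter ℕ := Ultrafilter.of atTop
  have hU : (U : Filter ℕ) ≤ atTop := Ultrafilter.of_le _
  obtain ⟨P', -, hP'⟩ := isCompact_univ.ultrafilter_le_nhds (U.map Pn) (by simp)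
  have hlim : ∀ g : Om → ℝ, Continuous g →
      Tendsto (fun n => (q.p n).av fun u => ∫ ω, g (S u ω) ∂P) U
        (𝓝 (∫ ω, g ω ∂(P' : Measure Om))) := by
    intro g hg
    have h1 : Tendsto Pn U (𝓝 P') := hP'
    have h2 := ProbabilityMeasure.tendsto_iff_forall_integral_tendsto.1 h1
      (BoundedContinuousFunction.mkOfCompact ⟨g, hg⟩)
    refine h2.congr fun n => ?_
    exact hPn n g hg
  refine ⟨P', inferInstance, fun g hg => ?_, fun a g hg => ?_⟩
  · have h1 := hlim g (hT g hg)
    have h2 : (fun n => (q.p n).av fun u => ∫ ω, g (S u ω) ∂P) = fun _ => 0 := by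
      funext n
      show ∑ i, (q.p n).w i • ∫ ω, g (S ((q.p n).x i) ω) ∂P = 0
      refine Finset.sum_eq_zero fun i _ => ?_
      rw [hP _ (hst g hg _), smul_zero]
    rw [h2] at h1
    exact tendsto_nhds_unique h1 tendsto_const_nhds
  · obtain ⟨C, hC⟩ := ainv_bdd hg
    have h1 := (hlim (fun ω => g (S a ω)) (hg.comp (hS a))).sub (hlim g hg)
    have h2 := q.inv a (fun u => ∫ ω, g (S u ω) ∂P) C fun u => by
      have := norm_integral_le_of_norm_le_const (μ := P) (f := fun ω => g (S u ω)) (C := C)
        (Eventually.of_forall fun ω => hC _)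
      simpa using this
    simp only [hmul] at h2
    exact sub_eq_zero.1 (tendsto_nhds_unique h1 (h2.mono_left hU))

lemma ainv_mp {S : Om → Om} (hS : Continuous S) (P : Measure Om) [IsProbabilityMeasure P]
    (h : ∀ g : Om → ℝ, Continuous g → ∫ ω, g (S ω) ∂P = ∫ ω, g ω ∂P) :
    MeasurePreserving S P P := by
  refine ⟨hS.measurable, ext_of_forall_integral_eq_of_IsFiniteMeasure fun g => ?_⟩
  rw [integral_map hS.measurable.aemeasurable g.continuous.aestronglyMeasurable]
  exact h g g.continuous

lemma ainv_tau (z : E) : Continuous (tau z) :=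
  continuous_pi fun x => continuous_apply (x + z)

lemma ainv_rho (u : K) : Continuous (rho u) :=
  continuous_pi fun x => continuous_apply (kv u * x)

/-- indicator of the event `ω x = ω y` -/
def ainv_ind (x y : E) (ω : Om) : ℝ := if ω x = ω y then 1 else 0

lemma ainv_ind_cont (x y : E) : Continuous (ainv_ind x y) := by
  have h1 : Continuous fun ω : Om => (ω x, ω y) := (continuous_apply x).prodMk (continuous_apply y)
  have h2 : Continuous fun p : Fin 5 × Fin 5 => if p.1 = p.2 then (1 : ℝ) else 0 :=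
    continuous_of_discreteTopology
  exact h2.comp h1

/-- cluster points of Følner averages in `ProbabilityMeasure` (compact): first average `δ_c` over
translations (`Multiplicative E`), then over `K` (rotations normalise translations) -/
theorem invcol (h : ColStmt) : ∃ P : Measure Om, InvCol P := by
  obtain ⟨c, hc⟩ := h
  have : Countable (Multiplicative E) := inferInstanceAs (Countable E)
  let T1 : Set (Om → ℝ) := {g | ∃ x y : E, sz (x - y) = 1 ∧ g = ainv_ind x y}
  have hT1 : ∀ g ∈ T1, Continuous g := by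
    rintro g ⟨x, y, -, rfl⟩
    exact ainv_ind_cont x y
  obtain ⟨P1, hP1, h1, h1'⟩ := ainv_avg (G := Multiplicative E)
    (fun z => tau (Multiplicative.toAdd z)) (fun z => ainv_tau _)
    (fun a b ω => by
      funext x
      show ω (x + (Multiplicative.toAdd a + Multiplicative.toAdd b)) =
        ω (x + Multiplicative.toAdd a + Multiplicative.toAdd b)
      rw [add_assoc]) T1 hT1
    (by
      rintro g ⟨x, y, hxy, rfl⟩ z
      refine ⟨x + Multiplicative.toAdd z, y + Multiplicative.toAdd z, ?_, rfl⟩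
      rw [add_sub_add_right_eq_sub]
      exact hxy)
    (Measure.dirac fun x : E => c x)
    (by
      rintro g ⟨x, y, hxy, rfl⟩
      rw [integral_dirac]
      exact if_neg (hc _ _ hxy))
  let T2 : Set (Om → ℝ) := T1 ∪
    {g | ∃ (z : E) (g0 : Om → ℝ), Continuous g0 ∧ g = fun ω => g0 (tau z ω) - g0 ω}
  obtain ⟨P, hP, h2, h2'⟩ := ainv_avg (G := K) rho ainv_rho
    (fun a b ω => by
      funext x
      show ω (kv a * kv b * x) = ω (kv b * (kv a * x))
      congr 1
      ring) T2
    (by
      rintro g (hg | ⟨z, g0, hg0, rfl⟩)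
      · exact hT1 g hg
      · exact (hg0.comp (ainv_tau z)).sub hg0)
    (by
      rintro g (⟨x, y, hxy, rfl⟩ | ⟨z, g0, hg0, rfl⟩) u
      · refine Or.inl ⟨kv u * x, kv u * y, ?_, rfl⟩
        have h3 : sz (kv u * x - kv u * y) = sz (kv u) * sz (x - y) := by
          rw [← mul_sub]
          exact norm_mul ((kv u : E) : ℂ) ((x - y : E) : ℂ)
        rw [h3, sz_kv, hxy, one_mul]
      · refine Or.inr ⟨kv u * z, fun ω => g0 (rho u ω), hg0.comp (ainv_rho u), ?_⟩
        funext ω
        have : tau z (rho u ω) = rho u (tau (kv u * z) ω) := by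
          funext x
          show ω (kv u * (x + z)) = ω (kv u * x + kv u * z)
          rw [mul_add]
        beta_reduce
        rw [this])
    P1
    (by
      rintro g (hg | ⟨z, g0, hg0, rfl⟩)
      · exact h1 g hg
      · beta_reduce
        rw [integral_sub (ainv_integrable (g := fun ω => g0 (tau z ω)) _ (hg0.comp (ainv_tau z)))
          (ainv_integrable _ hg0)]
        exact sub_eq_zero.2 (h1' (Multiplicative.ofAdd z) g0 hg0))
  refine ⟨P, hP, fun z => ainv_mp (ainv_tau z) P fun g hg => ?_,
    fun u => ainv_mp (ainv_rho u) P (h2' u), ?_⟩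
  · have := h2 _ (Or.inr ⟨z, g, hg, rfl⟩)
    rw [integral_sub (ainv_integrable (g := fun ω => g (tau z ω)) _ (hg.comp (ainv_tau z)))
      (ainv_integrable _ hg)] at this
    exact sub_eq_zero.1 this
  · have h3 := h2 _ (Or.inl ⟨0, 1, by simp [sz], rfl⟩)
    have hm : MeasurableSet {ω : Om | ω 0 = ω 1} :=
      measurableSet_eq_fun (measurable_pi_apply 0) (measurable_pi_apply 1)
    have h4 : ainv_ind 0 1 = {ω : Om | ω 0 = ω 1}.indicator 1 := by
      funext ω
      by_cases hω : ω 0 = ω 1
      · rw [Set.indicator_of_mem (show ω ∈ {ω : Om | ω 0 = ω 1} from hω)]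
        exact if_pos hω
      · rw [Set.indicator_of_notMem (show ω ∉ {ω : Om | ω 0 = ω 1} from hω)]
        exact if_neg hω
    rw [h4, integral_indicator_one hm] at h3
    exact (measureReal_eq_zero_iff (measure_ne_top _ _)).1 h3

end Crest.Agent.R40.A
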