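import Crest.Agent.R40.ALiftP
import Crest.Agent.R40.AMin
import Crest.Agent.R40.AAlg

/-! Row 40 A: the lifting lemma. -/

set_option autoImplicit false
open MeasureTheory ProbabilityTheory Filter Topology
open scoped ComplexConjugate

noncomputable section
namespace Crest.Agent.R40.A

variable {ν : Measure X} [IsProbabilityMeasure ν]

private lemma alift_enum (T : Finset ℂ) {N : ℕ} (hT : T.card ≤ N) :
    ∃ ψ : Fin N → ℂ, ∀ ζ ∈ T, ∃ l, ψ l = ζ := by
  refine ⟨fun l => if h : (l : ℕ) < T.card then (T.equivFin.symm ⟨l, h⟩ : ℂ) else 0,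
    fun ζ hζ => ⟨Fin.castLE hT (T.equivFin ⟨ζ, hζ⟩), ?_⟩⟩
  have h : ((Fin.castLE hT (T.equivFin ⟨ζ, hζ⟩) : Fin N) : ℕ) < T.card := (T.equivFin ⟨ζ, hζ⟩).2
  beta_reduce
  rw [dif_pos h]
  have : (⟨_, h⟩ : Fin T.card) = T.equivFin ⟨ζ, hζ⟩ := rfl
  rw [this, Equiv.symm_apply_apply]

private lemma alift_label {ι γ : Type} (c : ι → γ) (t : ι → ℂ) (G : ι → Prop) {N : ℕ}
    (hN : 0 < N) (e : ℝ) (h : ∀ g : γ, ∃ T : Finset ℂ, T.card ≤ N ∧
      ∀ i, G i → c i = g → ∃ ζ ∈ T, ‖t i - ζ‖ ≤ e) :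
    ∃ lab : ι → Fin N, ∀ i i', G i → G i' → c i = c i' → lab i = lab i' →
      ‖t i - t i'‖ ≤ 2 * e := by
  choose T hT hT' using h
  choose ψ hψ using fun g => alift_enum (T g) (hT g)
  have h1 : ∀ i, ∃ l : Fin N, G i → ‖t i - ψ (c i) l‖ ≤ e := fun i => by
    by_cases hi : G i
    · obtain ⟨ζ, hζ, h2⟩ := hT' (c i) i hi rfl
      obtain ⟨l, rfl⟩ := hψ _ ζ hζ
      exact ⟨l, fun _ => h2⟩
    · exact ⟨⟨0, hN⟩, fun h => absurd h hi⟩
  choose lab hlab using h1
  refine ⟨lab, fun i i' hi hi' hc hl => ?_⟩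
  have h2 := hlab i hi
  have h3 := hlab i' hi'
  rw [← hc, ← hl, norm_sub_rev] at h3
  linarith [norm_sub_le_norm_sub_add_norm_sub (t i) (ψ (c i) (lab i)) (t i')]

private lemma alift_prod {a b a' b' : ℂ} (ha : ‖a'‖ = 1) (hb : ‖b‖ = 1) :
    ‖a * b - a' * b'‖ ≤ ‖a - a'‖ + ‖b - b'‖ := by
  have : a * b - a' * b' = (a - a') * b + a' * (b - b') := by ring
  rw [this]
  refine (norm_add_le _ _).trans (le_of_eq ?_)
  rw [norm_mul, norm_mul, ha, hb, mul_one, one_mul]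

/-- `liftA` for `plus ν Z` gives `W0, J`; `L = (256 J²)²`, `M' = 8 L`, `M = M'`, `η = 1/(2 J M)`,
`δ = θ = min (β/16) (1/(4J))`; `r` from `liftA`, colours from `liftB`; `p` from `q0_multi` in
`B(0, 2 sz r)`; `xᵢ = uᵢ r + vᵢ r`; `Gd i` = off the four bad sets and where
`f xᵢ = f (uᵢ r) f (vᵢ r)`; labels from `roots_cover` applied to a good representative of each
colour class; `pairs` contradicts the choice of `p`. -/
theorem lift (hν : Good ν) (Z : Fac) (h : Q0 (psi ν Z)) : Q0 (psi ν (plus ν Z)) := by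
  classical
  by_contra hn
  obtain ⟨W0, hW0, hβ, J, hJ, hA⟩ := liftA hν (plus ν Z) hn
  have hJ1 : (1 : ℝ) ≤ J := by exact_mod_cast hJ
  obtain ⟨N, hN⟩ : ∃ N : ℕ, N = 256 * J ^ 2 := ⟨_, rfl⟩
  have hN0 : 0 < N := by rw [hN]; positivity
  obtain ⟨M, hM⟩ : ∃ M : ℕ, M = 8 * (N * N) := ⟨_, rfl⟩
  have hM0 : 0 < M := by rw [hM]; positivity
  have hM1 : (0 : ℝ) < M := by exact_mod_cast hM0
  obtain ⟨θ, hθ, hθ1, hθ2⟩ : ∃ θ : ℝ, 0 < θ ∧ θ ≤ ν.real W0 / 16 ∧ θ ≤ 1 / (4 * (J : ℝ)) :=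
    ⟨min _ _, lt_min (by positivity) (by positivity), min_le_left _ _, min_le_right _ _⟩
  obtain ⟨r, hr, hA⟩ := hA M hM0 θ hθ
  choose BA hBA hBA' hA using hA
  obtain ⟨Γ, col, BB, hcol, hBB, hBB', hB⟩ := liftB hν Z M r hθ
  have hΓ : 0 < Γ := (col 1 0).pos
  have hr0 : 0 < sz r := norm_pos_iff.2 (by exact_mod_cast hr)
  have hpos : 0 < (ν.real W0) ^ 2 / (64 * ((N * N : ℕ) : ℝ) ^ 2 * (Γ * Γ : ℕ)) := by positivity
  rw [psi_eq] at h
  obtain ⟨p, hp, hp'⟩ := q0_multi (mult_F2 Z hν) h M (ε := 2 * sz r) (by positivity)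
    (half_pos hpos)
  choose u v huv using fun i => two_sum hr (hp i).le
  let Bd : K → Set X := fun a => BA a ∪ BB a
  let Nl : p.ι → Set X := fun i => {w | f (p.x i) w = f (kv (u i) * r) w * f (kv (v i) * r) w}
  have hNl : ∀ i, MeasurableSet (Nl i) := fun i =>
    measurableSet_eq_fun (measurable_f _) ((measurable_f _).mul (measurable_f _))
  have hNl0 : ∀ i, ν.real (Nl i)ᶜ = 0 := fun i => by
    have h1 := (mult_f hν).mul (kv (u i) * r) (kv (v i) * r)
    rw [← huv i] at h1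
    rw [measureReal_def, show ν (Nl i)ᶜ = 0 from h1, ENNReal.toReal_zero]
  have hBd : ∀ a, MeasurableSet (Bd a) := fun a => (hBA a).union (hBB a)
  have hBd' : ∀ a, ν.real (Bd a) ≤ 2 * θ := fun a => by
    linarith [measureReal_union_le (μ := ν) (BA a) (BB a), hBA' a, hBB' a]
  obtain ⟨k, hk, hkM, hle⟩ := pairs hν Z p hW0 hβ (Γ := Γ * Γ) (L := N * N) (M' := M)
    (by positivity) hM.ge (η := 1 / (2 * (J : ℝ) * M)) (by
      rw [mul_one_div, div_le_div_iff₀ (by positivity) (by positivity)]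
      nlinarith)
    (fun i w => finProdFinEquiv (col (u i) w, col (v i) w)) (fun i c => by
      have : {w | finProdFinEquiv (col (u i) w, col (v i) w) = c} =
          {w | col (u i) w = (finProdFinEquiv.symm c).1} ∩
            {w | col (v i) w = (finProdFinEquiv.symm c).2} := by
        ext w
        rw [Set.mem_inter_iff, Set.mem_ofPred_eq, Set.mem_ofPred_eq, Set.mem_ofPred_eq,
          ← Equiv.eq_symm_apply, Prod.ext_iff]
      rw [this]
      exact (hcol _ _).inter (hcol _ _))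
    (fun i => (Bd (u i) ∪ Bd (v i) ∪ (Nl i)ᶜ)ᶜ)
    (fun i => (((hBd _).union (hBd _)).union (hNl i).compl).compl) (fun i => by
      have h1 : ν.real (W0 \ (Bd (u i) ∪ Bd (v i) ∪ (Nl i)ᶜ)ᶜ) ≤
          ν.real (Bd (u i) ∪ Bd (v i) ∪ (Nl i)ᶜ) :=
        measureReal_mono fun w hw => not_not.1 hw.2
      linarith [measureReal_union_le (μ := ν) (Bd (u i) ∪ Bd (v i)) (Nl i)ᶜ,
        measureReal_union_le (μ := ν) (Bd (u i)) (Bd (v i)), hBd' (u i), hBd' (v i), hNl0 i])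
    (fun w hw => by
      obtain ⟨lab, hlab⟩ := alift_label (fun a => col a w) (fun a => f (kv a * r) w)
        (fun a => w ∉ Bd a) hN0 (1 / (8 * (J : ℝ) * M)) fun g => by
          by_cases hg : ∃ a, w ∉ Bd a ∧ col a w = g
          · obtain ⟨a, ha, hag⟩ := hg
            obtain ⟨T, hT, hT'⟩ := roots_cover (ker ν (plus ν Z) w) (measurable_f (kv a * r))
              (norm_f _) hJ hM0
            refine ⟨T, hN ▸ hT, fun b hb hbg => hT' _ (norm_f _ _) ?_⟩
            have h1 := hA b w hw fun h => hb (Or.inl h)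
            have h2 := hB b a w (fun h => hb (Or.inr h)) (fun h => ha (Or.inr h))
              (hbg.trans hag.symm) _ (norm_f (kv b * r) w)
            have h3 : 1 / (2 * (J : ℝ)) = 1 / (4 * (J : ℝ)) + 1 / (4 * (J : ℝ)) := by
              field_simp
              norm_num
            linarith [(abs_le.1 h2).2]
          · exact ⟨∅, by simp, fun b hb hbg => absurd ⟨b, hb, hbg⟩ hg⟩
      refine ⟨fun i => finProdFinEquiv (lab (u i), lab (v i)), fun i i' hi hi' hc hl => ?_⟩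
      simp only [Set.mem_compl_iff, Set.mem_union, not_or, not_not] at hi hi'
      have hc' := Prod.ext_iff.1 (finProdFinEquiv.injective hc)
      have hl' := Prod.ext_iff.1 (finProdFinEquiv.injective hl)
      have h1 := hlab _ _ hi.1.1 hi'.1.1 hc'.1 hl'.1
      have h2 := hlab _ _ hi.1.2 hi'.1.2 hc'.2 hl'.2
      have h3 : 1 / (2 * (J : ℝ) * M) = 4 * (1 / (8 * (J : ℝ) * M)) := by
        field_simp
        norm_num
      rw [show f (p.x i) w = _ from hi.2, show f (p.x i') w = _ from hi'.2]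
      linarith [alift_prod (a := f (kv (u i) * r) w) (b' := f (kv (v i') * r) w)
        (norm_f (kv (u i') * r) w) (norm_f (kv (v i) * r) w)])
  linarith [hp' k hk hkM]

end Crest.Agent.R40.A
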