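import Crest.Agent.R40.ADefs

/-! Row 40 A: Fejér kernel and roots of unity. -/

set_option autoImplicit false
open MeasureTheory ProbabilityTheory Filter Topology
open scoped ComplexConjugate

noncomputable section
namespace Crest.Agent.R40.A

lemma Fej_nonneg (M : ℕ) (t : ℂ) : 0 ≤ Fej M t := by
  unfold Fej
  positivity

lemma alift0_norm_le (M : ℕ) {t : ℂ} (ht : ‖t‖ = 1) : ‖∑ k ∈ Finset.range M, t ^ k‖ ≤ M := by
  refine (norm_sum_le _ _).trans (le_of_eq ?_)
  simp [ht]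

lemma Fej_le_one (M : ℕ) {t : ℂ} (ht : ‖t‖ = 1) : Fej M t ≤ 1 := by
  unfold Fej
  exact div_le_one_of_le₀ (pow_le_pow_left₀ (norm_nonneg _) (alift0_norm_le M ht) 2) (sq_nonneg _)

lemma Fej_one {M : ℕ} (hM : 0 < M) : Fej M 1 = 1 := by
  have : (M : ℝ) ≠ 0 := Nat.cast_ne_zero.2 hM.ne'
  simp [Fej, this]

lemma alift0_pow_sub {s t : ℂ} (hs : ‖s‖ = 1) (ht : ‖t‖ = 1) (k : ℕ) :
    ‖s ^ k - t ^ k‖ ≤ k * ‖s - t‖ := by
  induction k with
  | zero => simp
  | succ k ih =>
    have : s ^ (k + 1) - t ^ (k + 1) = s * (s ^ k - t ^ k) + (s - t) * t ^ k := by ring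
    rw [this]
    refine (norm_add_le _ _).trans ?_
    rw [norm_mul, norm_mul, norm_pow, hs, ht, one_pow]
    push_cast
    linarith

lemma alift0_sum_sub {s t : ℂ} (hs : ‖s‖ = 1) (ht : ‖t‖ = 1) (M : ℕ) :
    ‖∑ k ∈ Finset.range M, s ^ k - ∑ k ∈ Finset.range M, t ^ k‖ ≤ M ^ 2 / 2 * ‖s - t‖ := by
  induction M with
  | zero => simp
  | succ M ih =>
    rw [Finset.sum_range_succ, Finset.sum_range_succ, add_sub_add_comm]
    refine (norm_add_le _ _).trans ?_
    have := alift0_pow_sub hs ht M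
    have h0 := norm_nonneg (s - t)
    push_cast
    nlinarith

lemma Fej_lip (M : ℕ) {s t : ℂ} (hs : ‖s‖ = 1) (ht : ‖t‖ = 1) :
    |Fej M s - Fej M t| ≤ M * ‖s - t‖ := by
  rcases Nat.eq_zero_or_pos M with rfl | hM
  · simp [Fej]
  have hM' : (0 : ℝ) < M := Nat.cast_pos.2 hM
  have h1 := alift0_norm_le M hs
  have h2 := alift0_norm_le M ht
  have h3 := (abs_norm_sub_norm_le _ _).trans (alift0_sum_sub hs ht M)
  unfold Fej
  rw [← sub_div, abs_div, abs_of_pos (pow_pos hM' 2), div_le_iff₀ (pow_pos hM' 2), sq_sub_sq,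
    abs_mul, abs_of_nonneg (by positivity)]
  calc _ ≤ (M + M : ℝ) * (M ^ 2 / 2 * ‖s - t‖) := by gcongr
    _ = _ := by ring

lemma Fej_expand (M : ℕ) (t : ℂ) : (Fej M t : ℂ) =
    ∑ j ∈ Finset.range M, ∑ k ∈ Finset.range M, t ^ j * conj t ^ k / (M : ℂ) ^ 2 := by
  unfold Fej
  push_cast
  rw [← Complex.mul_conj', map_sum, Finset.sum_mul_sum, Finset.sum_div]
  refine Finset.sum_congr rfl fun j _ => ?_
  rw [Finset.sum_div]
  simp only [map_pow]

lemma alift0_continuous (M : ℕ) : Continuous (Fej M) := by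
  unfold Fej
  fun_prop

lemma alift0_sum_roots {M N : ℕ} (hM : 0 < M) (hMN : M ≤ N) {ζ : ℂ} (hζ : IsPrimitiveRoot ζ N)
    {u : ℂ} (hu : ‖u‖ = 1) : ∑ a ∈ Finset.range N, Fej M (ζ ^ a * u) = N / M := by
  have hN : N ≠ 0 := by omega
  have hM' : (M : ℂ) ≠ 0 := Nat.cast_ne_zero.2 hM.ne'
  have h1 : ζ * conj ζ = 1 := by
    rw [Complex.mul_conj', hζ.norm'_eq_one hN]
    simp
  have h2 : u * conj u = 1 := by
    rw [Complex.mul_conj', hu]
    simp
  have key : ∀ j < M, ∀ k < M, ∑ a ∈ Finset.range N, (ζ ^ j * conj ζ ^ k) ^ a =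
      if j = k then (N : ℂ) else 0 := by
    intro j hj k hk
    split_ifs with h
    · rw [h, ← mul_pow, h1]
      simp
    · have h3 : ζ ^ j * conj ζ ^ k ≠ 1 := fun e => h (hζ.pow_inj (hj.trans_le hMN)
        (hk.trans_le hMN) (by
          rw [← mul_one (ζ ^ j), ← one_pow k, ← h1, mul_pow, mul_left_comm, e, mul_one]))
      have h4 : (ζ ^ j * conj ζ ^ k) ^ N = 1 := by
        rw [mul_pow, pow_right_comm, pow_right_comm _ k, ← map_pow, hζ.pow_eq_one]
        simp
      rw [geom_sum_eq h3, h4, sub_self, zero_div]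
  apply Complex.ofReal_injective
  push_cast
  simp_rw [Fej_expand]
  rw [Finset.sum_comm]
  calc _ = ∑ j ∈ Finset.range M, (N : ℂ) / (M : ℂ) ^ 2 := by
        refine Finset.sum_congr rfl fun j hj => ?_
        rw [Finset.sum_comm]
        calc _ = ∑ k ∈ Finset.range M, (if j = k then (N : ℂ) else 0) *
              (u ^ j * conj u ^ k / (M : ℂ) ^ 2) := by
              refine Finset.sum_congr rfl fun k hk => ?_
              rw [← key j (Finset.mem_range.1 hj) k (Finset.mem_range.1 hk), Finset.sum_mul]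
              refine Finset.sum_congr rfl fun a _ => ?_
              rw [map_mul, map_pow]
              ring
          _ = _ := by
              simp only [ite_mul, zero_mul, Finset.sum_ite_eq, hj, if_true]
              rw [← mul_pow, h2, one_pow, mul_one_div]
    _ = _ := by
        rw [Finset.sum_const, Finset.card_range, nsmul_eq_mul]
        field_simp

lemma alift0_near {N : ℕ} (hN : 0 < N) {t : ℂ} (ht : ‖t‖ = 1) :
    ∃ w : ℂ, w ^ N = 1 ∧ ‖t - w‖ ≤ 4 / N := by
  have hN' : (0 : ℝ) < N := Nat.cast_pos.2 hN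
  have hπ := Real.pi_pos
  set a : ℤ := round (t.arg * N / (2 * Real.pi)) with ha
  set φ : ℝ := 2 * Real.pi * a / N with hφ
  refine ⟨Complex.exp (Complex.I * φ), ?_, ?_⟩
  · have hN'' : (N : ℂ) ≠ 0 := Nat.cast_ne_zero.2 hN.ne'
    rw [← Complex.exp_nat_mul, ← Complex.exp_int_mul_two_pi_mul_I a, hφ]
    congr 1
    push_cast
    field_simp
  · have h1 : t = Complex.exp (Complex.I * φ) * Complex.exp (Complex.I * (t.arg - φ : ℝ)) := by
      rw [← Complex.exp_add]
      conv_lhs => rw [← Complex.norm_mul_exp_arg_mul_I t, ht]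
      push_cast
      rw [one_mul]
      congr 1
      ring
    have h2 : |t.arg - φ| ≤ 4 / N := by
      have e : t.arg - φ = 2 * Real.pi / N * (t.arg * N / (2 * Real.pi) - a) := by
        rw [hφ]
        field_simp
      rw [e, abs_mul, abs_of_pos (by positivity)]
      calc _ ≤ (2 * 4 / N * (1 / 2) : ℝ) := by
            gcongr
            · exact Real.pi_le_four
            · exact abs_sub_round _
        _ = _ := by ring
    calc ‖t - Complex.exp (Complex.I * φ)‖ = ‖Complex.exp (Complex.I * φ) *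
          (Complex.exp (Complex.I * (t.arg - φ : ℝ)) - 1)‖ := by rw [mul_sub, ← h1, mul_one]
      _ = ‖Complex.exp (Complex.I * (t.arg - φ : ℝ)) - 1‖ := by
          rw [norm_mul, Complex.norm_exp_I_mul_ofReal, one_mul]
      _ ≤ _ := Real.norm_exp_I_mul_ofReal_sub_one_le.trans h2

/-- `N = 32 J M`-th roots of unity: the nearest root `ζ` has `FG ζ ≥ 1/(8J)` and
`∑_ζ FG ζ = N / M` -/
theorem roots_cover (ρ : Measure X) [IsProbabilityMeasure ρ] {g : X → ℂ} (hg : Measurable g)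
    (hg1 : ∀ y, ‖g y‖ = 1) {J M : ℕ} (hJ : 0 < J) (hM : 0 < M) :
    ∃ T : Finset ℂ, T.card ≤ 256 * J ^ 2 ∧ ∀ t : ℂ, ‖t‖ = 1 → 1 / (4 * (J : ℝ)) ≤ FG M ρ g t →
      ∃ ζ ∈ T, ‖t - ζ‖ ≤ 1 / (8 * (J : ℝ) * M) := by
  classical
  set N := 32 * J * M with hN
  have hN0 : 0 < N := by positivity
  have hMN : M ≤ N := Nat.le_mul_of_pos_left M (by positivity)
  have hJ' : (0 : ℝ) < J := Nat.cast_pos.2 hJ
  have hM' : (0 : ℝ) < M := Nat.cast_pos.2 hM
  have hζ := Complex.isPrimitiveRoot_exp N hN0.ne'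
  set ζ := Complex.exp (2 * Real.pi * Complex.I / N)
  have hζ1 : ∀ a : ℕ, ‖ζ ^ a‖ = 1 := fun a => by
    rw [norm_pow, hζ.norm'_eq_one hN0.ne', one_pow]
  have hu : ∀ {t : ℂ}, ‖t‖ = 1 → ∀ y, ‖t * conj (g y)‖ = 1 := fun ht y => by
    rw [norm_mul, ht, Complex.norm_conj, hg1, one_mul]
  have hi : ∀ {t : ℂ}, ‖t‖ = 1 → Integrable (fun y => Fej M (t * conj (g y))) ρ := fun {t} ht =>
    Integrable.of_bound ((alift0_continuous M).measurable.comp (measurable_const.mul
      (Complex.continuous_conj.measurable.comp hg))).aestronglyMeasurable 1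
      (ae_of_all _ fun y => by
        rw [Real.norm_of_nonneg (Fej_nonneg _ _)]
        exact Fej_le_one M (hu ht y))
  have hsum : ∑ a ∈ Finset.range N, FG M ρ g (ζ ^ a) = 32 * J := by
    unfold FG
    rw [← integral_finsetSum _ fun a _ => hi (hζ1 a)]
    simp_rw [fun y => alift0_sum_roots hM hMN hζ
      (show ‖conj (g y)‖ = 1 by rw [Complex.norm_conj, hg1])]
    rw [integral_const, probReal_univ, one_smul, hN]
    push_cast
    field_simp
  set S := (Finset.range N).filter fun a => 1 / (8 * (J : ℝ)) ≤ FG M ρ g (ζ ^ a)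
  refine ⟨S.image fun a => ζ ^ a, Finset.card_image_le.trans ?_, fun t ht hF => ?_⟩
  · have h1 : S.card • (1 / (8 * (J : ℝ))) ≤ ∑ a ∈ S, FG M ρ g (ζ ^ a) :=
      Finset.card_nsmul_le_sum _ _ _ fun a ha => (Finset.mem_filter.1 ha).2
    have h2 : ∑ a ∈ S, FG M ρ g (ζ ^ a) ≤ 32 * J := hsum ▸
      Finset.sum_le_sum_of_subset_of_nonneg (Finset.filter_subset _ _) fun a _ _ =>
        integral_nonneg fun y => Fej_nonneg _ _
    have h3 := h1.trans h2
    rw [nsmul_eq_mul, mul_one_div, div_le_iff₀ (by positivity)] at h3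
    have h4 : (S.card : ℝ) ≤ 256 * J ^ 2 := by linarith
    exact_mod_cast h4
  · obtain ⟨w, hw1, hw2⟩ := alift0_near hN0 ht
    have : NeZero N := ⟨hN0.ne'⟩
    obtain ⟨a, ha, rfl⟩ := hζ.eq_pow_of_pow_eq_one hw1
    have h1 : ‖t - ζ ^ a‖ ≤ 1 / (8 * (J : ℝ) * M) := by
      refine hw2.trans (le_of_eq ?_)
      rw [hN]
      push_cast
      field_simp
      norm_num
    refine ⟨_, Finset.mem_image_of_mem _ (Finset.mem_filter.2 ⟨Finset.mem_range.2 ha, ?_⟩), h1⟩
    have h2 : FG M ρ g t - FG M ρ g (ζ ^ a) ≤ 1 / (8 * (J : ℝ)) := by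
      unfold FG
      rw [← integral_sub (hi ht) (hi (hζ1 a))]
      refine (integral_mono ((hi ht).sub (hi (hζ1 a))) (integrable_const (1 / (8 * (J : ℝ))))
        fun y => ?_).trans (by simp)
      refine (le_abs_self _).trans ((Fej_lip M (hu ht y) (hu (hζ1 a) y)).trans ?_)
      rw [← sub_mul, norm_mul, Complex.norm_conj, hg1, mul_one]
      refine (mul_le_mul_of_nonneg_left h1 hM'.le).trans (le_of_eq ?_)
      field_simp
    have h3 : 1 / (4 * (J : ℝ)) = 1 / (8 * (J : ℝ)) + 1 / (8 * (J : ℝ)) := by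
      field_simp
      norm_num
    linarith

end Crest.Agent.R40.A
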