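import Crest.Agent.R40.ARel1

/-! Row 40 A: equivariance and the relative product `lam`. -/

set_option autoImplicit false
open MeasureTheory ProbabilityTheory Filter Topology
open scoped ComplexConjugate

noncomputable section
namespace Crest.Agent.R40.A

lemma arel2_int {W : Type} [MeasurableSpace W] {μ : Measure W} [IsFiniteMeasure μ] {g : W → ℂ}
    (hg : BM g) : Integrable g μ := by
  obtain ⟨hm, C, hC⟩ := hg
  exact Integrable.of_bound hm.aestronglyMeasurable C (Eventually.of_forall hC)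

lemma arel2_comp {W W' : Type} [MeasurableSpace W] [MeasurableSpace W'] {g : W → ℂ} (hg : BM g)
    {φ : W' → W} (hφ : Measurable φ) : BM fun x => g (φ x) := by
  obtain ⟨hm, C, hC⟩ := hg
  exact ⟨hm.comp hφ, C, fun x => hC _⟩

lemma arel2_mul {W : Type} [MeasurableSpace W] {a b : W → ℂ} (ha : BM a) (hb : BM b) :
    BM fun x => a x * b x := by
  obtain ⟨hm, C, hC⟩ := ha
  obtain ⟨hm', C', hC'⟩ := hb
  refine ⟨hm.mul hm', C * C', fun x => ?_⟩
  rw [norm_mul]
  exact mul_le_mul (hC x) (hC' x) (norm_nonneg _) ((norm_nonneg _).trans (hC x))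

lemma arel2_conj {W : Type} [MeasurableSpace W] {a : W → ℂ} (ha : BM a) :
    BM fun x => conj (a x) := by
  obtain ⟨hm, C, hC⟩ := ha
  exact ⟨Complex.continuous_conj.measurable.comp hm, C, fun x => by simpa using hC x⟩

lemma arel2_ind_le {W : Type} (s : Set W) (x : W) : ‖s.indicator (fun _ => (1 : ℂ)) x‖ ≤ 1 := by
  by_cases h : x ∈ s <;> simp [h]

lemma arel2_ind {W : Type} [MeasurableSpace W] {s : Set W} (hs : MeasurableSet s) :
    BM (s.indicator fun _ => (1 : ℂ)) :=
  ⟨measurable_const.indicator hs, 1, arel2_ind_le s⟩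

lemma arel2_integral_act {ν : Measure X} (hν : Good ν) {g : X → ℂ} (hg : Measurable g) (u : K) :
    ∫ x, g (act u x) ∂ν = ∫ x, g x ∂ν := by
  conv_rhs => rw [← (hν.mp u).map_eq]
  rw [integral_map (measurable_act u).aemeasurable hg.aestronglyMeasurable]

lemma arel2_setIntegral {ν : Measure X} {s : Set X} (hs : MeasurableSet s) (g : X → ℂ) :
    ∫ x in s, g x ∂ν = ∫ x, s.indicator (fun _ => (1 : ℂ)) x * g x ∂ν := by
  rw [← integral_indicator hs]
  refine integral_congr_ae (Eventually.of_forall fun x => ?_)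
  by_cases h : x ∈ s <;> simp [h]

variable {ν : Measure X} [IsProbabilityMeasure ν] (Z : Fac)

lemma cE_act (hν : Good ν) {g : X → ℂ} (hg : BM g) (u : K) :
    cE ν Z (fun x => g (act u x)) =ᵐ[ν] fun x => cE ν Z g (act u x) := by
  have hgu : BM fun x => g (act u x) := arel2_comp hg (measurable_act u)
  have hh : BM fun x => cE ν Z g (act u x) := arel2_comp (cE_bm Z hg) (measurable_act u)
  refine (cE_ae Z hgu).trans (EventuallyEq.symm ?_)
  refine ae_eq_condExp_of_forall_setIntegral_eq Z.le (arel2_int hgu)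
    (fun s _ _ => (arel2_int hh).integrableOn) (fun s hs _ => ?_)
    ((cE_meas Z hg.1).comp (Z.inv u)).aestronglyMeasurable
  have hs' : MeasurableSet s := Z.le s hs
  let a : X → ℂ := fun y => s.indicator (fun _ => (1 : ℂ)) (act u⁻¹ y)
  have ha : Measurable[Z.m] a :=
    (Measurable.indicator (measurable_const (a := (1 : ℂ))) hs).comp (Z.inv u⁻¹)
  have ha' : Measurable a := (arel2_comp (arel2_ind hs') (measurable_act u⁻¹)).1
  have e : ∀ x, s.indicator (fun _ => (1 : ℂ)) x = a (act u x) := fun x => by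
    simp only [a]
    rw [← act_mul, inv_mul_cancel, act_one]
  rw [arel2_setIntegral hs', arel2_setIntegral hs']
  simp only [e]
  rw [arel2_integral_act hν (g := fun y => a y * cE ν Z g y) (ha'.mul (cE_bm Z hg).1) u,
    arel2_integral_act hν (g := fun y => a y * g y) (ha'.mul hg.1) u]
  exact integral_mul_cE Z ha ⟨1, fun x => arel2_ind_le s _⟩ hg

lemma integral_lam {H : X × X → ℂ} (hH : BM H) :
    ∫ w, H w ∂(lam ν Z) = ∫ x, ∫ y, H (x, y) ∂(ker ν Z x) ∂ν := by
  exact Measure.integral_compProd (arel2_int hH)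

lemma arel2_lam_mul {a b : X → ℂ} (ha : BM a) (hb : BM b) :
    ∫ w, a w.1 * b w.2 ∂(lam ν Z) = ∫ x, a x * cE ν Z b x ∂ν := by
  rw [integral_lam Z (arel2_mul (arel2_comp ha measurable_fst) (arel2_comp hb measurable_snd))]
  refine integral_congr_ae (Eventually.of_forall fun x => ?_)
  exact integral_const_mul (a x) b

lemma integral_lam_mul {a b : X → ℂ} (ha : BM a) (hb : BM b) :
    ∫ w, a w.1 * b w.2 ∂(lam ν Z) = ∫ x, cE ν Z a x * cE ν Z b x ∂ν := by
  rw [arel2_lam_mul Z ha hb]
  have h := integral_mul_cE (ν := ν) Z (cE_meas (ν := ν) Z hb.1) (cE_bm Z hb).2 ha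
  simp only [mul_comm (cE ν Z b _)] at h
  exact h.symm

lemma mp_fst : MeasurePreserving Prod.fst (lam ν Z) ν := by
  exact ⟨measurable_fst, Measure.fst_compProd ν (ker ν Z)⟩

lemma arel2_rect {s t : Set X} (hs : MeasurableSet s) (ht : MeasurableSet t) :
    ∫ w, s.indicator (fun _ => (1 : ℂ)) w.1 * t.indicator (fun _ => (1 : ℂ)) w.2 ∂(lam ν Z) =
      ((lam ν Z).real (s ×ˢ t) : ℂ) := by
  have e : (fun w : X × X => s.indicator (fun _ => (1 : ℂ)) w.1 *
      t.indicator (fun _ => (1 : ℂ)) w.2) = (s ×ˢ t).indicator fun _ => (1 : ℂ) := by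
    funext w
    by_cases h1 : w.1 ∈ s <;> by_cases h2 : w.2 ∈ t <;> simp [Set.indicator, h1, h2]
  rw [e, integral_indicator (hs.prod ht)]
  simp

lemma mp_snd : MeasurePreserving Prod.snd (lam ν Z) ν := by
  refine ⟨measurable_snd, Measure.ext fun s hs => ?_⟩
  rw [Measure.map_apply measurable_snd hs, ← measureReal_eq_measureReal_iff]
  have h1 := arel2_rect (ν := ν) Z MeasurableSet.univ hs
  rw [arel2_lam_mul Z (arel2_ind MeasurableSet.univ) (arel2_ind hs),
    integral_mul_cE Z (measurable_const.indicator MeasurableSet.univ) ⟨1, arel2_ind_le _⟩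
      (arel2_ind hs), Set.univ_prod] at h1
  simp only [Set.indicator_univ, one_mul] at h1
  rw [integral_indicator hs] at h1
  simp only [integral_const, MeasurableSet.univ, measureReal_restrict_apply, Set.univ_inter,
    Complex.real_smul, mul_one] at h1
  exact_mod_cast h1.symm

/-- both measures agree on rectangles by `integral_lam_mul` and `cE_act` -/
lemma isAct_act2 (hν : Good ν) : IsAct (lam ν Z) act2 := by
  refine ⟨fun u => ?_, fun w => by simp only [act2, act_one],
    fun a b w => by simp only [act2, act_mul]⟩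
  have hm : Measurable (act2 u) :=
    ((measurable_act u).comp measurable_fst).prodMk ((measurable_act u).comp measurable_snd)
  refine ⟨hm, Measure.ext_prod fun {s t} hs ht => ?_⟩
  rw [Measure.map_apply hm (hs.prod ht), ← measureReal_eq_measureReal_iff]
  have e : act2 u ⁻¹' (s ×ˢ t) = (act u ⁻¹' s) ×ˢ (act u ⁻¹' t) := rfl
  have h1 := arel2_rect (ν := ν) Z (measurable_act u hs) (measurable_act u ht)
  have h2 := arel2_rect (ν := ν) Z hs ht
  rw [integral_lam_mul Z (arel2_ind hs) (arel2_ind ht)] at h2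
  rw [integral_lam_mul Z (arel2_ind (measurable_act u hs)) (arel2_ind (measurable_act u ht))] at h1
  have h3 : ∫ x, cE ν Z ((act u ⁻¹' s).indicator fun _ => (1 : ℂ)) x *
      cE ν Z ((act u ⁻¹' t).indicator fun _ => (1 : ℂ)) x ∂ν =
      ∫ x, cE ν Z (s.indicator fun _ => (1 : ℂ)) x * cE ν Z (t.indicator fun _ => (1 : ℂ)) x ∂ν := by
    rw [← arel2_integral_act hν (g := fun x => cE ν Z (s.indicator fun _ => (1 : ℂ)) x *
      cE ν Z (t.indicator fun _ => (1 : ℂ)) x)
      ((cE_bm Z (arel2_ind hs)).1.mul (cE_bm Z (arel2_ind ht)).1) u]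
    refine integral_congr_ae ?_
    filter_upwards [cE_act Z hν (arel2_ind hs) u, cE_act Z hν (arel2_ind ht) u] with x i1 i2
    rw [← i1, ← i2]
    rfl
  rw [e]
  exact_mod_cast h1.symm.trans (h3.trans h2)

lemma mult_F2 (hν : Good ν) : Mult (lam ν Z) F2 := by
  refine ⟨fun z => (arel2_mul (arel2_comp (bm_f z) measurable_fst)
    (arel2_conj (arel2_comp (bm_f z) measurable_snd))).1, fun z w => ?_, fun x y => ?_⟩
  · simp [F2, norm_f]
  · filter_upwards [(mp_fst (ν := ν) Z).quasiMeasurePreserving.ae ((mult_f hν).mul x y),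
      (mp_snd (ν := ν) Z).quasiMeasurePreserving.ae ((mult_f hν).mul x y)] with w h1 h2
    simp only [F2, h1, h2, map_mul]
    ring

lemma psi_eq : psi ν Z = fun z => ∫ w, F2 z w ∂(lam ν Z) := by
  funext z
  have h := integral_lam_mul (ν := ν) Z (bm_f z) (arel2_conj (bm_f z))
  simp only [cE_conj, Complex.mul_conj'] at h
  simp only [F2, h, psi, n2]
  rw [← integral_complex_ofReal]
  simp

end Crest.Agent.R40.A
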