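import Crest.Agent.R40.ADefs

/-! Row 40 A: density of tensors. -/

set_option autoImplicit false
open MeasureTheory ProbabilityTheory Filter Topology
open scoped ComplexConjugate

noncomputable section
namespace Crest.Agent.R40.A

lemma arel3_zero {Y : Type} [MeasurableSpace Y] (μ : Measure (Y × Y)) [IsFiniteMeasure μ]
    {φ : Y × Y → ℂ} (hφ : Integrable φ μ)
    (h : ∀ A B : Set Y, MeasurableSet A → MeasurableSet B → ∫ w in A ×ˢ B, φ w ∂μ = 0) :
    φ =ᵐ[μ] 0 := by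
  refine hφ.ae_eq_zero_of_forall_setIntegral_eq_zero fun s hs _ => ?_
  refine MeasurableSpace.induction_on_inter (C := fun s _ => ∫ w in s, φ w ∂μ = 0)
    generateFrom_prod.symm isPiSystem_prod (by simp) ?_ ?_ ?_ s hs
  · rintro _ ⟨A, hA, B, hB, rfl⟩
    exact h A B hA hB
  · intro t ht h0
    have h1 := h Set.univ Set.univ .univ .univ
    rw [Set.univ_prod_univ, setIntegral_univ, ← integral_add_compl ht hφ, h0, zero_add] at h1
    exact h1
  · intro f hf hfm h0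
    rw [integral_iUnion hfm hf hφ.integrableOn]
    simp [h0]

lemma arel3_norm {W : Type} [MeasurableSpace W] (μ : Measure W) (F : Lp ℂ 2 μ) :
    ∫ w, ‖F w‖ ^ 2 ∂μ = ‖F‖ ^ 2 := by
  have h1 := L2.inner_def (𝕜 := ℂ) F F
  simp_rw [inner_self_eq_norm_sq_to_K] at h1
  have h2 : ∫ w, ((‖F w‖ : ℂ)) ^ 2 ∂μ = ((∫ w, ‖F w‖ ^ 2 ∂μ : ℝ) : ℂ) := by
    rw [← integral_complex_ofReal]; simp
  have h3 : ((‖F‖ : ℂ)) ^ 2 = ∫ w, ((‖F w‖ : ℂ)) ^ 2 ∂μ := h1
  rw [h2] at h3
  exact_mod_cast h3.symm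

lemma arel3_main {Y : Type} [MeasurableSpace Y] (μ : Measure (Y × Y)) [IsFiniteMeasure μ]
    {H : Y × Y → ℂ} (hH : BM H) {ε : ℝ} (hε : 0 < ε) :
    ∃ (N : ℕ) (b c : Fin N → Y → ℂ) (B : ℝ), (∀ l, Measurable (b l)) ∧
      (∀ l, Measurable (c l)) ∧ (∀ l x, ‖b l x‖ ≤ B) ∧ (∀ l x, ‖c l x‖ ≤ B) ∧
      n2 μ (fun w => H w - ∑ l, b l w.1 * c l w.2) ≤ ε := by
  classical
  obtain ⟨hm, C, hC⟩ := hH
  have hH2 : MemLp H 2 μ := MemLp.of_bound hm.aestronglyMeasurable C (Eventually.of_forall hC)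
  set R : Set (Lp ℂ 2 μ) := {v | ∃ (A B : Set Y) (hA : MeasurableSet A) (hB : MeasurableSet B),
    v = indicatorConstLp 2 (hA.prod hB) (measure_ne_top μ _) (1 : ℂ)} with hR
  have hd : (Submodule.span ℂ R).topologicalClosure = ⊤ := by
    rw [Submodule.topologicalClosure_eq_top_iff, eq_bot_iff]
    intro φ hφ
    rw [Submodule.mem_bot, Lp.eq_zero_iff_ae_eq_zero]
    refine arel3_zero μ ((Lp.memLp φ).integrable one_le_two) fun A B hA hB => ?_
    rw [← L2.inner_indicatorConstLp_one (𝕜 := ℂ) (hA.prod hB) (measure_ne_top μ _)]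
    exact (Submodule.mem_orthogonal _ _).mp hφ _ (Submodule.subset_span ⟨A, B, hA, hB, rfl⟩)
  have hmem : hH2.toLp H ∈ closure (Submodule.span ℂ R : Set (Lp ℂ 2 μ)) := by
    rw [← Submodule.topologicalClosure_coe, hd]; trivial
  obtain ⟨v, hv, hdist⟩ := Metric.mem_closure_iff.mp hmem (√ε) (Real.sqrt_pos.mpr hε)
  obtain ⟨N, a, g, rfl⟩ := Submodule.mem_span_set'.mp hv
  choose A B hA hB hg using fun l => (g l).2
  refine ⟨N, fun l => (A l).indicator fun _ => a l, fun l => (B l).indicator fun _ => 1,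
    1 + ∑ l, ‖a l‖, fun l => measurable_const.indicator (hA l),
    fun l => measurable_const.indicator (hB l), fun l x => ?_, fun l x => ?_, ?_⟩
  · refine (norm_indicator_le_norm_self _ _).trans ?_
    have := Finset.single_le_sum (f := fun l => ‖a l‖) (fun _ _ => norm_nonneg _)
      (Finset.mem_univ l)
    linarith
  · refine (norm_indicator_le_norm_self _ _).trans ?_
    have : 0 ≤ ∑ l, ‖a l‖ := Finset.sum_nonneg fun _ _ => norm_nonneg _
    simp only [norm_one]; linarith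
  · have h1 : ∀ l, ∀ᵐ w ∂μ, ((a l • (g l : Lp ℂ 2 μ) : Lp ℂ 2 μ) : Y × Y → ℂ) w =
        (A l).indicator (fun _ => a l) w.1 * (B l).indicator (fun _ => (1 : ℂ)) w.2 := by
      intro l
      filter_upwards [Lp.coeFn_smul (a l) (g l : Lp ℂ 2 μ),
        indicatorConstLp_coeFn (p := 2) (hs := (hA l).prod (hB l)) (hμs := measure_ne_top μ _)
          (c := (1 : ℂ))] with w h2 h3
      rw [h2, Pi.smul_apply, hg l, h3]
      by_cases h4 : w.1 ∈ A l <;> by_cases h5 : w.2 ∈ B l <;> simp [Set.indicator, h4, h5]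
    have h2 : n2 μ (fun w => H w - ∑ l, (A l).indicator (fun _ => a l) w.1 *
        (B l).indicator (fun _ => (1 : ℂ)) w.2) =
        ‖hH2.toLp H - ∑ l, a l • (g l : Lp ℂ 2 μ)‖ ^ 2 := by
      rw [← arel3_norm]
      refine integral_congr_ae ?_
      filter_upwards [Lp.coeFn_sub (hH2.toLp H) (∑ l, a l • (g l : Lp ℂ 2 μ)), hH2.coeFn_toLp,
        Lp.coeFn_fun_finsetSum Finset.univ (fun l => a l • (g l : Lp ℂ 2 μ)),
        ae_all_iff.mpr h1] with w h3 h4 h5 h6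
      rw [h3, Pi.sub_apply, h4, h5]
      simp only [h6]
    rw [h2, ← dist_eq_norm]
    calc _ ≤ (√ε) ^ 2 := pow_le_pow_left₀ dist_nonneg hdist.le 2
      _ = ε := Real.sq_sqrt hε.le

/-- finite sums of bounded tensors are dense in `L²` of a finite measure on `X × X` -/
lemma tensor_dense (μ : Measure (X × X)) [IsFiniteMeasure μ] {H : X × X → ℂ} (hH : BM H) {ε : ℝ}
    (hε : 0 < ε) : ∃ (N : ℕ) (b c : Fin N → X → ℂ) (B : ℝ), (∀ l, Measurable (b l)) ∧
      (∀ l, Measurable (c l)) ∧ (∀ l x, ‖b l x‖ ≤ B) ∧ (∀ l x, ‖c l x‖ ≤ B) ∧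
      n2 μ (fun w => H w - ∑ l, b l w.1 * c l w.2) ≤ ε :=
  arel3_main μ hH hε

end Crest.Agent.R40.A
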