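import Crest.Agent.R40.ALift0
import Crest.Agent.R40.ARel
import Crest.Agent.R40.AMin
import Crest.Agent.R40.AAlg

/-! Row 40 A: lifting lemma, step A. -/

set_option autoImplicit false
open MeasureTheory ProbabilityTheory Filter Topology
open scoped ComplexConjugate

noncomputable section
namespace Crest.Agent.R40.A

lemma alifta_meas_Fej (M : ℕ) : Measurable (Fej M) := by
  unfold Fej
  fun_prop

/-- pointwise lower bound for `FG` -/
lemma alifta_lower (ρ : Measure X) [IsProbabilityMeasure ρ] {g : X → ℂ} (hg : Measurable g)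
    (hg1 : ∀ y, ‖g y‖ = 1) {t : ℂ} (ht : ‖t‖ = 1) {M : ℕ} (hM : 0 < M) {S : Set X}
    (hS : MeasurableSet S) :
    3 / 4 * ρ.real S - (M : ℝ) ^ 2 * ∫ y, S.indicator (fun y => ‖t * conj (g y) - 1‖ ^ 2) y ∂ρ ≤
      FG M ρ g t := by
  have hn : ∀ y, ‖t * conj (g y)‖ = 1 := fun y => by simp [ht, hg1]
  have hm : Measurable fun y => t * conj (g y) :=
    measurable_const.mul (Complex.continuous_conj.measurable.comp hg)
  have hm2 : Measurable fun y => ‖t * conj (g y) - 1‖ ^ 2 := (hm.sub_const 1).norm.pow_const 2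
  have hb2 : ∀ y, ‖t * conj (g y) - 1‖ ^ 2 ≤ 4 := fun y => by
    have h1 : ‖t * conj (g y) - 1‖ ≤ 2 := by
      calc _ ≤ ‖t * conj (g y)‖ + ‖(1 : ℂ)‖ := norm_sub_le _ _
        _ = 2 := by rw [hn y]; norm_num
    nlinarith [norm_nonneg (t * conj (g y) - 1)]
  have i1 : Integrable (S.indicator fun _ => (1 : ℝ)) ρ := (integrable_const 1).indicator hS
  have i2 : Integrable (S.indicator fun y => ‖t * conj (g y) - 1‖ ^ 2) ρ := by
    refine Integrable.indicator ?_ hS
    refine Integrable.of_bound hm2.aestronglyMeasurable 4 (ae_of_all _ fun y => ?_)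
    rw [Real.norm_of_nonneg (by positivity)]
    exact hb2 y
  have i3 : Integrable (fun y => Fej M (t * conj (g y))) ρ := by
    refine Integrable.of_bound ((alifta_meas_Fej M).comp hm).aestronglyMeasurable 1
      (ae_of_all _ fun y => ?_)
    rw [Real.norm_of_nonneg (Fej_nonneg _ _)]
    exact Fej_le_one M (hn y)
  have e1 : ρ.real S = ∫ y, S.indicator (fun _ => (1 : ℝ)) y ∂ρ := by
    rw [integral_indicator hS]; simp
  rw [e1, ← integral_const_mul, ← integral_const_mul,
    ← integral_sub (i1.const_mul _) (i2.const_mul _)]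
  refine integral_mono ((i1.const_mul _).sub (i2.const_mul _)) i3 fun y => ?_
  by_cases hy : y ∈ S
  · simp only [Set.indicator_of_mem hy]
    have h1 := Fej_lip M (hn y) (norm_one (α := ℂ))
    rw [Fej_one hM] at h1
    have h2 := (abs_le.1 h1).1
    nlinarith [sq_nonneg ((M : ℝ) * ‖t * conj (g y) - 1‖ - 1 / 2)]
  · simp only [Set.indicator_of_notMem hy]
    have := Fej_nonneg M (t * conj (g y))
    linarith

variable {ν : Measure X} [IsProbabilityMeasure ν]

/-- `R` a continuity set of positive `lam`-mass (`q0_of_null`), `a w = ker w (R_w)`,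
`W0 = {a ≥ 1/J}`; `FG ≥ a - ∫_{R_w} (1 - Fej)`, whose `L¹` norm is `≤ M ‖(F2 z - 1) 1_R‖`. -/
theorem liftA (hν : Good ν) (Z : Fac) (h : ¬ Q0 (psi ν Z)) :
    ∃ W0 : Set X, MeasurableSet W0 ∧ 0 < ν.real W0 ∧ ∃ J : ℕ, 0 < J ∧ ∀ M : ℕ, 0 < M →
      ∀ δ > 0, ∃ r : E, r ≠ 0 ∧ ∀ u : K, ∃ Bad : Set X, MeasurableSet Bad ∧ ν.real Bad ≤ δ ∧
        ∀ w ∈ W0, w ∉ Bad →
          1 / (2 * (J : ℝ)) ≤ FG M (ker ν Z w) (f (kv u * r)) (f (kv u * r) w) := by
  rw [psi_eq] at h
  have hF := mult_F2 Z hν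
  obtain ⟨R, ⟨hR, hRc⟩, hR0⟩ : ∃ R, CSet (lam ν Z) F2 R ∧ lam ν Z R ≠ 0 := by
    by_contra hc
    push Not at hc
    exact h (q0_of_null hF hc)
  have ha : Measurable fun w => (ker ν Z w).real (Prod.mk w ⁻¹' R) :=
    (Kernel.measurable_kernel_prodMk_left hR).ennreal_toReal
  obtain ⟨n, hn⟩ : ∃ n : ℕ,
      ν {w | 1 / ((n + 1 : ℕ) : ℝ) ≤ (ker ν Z w).real (Prod.mk w ⁻¹' R)} ≠ 0 := by
    by_contra hc
    push Not at hc
    apply hR0
    unfold lam
    rw [Measure.compProd_apply hR]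
    have hae : ∀ᵐ w ∂ν, ∀ n : ℕ,
        ¬ (1 / ((n + 1 : ℕ) : ℝ) ≤ (ker ν Z w).real (Prod.mk w ⁻¹' R)) := by
      rw [ae_all_iff]
      intro n
      rw [ae_iff]
      simpa using hc n
    refine (lintegral_congr_ae (g := fun _ => 0) ?_).trans lintegral_zero
    filter_upwards [hae] with w hw
    by_contra hne
    have hpos : 0 < (ker ν Z w).real (Prod.mk w ⁻¹' R) :=
      ENNReal.toReal_pos hne (measure_ne_top _ _)
    obtain ⟨n, hn⟩ := exists_nat_one_div_lt hpos
    exact hw n (by push_cast; exact hn.le)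
  refine ⟨{w | 1 / ((n + 1 : ℕ) : ℝ) ≤ (ker ν Z w).real (Prod.mk w ⁻¹' R)},
    measurableSet_le measurable_const ha, ENNReal.toReal_pos hn (measure_ne_top _ _),
    n + 1, n.succ_pos, fun M hM δ hδ => ?_⟩
  set J : ℝ := ((n + 1 : ℕ) : ℝ) with hJ
  have hJ0 : 0 < J := by rw [hJ]; positivity
  have hM0 : (0 : ℝ) < M := by exact_mod_cast hM
  set ε : ℝ := 1 / (4 * J * (M : ℝ) ^ 2) with hε
  have hε0 : 0 < ε := by rw [hε]; positivity
  obtain ⟨δ', hδ', hsmall⟩ := hRc (ε * δ) (by positivity)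
  obtain ⟨r, hr, hrs⟩ := exists_small δ' hδ'
  refine ⟨r, hr, fun u => ?_⟩
  have hz : sz (kv u * r) < δ' := by
    have h1 := sz_kv u
    simp only [sz] at h1 hrs ⊢
    simpa [h1] using hrs
  set z := kv u * r with hzdef
  have hm2 : Measurable fun w => ‖F2 z w - 1‖ ^ 2 := ((hF.meas z).sub_const 1).norm.pow_const 2
  have hH : Measurable (R.indicator fun w => ‖F2 z w - 1‖ ^ 2) := hm2.indicator hR
  have hHi : Integrable (R.indicator fun w => ‖F2 z w - 1‖ ^ 2) (ν ⊗ₘ ker ν Z) := by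
    refine Integrable.indicator ?_ hR
    refine Integrable.of_bound hm2.aestronglyMeasurable 4 (ae_of_all _ fun w => ?_)
    rw [Real.norm_of_nonneg (by positivity)]
    have h1 : ‖F2 z w - 1‖ ≤ 2 := by
      calc _ ≤ ‖F2 z w‖ + ‖(1 : ℂ)‖ := norm_sub_le _ _
        _ = 2 := by rw [hF.norm_one]; norm_num
    nlinarith [norm_nonneg (F2 z w - 1)]
  set e : X → ℝ := fun x => ∫ y, R.indicator (fun w => ‖F2 z w - 1‖ ^ 2) (x, y) ∂(ker ν Z x)
    with he
  have hem : Measurable e := hH.stronglyMeasurable.integral_kernel_prod_right'.measurable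
  have he0 : ∀ x, 0 ≤ e x := fun x =>
    integral_nonneg fun y => Set.indicator_nonneg (fun w _ => by positivity) _
  have hei : Integrable e ν := by
    have h1 := ((Measure.integrable_compProd_iff hHi.aestronglyMeasurable).1 hHi).2
    refine h1.congr (ae_of_all _ fun x => ?_)
    refine integral_congr_ae (ae_of_all _ fun y => ?_)
    exact Real.norm_of_nonneg (Set.indicator_nonneg (fun w _ => by positivity) _)
  have hint : ∫ x, e x ∂ν ≤ ε * δ := by
    have h1 := hsmall z hz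
    rw [← integral_indicator hR] at h1
    unfold lam at h1
    rwa [Measure.integral_compProd hHi] at h1
  refine ⟨{x | ε ≤ e x}, measurableSet_le measurable_const hem, ?_, fun w hw hwb => ?_⟩
  · have h1 := (mul_meas_ge_le_integral_of_nonneg (ae_of_all _ he0) hei ε).trans hint
    exact le_of_mul_le_mul_left h1 hε0
  · have h1 := alifta_lower (ker ν Z w) (measurable_f z) (norm_f z) (norm_f z w) hM
      (S := Prod.mk w ⁻¹' R) (measurable_prodMk_left hR)
    have h2 : ∫ y, (Prod.mk w ⁻¹' R).indicator (fun y => ‖f z w * conj (f z y) - 1‖ ^ 2) y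
        ∂(ker ν Z w) = e w := by
      refine integral_congr_ae (ae_of_all _ fun y => ?_)
      by_cases hy : (w, y) ∈ R
      · simp only [Set.indicator_of_mem hy, Set.indicator_of_mem (show y ∈ Prod.mk w ⁻¹' R from hy),
          F2]
      · simp only [Set.indicator_of_notMem hy,
          Set.indicator_of_notMem (show y ∉ Prod.mk w ⁻¹' R from hy)]
    rw [h2] at h1
    have h3 : 1 / J ≤ (ker ν Z w).real (Prod.mk w ⁻¹' R) := hw
    have h4 : e w < ε := not_le.1 hwb
    have h5 : (M : ℝ) ^ 2 * e w ≤ 1 / (4 * J) := by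
      calc _ ≤ (M : ℝ) ^ 2 * ε := by gcongr
        _ = 1 / (4 * J) := by rw [hε]; field_simp
    have h6 : 1 / (2 * J) = 3 / 4 * (1 / J) - 1 / (4 * J) := by field_simp; ring
    linarith

end Crest.Agent.R40.A
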