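import Crest.Agent.R40.ALift0
import Crest.Agent.R40.APlus

/-! Row 40 A: lifting lemma, step B. -/

set_option autoImplicit false
open MeasureTheory ProbabilityTheory Filter Topology
open scoped ComplexConjugate

noncomputable section
namespace Crest.Agent.R40.A

variable {ν : Measure X} [IsProbabilityMeasure ν]

/-- Chebyshev's inequality for `n2`. -/
lemma aliftb_cheb {g : X → ℂ} (hg : BM g) {δ : ℝ} (hδ : 0 < δ) :
    ν.real {w | δ ≤ ‖g w‖} ≤ n2 ν g / δ ^ 2 := by
  obtain ⟨hm, C, hC⟩ := hg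
  have hi : Integrable (fun x => ‖g x‖ ^ 2) ν := by
    refine Integrable.of_bound (C := C ^ 2) (hm.norm.pow_const 2).aestronglyMeasurable
      (Eventually.of_forall fun x => ?_)
    rw [Real.norm_eq_abs, abs_of_nonneg (by positivity)]
    exact pow_le_pow_left₀ (norm_nonneg _) (hC x) 2
  have h := mul_meas_ge_le_integral_of_nonneg (μ := ν) (f := fun x => ‖g x‖ ^ 2)
    (Eventually.of_forall fun x => by positivity) hi (δ ^ 2)
  have hs : {w | δ ≤ ‖g w‖} = {w | δ ^ 2 ≤ ‖g w‖ ^ 2} := by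
    ext w
    simp only [Set.mem_ofPred_eq]
    exact (pow_le_pow_iff_left₀ hδ.le (norm_nonneg _) two_ne_zero).symm
  rw [hs, le_div_iff₀ (by positivity), mul_comm]
  exact h

/-- One almost periodic function: finitely many `Z`-measurable sets decide `φ (act u w)` up
to `θ`, off a small set. -/
lemma aliftb_one {Z : Fac} {φ : X → ℂ} (hφ : BM φ) (h : AP ν Z φ) {θ : ℝ} (hθ : 0 < θ) :
    ∃ (ι : Type) (_ : Fintype ι) (S : K → ι → Set X) (Bad : K → Set X),
      (∀ u i, MeasurableSet[Z.m] (S u i)) ∧ (∀ u, MeasurableSet (Bad u)) ∧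
      (∀ u, ν.real (Bad u) ≤ θ) ∧
      ∀ u u' w, w ∉ Bad u → w ∉ Bad u' → (∀ i, w ∈ S u i ↔ w ∈ S u' i) →
        ‖φ (act u w) - φ (act u' w)‖ ≤ θ := by
  obtain ⟨N, b, B, hb, hB, hu⟩ := h (θ * (θ / 3) ^ 2) (by positivity)
  choose a ha ha' hn using hu
  obtain ⟨hφm, C, hC⟩ := hφ
  set δ : ℝ := θ / (3 * (N * |B| + 1)) with hδ
  have hδ0 : 0 < δ := by positivity
  obtain ⟨T, -, hTf, hT⟩ := finite_cover_balls_of_compact (isCompact_closedBall (0 : ℂ) B)
    (half_pos hδ0)
  have hTfin : Fintype T := hTf.fintype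
  have ham : ∀ u l, Measurable (a u l) := fun u l => (ha u l).mono Z.le le_rfl
  have hbm : ∀ u, BM (fun x => φ (act u x) - ∑ l, a u l x * b l x) := fun u => by
    refine ⟨(hφm.comp (measurable_act u)).sub
      (Finset.measurable_sum _ fun l _ => (ham u l).mul (hb l)), C + N * (|B| * |B|), fun x => ?_⟩
    refine (norm_sub_le _ _).trans (add_le_add (hC _) ?_)
    refine (norm_sum_le _ _).trans ?_
    have : ∀ l ∈ (Finset.univ : Finset (Fin N)), ‖a u l x * b l x‖ ≤ |B| * |B| := fun l _ => by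
      rw [norm_mul]
      exact mul_le_mul ((ha' u l x).trans (le_abs_self B)) ((hB l x).trans (le_abs_self B))
        (norm_nonneg _) (abs_nonneg _)
    simpa using Finset.sum_le_card_nsmul _ _ _ this
  refine ⟨Fin N × T, inferInstance, fun u i => {w | a u i.1 w ∈ Metric.ball (i.2 : ℂ) (δ / 2)},
    fun u => {w | θ / 3 ≤ ‖φ (act u w) - ∑ l, a u l w * b l w‖}, fun u i => ?_, fun u => ?_,
    fun u => ?_, fun u u' w hw hw' hS => ?_⟩
  · exact ha u i.1 Metric.isOpen_ball.measurableSet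
  · exact measurableSet_le measurable_const (hbm u).1.norm
  · refine (aliftb_cheb (hbm u) (by positivity)).trans ?_
    rw [div_le_iff₀ (by positivity)]
    exact hn u
  · simp only [Set.mem_ofPred_eq, not_le] at hw hw' hS
    have hl : ∀ l, ‖a u l w - a u' l w‖ ≤ δ := fun l => by
      have h1 : a u l w ∈ Metric.closedBall (0 : ℂ) B := by simpa using ha' u l w
      obtain ⟨c, hc, h2⟩ := Set.mem_iUnion₂.1 (hT h1)
      have h3 := (hS (l, ⟨c, hc⟩)).1 h2
      rw [Metric.mem_ball] at h2 h3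
      have := dist_triangle_right (a u l w) (a u' l w) c
      rw [← dist_eq_norm]
      linarith
    have hsum : ‖∑ l, a u l w * b l w - ∑ l, a u' l w * b l w‖ ≤ θ / 3 := by
      rw [← Finset.sum_sub_distrib]
      refine (norm_sum_le _ _).trans ?_
      have : ∀ l ∈ (Finset.univ : Finset (Fin N)),
          ‖a u l w * b l w - a u' l w * b l w‖ ≤ δ * |B| := fun l _ => by
        rw [← sub_mul, norm_mul]
        exact mul_le_mul (hl l) ((hB l w).trans (le_abs_self B)) (norm_nonneg _) hδ0.le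
      have h2 : ∑ l, ‖a u l w * b l w - a u' l w * b l w‖ ≤ N * (δ * |B|) := by
        simpa using Finset.sum_le_card_nsmul _ _ _ this
      refine h2.trans ?_
      have h3 : δ * (N * |B| + 1) = θ / 3 := by
        rw [hδ]; field_simp
      nlinarith
    have e : φ (act u w) - φ (act u' w) = (φ (act u w) - ∑ l, a u l w * b l w) +
        (∑ l, a u l w * b l w - ∑ l, a u' l w * b l w) -
        (φ (act u' w) - ∑ l, a u' l w * b l w) := by ring
    rw [e]
    refine (norm_sub_le _ _).trans ?_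
    have := norm_add_le (φ (act u w) - ∑ l, a u l w * b l w)
      (∑ l, a u l w * b l w - ∑ l, a u' l w * b l w)
    linarith

/-- the monomials of the Fejér kernel -/
lemma aliftb_bm (z : E) (j k : ℕ) : BM fun y => conj (f z y) ^ j * f z y ^ k := by
  refine ⟨((Complex.continuous_conj.measurable.comp (measurable_f z)).pow_const j).mul
    ((measurable_f z).pow_const k), 1, fun y => ?_⟩
  simp [norm_f]

lemma aliftb_expand (ρ : Measure X) [IsProbabilityMeasure ρ] (M : ℕ) (z : E) (t : ℂ) :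
    (FG M ρ (f z) t : ℂ) = ∑ j ∈ Finset.range M, ∑ k ∈ Finset.range M,
      t ^ j * conj t ^ k / (M : ℂ) ^ 2 * ∫ y, conj (f z y) ^ j * f z y ^ k ∂ρ := by
  have hint : ∀ j k : ℕ, Integrable (fun y => t ^ j * conj t ^ k / (M : ℂ) ^ 2 *
      (conj (f z y) ^ j * f z y ^ k)) ρ := fun j k => by
    obtain ⟨hm, C, hC⟩ := aliftb_bm z j k
    exact (Integrable.of_bound hm.aestronglyMeasurable C (Eventually.of_forall hC)).const_mul _
  unfold FG
  rw [← integral_complex_ofReal]
  simp only [← integral_const_mul]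
  have h1 : ∀ j ∈ Finset.range M, ∑ k ∈ Finset.range M, ∫ y, t ^ j * conj t ^ k / (M : ℂ) ^ 2 *
      (conj (f z y) ^ j * f z y ^ k) ∂ρ = ∫ y, ∑ k ∈ Finset.range M,
        t ^ j * conj t ^ k / (M : ℂ) ^ 2 * (conj (f z y) ^ j * f z y ^ k) ∂ρ := fun j _ =>
    (integral_finsetSum _ fun k _ => hint j k).symm
  rw [Finset.sum_congr rfl h1, ← integral_finsetSum _ fun j _ =>
    integrable_finsetSum _ fun k _ => hint j k]
  refine integral_congr_ae (Eventually.of_forall fun y => ?_)
  simp only [Fej_expand]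
  refine Finset.sum_congr rfl fun j _ => Finset.sum_congr rfl fun k _ => ?_
  simp only [map_mul, Complex.conj_conj, mul_pow]
  ring

/-- `FG M (ker w) (f z) t = ∑_{j,k<M} t^j conj t^k cE (conj (f z)^j (f z)^k) w / M²`; the
`M²` functions `cE Z⁺ (conj (f r)^j (f r)^k)` are `AP` (`AP_of_meas`), `cE_act`; the colour of `u`
at `w` is the grid cell of the coefficient vector `a_{l,u}(w)`. -/
theorem liftB (hν : Good ν) (Z : Fac) (M : ℕ) (r : E) {θ : ℝ} (hθ : 0 < θ) :
    ∃ (Γ : ℕ) (col : K → X → Fin Γ) (Bad : K → Set X),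
      (∀ u c, MeasurableSet[Z.m] {w | col u w = c}) ∧ (∀ u, MeasurableSet (Bad u)) ∧
      (∀ u, ν.real (Bad u) ≤ θ) ∧
      ∀ u u' w, w ∉ Bad u → w ∉ Bad u' → col u w = col u' w → ∀ t : ℂ, ‖t‖ = 1 →
        |FG M (ker ν (plus ν Z) w) (f (kv u * r)) t -
          FG M (ker ν (plus ν Z) w) (f (kv u' * r)) t| ≤ θ := by
  classical
  set θ' : ℝ := θ / ((M : ℝ) ^ 2 + 1) with hθ'
  have hθ0 : 0 < θ' := by positivity
  have hMθ : (M : ℝ) ^ 2 * θ' ≤ θ := by
    have : ((M : ℝ) ^ 2 + 1) * θ' = θ := by rw [hθ']; field_simp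
    nlinarith
  set g : E → ℕ → ℕ → X → ℂ := fun z j k y => conj (f z y) ^ j * f z y ^ k with hg
  have hgb : ∀ z j k, BM (g z j k) := aliftb_bm
  have key : ∀ j k : ℕ, _ := fun j k =>
    aliftb_one (ν := ν) (Z := Z) (cE_bm (ν := ν) (plus ν Z) (hgb r j k))
      (AP_of_meas hν (cE_meas (plus ν Z) (hgb r j k).1) (cE_bm (plus ν Z) (hgb r j k)).2) hθ0
  choose ι fin S Bad hS hBad hBad' hmain using key
  let I : Type := Σ p : Fin M × Fin M, ι p.1 p.2
  have : Fintype I := inferInstance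
  let e := Fintype.equivFin (I → Bool)
  let Nul : ℕ → ℕ → K → Set X := fun j k u =>
    {w | cE ν (plus ν Z) (g (kv u * r) j k) w ≠ cE ν (plus ν Z) (g r j k) (act u w)}
  have hNm : ∀ j k u, MeasurableSet (Nul j k u) := fun j k u =>
    (measurableSet_eq_fun (cE_bm (plus ν Z) (hgb _ j k)).1
      ((cE_bm (plus ν Z) (hgb r j k)).1.comp (measurable_act u))).compl
  have hN0 : ∀ j k u, ν (Nul j k u) = 0 := fun j k u =>
    cE_act (plus ν Z) hν (hgb r j k) u
  refine ⟨_, fun u w => e fun i => decide (w ∈ S i.1.1 i.1.2 u i.2),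
    fun u => ⋃ p : Fin M × Fin M, (Bad p.1 p.2 u ∪ Nul p.1 p.2 u), fun u c => ?_, fun u => ?_,
    fun u => ?_, fun u u' w hw hw' hc t ht => ?_⟩
  · have : {w | e (fun i => decide (w ∈ S i.1.1 i.1.2 u i.2)) = c} =
        ⋂ i : I, {w | decide (w ∈ S i.1.1 i.1.2 u i.2) = e.symm c i} := by
      ext w
      simp only [Set.mem_ofPred_eq, Set.mem_iInter, ← Equiv.eq_symm_apply, funext_iff]
    rw [this]
    refine MeasurableSet.iInter fun i => ?_
    cases e.symm c i
    · have : {w | decide (w ∈ S i.1.1 i.1.2 u i.2) = false} = (S i.1.1 i.1.2 u i.2)ᶜ := by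
        ext w; simp
      rw [this]
      exact (hS _ _ u _).compl
    · have : {w | decide (w ∈ S i.1.1 i.1.2 u i.2) = true} = S i.1.1 i.1.2 u i.2 := by
        ext w; simp
      rw [this]
      exact hS _ _ u _
  · exact MeasurableSet.iUnion fun p => (hBad _ _ u).union (hNm _ _ u)
  · refine (measureReal_iUnion_fintype_le _).trans ?_
    have : ∀ p ∈ (Finset.univ : Finset (Fin M × Fin M)),
        ν.real (Bad p.1 p.2 u ∪ Nul p.1 p.2 u) ≤ θ' := fun p _ => by
      refine (measureReal_union_le _ _).trans ?_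
      have : ν.real (Nul p.1 p.2 u) = 0 := by simp [Measure.real, hN0]
      rw [this, add_zero]
      exact hBad' _ _ u
    have h2 := Finset.sum_le_card_nsmul _ _ _ this
    simp only [Finset.card_univ, Fintype.card_prod, Fintype.card_fin, nsmul_eq_mul,
      Nat.cast_mul] at h2
    nlinarith
  · simp only [Set.mem_iUnion, Set.mem_union, not_exists, not_or] at hw hw'
    have hc' := e.injective hc
    have hjk : ∀ j ∈ Finset.range M, ∀ k ∈ Finset.range M,
        ‖cE ν (plus ν Z) (g (kv u * r) j k) w - cE ν (plus ν Z) (g (kv u' * r) j k) w‖ ≤ θ' := by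
      intro j hj k hk
      rw [Finset.mem_range] at hj hk
      have h1 := hw (⟨j, hj⟩, ⟨k, hk⟩)
      have h2 := hw' (⟨j, hj⟩, ⟨k, hk⟩)
      have e1 : cE ν (plus ν Z) (g (kv u * r) j k) w = cE ν (plus ν Z) (g r j k) (act u w) :=
        not_not.1 h1.2
      have e2 : cE ν (plus ν Z) (g (kv u' * r) j k) w = cE ν (plus ν Z) (g r j k) (act u' w) :=
        not_not.1 h2.2
      rw [e1, e2]
      refine hmain j k u u' w h1.1 h2.1 fun i => ?_
      have := congrFun hc' ⟨(⟨j, hj⟩, ⟨k, hk⟩), i⟩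
      simpa using this
    rw [← Real.norm_eq_abs, ← Complex.norm_real, Complex.ofReal_sub, aliftb_expand,
      aliftb_expand, ← Finset.sum_sub_distrib]
    refine (norm_sum_le _ _).trans ?_
    have hrow : ∀ j ∈ Finset.range M,
        ‖∑ k ∈ Finset.range M, t ^ j * conj t ^ k / (M : ℂ) ^ 2 *
            ∫ y, conj (f (kv u * r) y) ^ j * f (kv u * r) y ^ k ∂(ker ν (plus ν Z) w) -
          ∑ k ∈ Finset.range M, t ^ j * conj t ^ k / (M : ℂ) ^ 2 *
            ∫ y, conj (f (kv u' * r) y) ^ j * f (kv u' * r) y ^ k ∂(ker ν (plus ν Z) w)‖ ≤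
          M * θ' := by
      intro j hj
      rw [← Finset.sum_sub_distrib]
      refine (norm_sum_le _ _).trans ?_
      have hM1 : (1 : ℝ) ≤ M := by
        have := Finset.mem_range.1 hj
        exact_mod_cast (by omega : 1 ≤ M)
      have : ∀ k ∈ Finset.range M, ‖t ^ j * conj t ^ k / (M : ℂ) ^ 2 *
            ∫ y, conj (f (kv u * r) y) ^ j * f (kv u * r) y ^ k ∂(ker ν (plus ν Z) w) -
          t ^ j * conj t ^ k / (M : ℂ) ^ 2 *
            ∫ y, conj (f (kv u' * r) y) ^ j * f (kv u' * r) y ^ k ∂(ker ν (plus ν Z) w)‖ ≤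
          θ' := fun k hk => by
        rw [← mul_sub, norm_mul]
        have h1 : ‖t ^ j * conj t ^ k / (M : ℂ) ^ 2‖ ≤ 1 := by
          simp only [norm_div, norm_mul, norm_pow, Complex.norm_conj, ht, one_pow,
            Complex.norm_natCast]
          rw [div_le_one (by positivity)]
          nlinarith
        calc _ ≤ 1 * θ' := mul_le_mul h1 (hjk j hj k hk) (norm_nonneg _) zero_le_one
          _ = θ' := one_mul _
      simpa using Finset.sum_le_card_nsmul _ _ _ this
    have h2 := Finset.sum_le_card_nsmul _ _ _ hrow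
    simp only [Finset.card_range, nsmul_eq_mul] at h2
    nlinarith

end Crest.Agent.R40.A
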