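import Crest.Agent.R40.ALift0

/-! Row 40 A: lifting lemma, counting pairs: the pointwise inequality. -/

set_option autoImplicit false
open scoped ComplexConjugate

noncomputable section
namespace Crest.Agent.R40.A

variable {ι Γ : Type} [Fintype ι] [Fintype Γ] [DecidableEq Γ]

/-- mass of a colour class -/
def apairs_s (w : ι → ℝ) (κ : ι → Γ) (c : Γ) : ℝ := ∑ i, if κ i = c then w i else 0

/-- the weight of a pair -/
def apairs_b (w : ι → ℝ) (κ : ι → Γ) (i i' : ι) : ℝ :=
  if κ i = κ i' then (apairs_s w κ (κ i))⁻¹ else 0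

/-- the positive quadratic form -/
def apairs_S (w : ι → ℝ) (κ : ι → Γ) (v : ι → ℂ) : ℝ :=
  ∑ i, ∑ i', w i * w i' * ((apairs_b w κ i i' : ℂ) * (v i * conj (v i'))).re

lemma apairs_fib (κ : ι → Γ) (φ : Γ → ℝ) (x : ι → ℝ) :
    ∑ i, ∑ i', (if κ i = κ i' then φ (κ i) * (x i * x i') else 0) =
      ∑ c, φ c * (apairs_s x κ c * apairs_s x κ c) := by
  simp only [apairs_s, Finset.sum_mul_sum]
  simp only [Finset.mul_sum]
  rw [Finset.sum_comm (s := (Finset.univ : Finset Γ))]
  refine Finset.sum_congr rfl fun i _ => ?_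
  rw [Finset.sum_comm (s := (Finset.univ : Finset Γ))]
  refine Finset.sum_congr rfl fun i' _ => ?_
  rw [Finset.sum_eq_single (κ i) (fun c _ hc => by simp [hc.symm]) (by simp)]
  by_cases h : κ i = κ i'
  · simp [h]
  · simp [h, Ne.symm h]

lemma apairs_sum_s (w : ι → ℝ) (κ : ι → Γ) : ∑ c, apairs_s w κ c = ∑ i, w i := by
  unfold apairs_s
  rw [Finset.sum_comm]
  simp

omit [Fintype Γ] in
lemma apairs_s_nonneg {w : ι → ℝ} (hw : ∀ i, 0 ≤ w i) (κ : ι → Γ) (c : Γ) : 0 ≤ apairs_s w κ c :=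
  Finset.sum_nonneg fun i _ => by split_ifs; exacts [hw i, le_rfl]

omit [Fintype Γ] in
lemma apairs_b_nonneg {w : ι → ℝ} (hw : ∀ i, 0 ≤ w i) (κ : ι → Γ) (i i' : ι) :
    0 ≤ apairs_b w κ i i' := by
  unfold apairs_b
  split_ifs
  exacts [inv_nonneg.2 (apairs_s_nonneg hw κ _), le_rfl]

lemma apairs_one (w : ι → ℝ) (κ : ι → Γ) : apairs_S w κ (fun _ => 1) = ∑ i, w i := by
  rw [← apairs_sum_s w κ, ← Finset.sum_congr rfl fun c _ => inv_mul_mul_self (apairs_s w κ c)]
  simp only [mul_assoc]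
  rw [← apairs_fib]
  refine Finset.sum_congr rfl fun i _ => Finset.sum_congr rfl fun i' _ => ?_
  simp only [map_one, mul_one, Complex.ofReal_re, apairs_b]
  split_ifs <;> ring

lemma apairs_sq (w : ι → ℝ) (κ : ι → Γ) :
    ∑ i, ∑ i', w i * w i' * apairs_b w κ i i' ^ 2 ≤ Fintype.card Γ := by
  calc _ = ∑ c, (apairs_s w κ c)⁻¹ ^ 2 * (apairs_s w κ c * apairs_s w κ c) := by
        rw [← apairs_fib κ fun c => (apairs_s w κ c)⁻¹ ^ 2]
        refine Finset.sum_congr rfl fun i _ => Finset.sum_congr rfl fun i' _ => ?_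
        unfold apairs_b
        split_ifs <;> ring
    _ ≤ ∑ _c : Γ, (1 : ℝ) := Finset.sum_le_sum fun c _ => by
        rcases eq_or_ne (apairs_s w κ c) 0 with h | h
        · simp [h]
        · exact le_of_eq (by field_simp)
    _ = _ := by simp

lemma apairs_S_nonneg {w : ι → ℝ} (hw : ∀ i, 0 ≤ w i) (κ : ι → Γ) (v : ι → ℂ) :
    0 ≤ apairs_S w κ v := by
  have h : ∀ x : ι → ℝ, 0 ≤ ∑ i, ∑ i',
      (if κ i = κ i' then (apairs_s w κ (κ i))⁻¹ * (x i * x i') else 0) := fun x => by
    rw [apairs_fib κ fun c => (apairs_s w κ c)⁻¹]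
    exact Finset.sum_nonneg fun c _ =>
      mul_nonneg (inv_nonneg.2 (apairs_s_nonneg hw κ c)) (mul_self_nonneg _)
  refine (add_nonneg (h fun i => w i * (v i).re) (h fun i => w i * (v i).im)).trans_eq ?_
  simp only [apairs_S, ← Finset.sum_add_distrib]
  refine Finset.sum_congr rfl fun i _ => Finset.sum_congr rfl fun i' _ => ?_
  rw [Complex.re_ofReal_mul]
  simp only [Complex.mul_re, Complex.conj_re, Complex.conj_im, apairs_b]
  split_ifs <;> ring

lemma apairs_re {t : ℂ} (ht : ‖t‖ = 1) (j k : ℕ) :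
    (t ^ j * conj t ^ k).re = (t ^ j.dist k).re := by
  have h1 : t * conj t = 1 := by rw [Complex.mul_conj, Complex.normSq_eq_norm_sq, ht]; simp
  rcases le_total k j with h | h
  · obtain ⟨e, rfl⟩ := Nat.exists_eq_add_of_le h
    rw [Nat.dist_eq_sub_of_le_right h, Nat.add_sub_cancel_left, pow_add, mul_right_comm, ← mul_pow,
      h1, one_pow, one_mul]
  · obtain ⟨e, rfl⟩ := Nat.exists_eq_add_of_le h
    rw [Nat.dist_eq_sub_of_le h, Nat.add_sub_cancel_left, pow_add, ← mul_assoc, ← mul_pow,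
      h1, one_pow, one_mul, ← map_pow, Complex.conj_re]

lemma apairs_Fej (M : ℕ) {t : ℂ} (ht : ‖t‖ = 1) : Fej M t =
    ∑ jk ∈ Finset.range M ×ˢ Finset.range M, (t ^ jk.1.dist jk.2).re / (M : ℝ) ^ 2 := by
  have h := congrArg Complex.re (Fej_expand M t)
  rw [Complex.ofReal_re] at h
  rw [h, Finset.sum_product, Complex.re_sum]
  refine Finset.sum_congr rfl fun j _ => ?_
  rw [Complex.re_sum]
  refine Finset.sum_congr rfl fun k _ => ?_
  rw [← Complex.ofReal_natCast, ← Complex.ofReal_pow, Complex.div_ofReal_re, apairs_re ht]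

lemma apairs_low {w : ι → ℝ} (hw : ∀ i, 0 ≤ w i) (hw1 : ∑ i, w i = 1) (κ : ι → Γ) {L M : ℕ}
    (hL : 0 < L) (hM : 0 < M) {η : ℝ} (hη : (M : ℝ) * η ≤ 1 / 2) {u : ι → ℂ} (hu : ∀ i, ‖u i‖ = 1)
    (G : ι → Prop) [DecidablePred G] (lab : ι → Fin L)
    (h : ∀ i i', G i → G i' → κ i = κ i' → lab i = lab i' → ‖u i - u i'‖ ≤ η) :
    (2 * (∑ i, if G i then w i else 0) - 1) / (2 * L) ≤
      ∑ i, ∑ i', w i * w i' * apairs_b w κ i i' * Fej M (u i * conj (u i')) := by
  have hL' : (0 : ℝ) < L := Nat.cast_pos.2 hL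
  set x : ι → ℝ := fun i => if G i then w i else 0 with hx
  have hx0 : ∀ i, 0 ≤ x i := fun i => by simp only [hx]; split_ifs; exacts [hw i, le_rfl]
  have h1 := apairs_fib (fun i => (κ i, lab i)) (fun c => (apairs_s w κ c.1)⁻¹ / 2) x
  refine le_trans (le_trans ?_ h1.ge)
    (Finset.sum_le_sum fun i _ => Finset.sum_le_sum fun i' _ => ?_)
  · have h2 : ∀ c : Γ × Fin L, (2 * apairs_s x (fun i => (κ i, lab i)) c - apairs_s w κ c.1 / L) /
        (2 * L) ≤ (apairs_s w κ c.1)⁻¹ / 2 *
          (apairs_s x (fun i => (κ i, lab i)) c * apairs_s x (fun i => (κ i, lab i)) c) := by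
      intro c
      have a1 : apairs_s x (fun i => (κ i, lab i)) c ≤ apairs_s w κ c.1 :=
        Finset.sum_le_sum fun i _ => by
          by_cases hc : (κ i, lab i) = c
          · rw [if_pos hc, if_pos (congrArg Prod.fst hc)]
            simp only [hx]
            split_ifs
            exacts [le_rfl, hw i]
          · rw [if_neg hc]
            split_ifs
            exacts [hw i, le_rfl]
      have a2 := apairs_s_nonneg hx0 (fun i => (κ i, lab i)) c
      generalize apairs_s x (fun i => (κ i, lab i)) c = A at *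
      generalize apairs_s w κ c.1 = s at *
      rcases (a2.trans a1).eq_or_lt with rfl | hs
      · obtain rfl := le_antisymm a1 a2
        simp
      · rw [← sub_nonneg]
        have : s⁻¹ / 2 * (A * A) - (2 * A - s / L) / (2 * L) = (A - s / L) ^ 2 / (2 * s) := by
          field_simp
          ring
        rw [this]
        positivity
    refine le_trans (le_of_eq ?_) (Finset.sum_le_sum fun c _ => h2 c)
    rw [← Finset.sum_div, Finset.sum_sub_distrib, ← Finset.mul_sum, apairs_sum_s, ← Finset.sum_div,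
      Fintype.sum_prod_type]
    simp only [Finset.sum_const, Finset.card_univ, Fintype.card_fin, nsmul_eq_mul, ← Finset.mul_sum,
      apairs_sum_s, hw1]
    field_simp
  · have h0 : 0 ≤ w i * w i' * apairs_b w κ i i' :=
      mul_nonneg (mul_nonneg (hw i) (hw i')) (apairs_b_nonneg hw κ i i')
    have h0' := mul_nonneg h0 (Fej_nonneg M (u i * conj (u i')))
    split_ifs with hc
    · obtain ⟨hc1, hc2⟩ := Prod.mk.inj hc
      by_cases hG : G i ∧ G i'
      · have a1 : ‖u i * conj (u i')‖ = 1 := by rw [norm_mul, Complex.norm_conj, hu, hu, one_mul]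
        have a2 : ‖u i * conj (u i') - 1‖ ≤ η := by
          have a3 : u i * conj (u i') - 1 = (u i - u i') * conj (u i') := by
            rw [sub_mul, Complex.mul_conj (u i'), Complex.normSq_eq_norm_sq, hu]; simp
          rw [a3, norm_mul, Complex.norm_conj, hu, mul_one]
          exact h i i' hG.1 hG.2 hc1 hc2
        have a4 := Fej_lip M a1 norm_one
        rw [Fej_one hM] at a4
        have a5 := mul_le_mul_of_nonneg_left a2 (Nat.cast_nonneg (α := ℝ) M)
        have a6 : 1 / 2 ≤ Fej M (u i * conj (u i')) := by linarith [(abs_le.1 a4).1]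
        refine le_trans (le_of_eq ?_) (mul_le_mul_of_nonneg_left a6 h0)
        simp only [hx, if_pos hG.1, if_pos hG.2, apairs_b, if_pos hc1]
        ring
      · refine le_trans (le_of_eq ?_) h0'
        rcases not_and_or.1 hG with hG | hG <;> simp [hx, hG]
    · exact h0'

/-- The pointwise inequality. -/
lemma apairs_pt {w : ι → ℝ} (hw : ∀ i, 0 ≤ w i) (hw1 : ∑ i, w i = 1) (κ : ι → Γ) {L M : ℕ}
    (hL : 0 < L) (hM : 0 < M) {η : ℝ} (hη : (M : ℝ) * η ≤ 1 / 2) {u : ι → ℂ} (hu : ∀ i, ‖u i‖ = 1)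
    (G : ι → Prop) [DecidablePred G] (lab : ι → Fin L)
    (h : ∀ i i', G i → G i' → κ i = κ i' → lab i = lab i' → ‖u i - u i'‖ ≤ η) :
    (2 * (∑ i, if G i then w i else 0) - 1) / (2 * L) - 1 / M ≤
      (∑ jk ∈ Finset.range M ×ˢ Finset.range M,
        if jk.1 = jk.2 then 0 else apairs_S w κ fun i => u i ^ jk.1.dist jk.2) / (M : ℝ) ^ 2 := by
  have hM' : (0 : ℝ) < M := Nat.cast_pos.2 hM
  rw [sub_le_iff_le_add]
  refine (apairs_low hw hw1 κ hL hM hη hu G lab h).trans_eq ?_
  have h1 : (1 : ℝ) / M = (∑ jk ∈ Finset.range M ×ˢ Finset.range M,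
      if jk.1 = jk.2 then (1 : ℝ) else 0) / (M : ℝ) ^ 2 := by
    rw [Finset.sum_product, Finset.sum_congr rfl fun j hj => by
      rw [Finset.sum_ite_eq, if_pos hj]]
    simp only [Finset.sum_const, Finset.card_range, nsmul_eq_mul]
    field_simp
  rw [h1, ← add_div, ← Finset.sum_add_distrib]
  calc _ = ∑ jk ∈ Finset.range M ×ˢ Finset.range M,
        (apairs_S w κ fun i => u i ^ jk.1.dist jk.2) / (M : ℝ) ^ 2 := by
        simp only [apairs_S, Finset.sum_div]
        rw [Finset.sum_comm (s := Finset.range M ×ˢ Finset.range M)]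
        refine Finset.sum_congr rfl fun i _ => ?_
        rw [Finset.sum_comm (s := Finset.range M ×ˢ Finset.range M)]
        refine Finset.sum_congr rfl fun i' _ => ?_
        rw [apairs_Fej M (by rw [norm_mul, Complex.norm_conj, hu, hu, one_mul]), Finset.mul_sum]
        refine Finset.sum_congr rfl fun jk _ => ?_
        rw [Complex.re_ofReal_mul, mul_pow, map_pow]
        ring
    _ = _ := by
        rw [Finset.sum_div]
        refine Finset.sum_congr rfl fun jk _ => ?_
        split_ifs with e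
        · simp only [e, Nat.dist_self, pow_zero, apairs_one, hw1, zero_add]
        · rw [add_zero]

end Crest.Agent.R40.A
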