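import Crest.Agent.R40.ALift0
import Crest.Agent.R40.ARel
import Crest.Agent.R40.APairsX

/-! Row 40 A: lifting lemma, counting pairs. -/

set_option autoImplicit false
open MeasureTheory ProbabilityTheory Filter Topology
open scoped ComplexConjugate

noncomputable section
namespace Crest.Agent.R40.A

variable {ν : Measure X} [IsProbabilityMeasure ν]

lemma apairs_int {W : Type} [MeasurableSpace W] {μ : Measure W} [IsFiniteMeasure μ] {g : W → ℂ}
    (hg : BM g) : Integrable g μ :=
  let ⟨C, hC⟩ := hg.2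
  Integrable.of_bound hg.1.aestronglyMeasurable C (Eventually.of_forall hC)

lemma apairs_mul {W : Type} [MeasurableSpace W] {g h : W → ℂ} (hg : BM g) (hh : BM h) :
    BM fun x => g x * h x :=
  let ⟨C, hC⟩ := hg.2
  let ⟨D, hD⟩ := hh.2
  ⟨hg.1.mul hh.1, C * D, fun x => (norm_mul_le _ _).trans
    (mul_le_mul (hC x) (hD x) (norm_nonneg _) ((norm_nonneg _).trans (hC x)))⟩

lemma apairs_conj {W : Type} [MeasurableSpace W] {g : W → ℂ} (hg : BM g) :
    BM fun x => conj (g x) :=
  let ⟨C, hC⟩ := hg.2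
  ⟨Complex.continuous_conj.measurable.comp hg.1, C, fun x => (Complex.norm_conj _).trans_le (hC x)⟩

lemma apairs_pow {W : Type} [MeasurableSpace W] {g : W → ℂ} (hg : BM g) (m : ℕ) :
    BM fun x => g x ^ m :=
  let ⟨C, hC⟩ := hg.2
  ⟨hg.1.pow_const m, C ^ m, fun x =>
    (norm_pow _ _).trans_le (pow_le_pow_left₀ (norm_nonneg _) (hC x) m)⟩

lemma apairs_comp {W W' : Type} [MeasurableSpace W] [MeasurableSpace W'] {g : W → ℂ} (hg : BM g)
    {φ : W' → W} (hφ : Measurable φ) : BM fun x => g (φ x) :=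
  let ⟨C, hC⟩ := hg.2
  ⟨hg.1.comp hφ, C, fun _ => hC _⟩

lemma apairs_n2_eq {W : Type} [MeasurableSpace W] (μ : Measure W) (g : W → ℂ) :
    (n2 μ g : ℂ) = ∫ x, g x * conj (g x) ∂μ := by
  rw [n2, ← integral_complex_ofReal]
  simp only [Complex.mul_conj, Complex.normSq_eq_norm_sq]

omit [IsProbabilityMeasure ν] in
lemma apairs_f_pow (hν : Good ν) (z : E) (m : ℕ) :
    ∀ᵐ x ∂ν, f (((m + 1 : ℕ) : E) * z) x = f z x ^ (m + 1) := by
  induction m with
  | zero => simp
  | succ m ih =>
    filter_upwards [ih, (mult_f hν).mul (((m + 1 : ℕ) : E) * z) z] with x h1 h2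
    rw [pow_succ, ← h1, ← h2, Nat.cast_succ (m + 1), add_mul, one_mul]

section
variable (Z : Fac) {ι : Type} [Fintype ι] {Γ : ℕ} {κ : X → ι → Fin Γ} {h : ι → X → ℂ}

lemma apairs_n2 (w : ι → ℝ) (hh : ∀ i, BM (h i)) :
    n2 (lam ν Z) (fun x => ∑ i, w i • (h i x.1 * conj (h i x.2))) =
      ∑ i, ∑ i', w i * w i' * n2 ν (cE ν Z fun x => h i x * conj (h i' x)) := by
  have hg : ∀ i i', BM fun x => h i x * conj (h i' x) := fun i i' =>
    apairs_mul (hh i) (apairs_conj (hh i'))
  have hi : ∀ i i', Integrable (fun x : X × X => ((w i : ℂ) * w i') *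
      (h i x.1 * conj (h i' x.1) * conj (h i x.2 * conj (h i' x.2)))) (lam ν Z) := fun i i' =>
    (apairs_int (apairs_mul (apairs_comp (hg i i') measurable_fst)
      (apairs_comp (apairs_conj (hg i i')) measurable_snd))).const_mul _
  apply Complex.ofReal_injective
  push_cast
  rw [apairs_n2_eq]
  calc _ = ∫ x, ∑ i, ∑ i', ((w i : ℂ) * w i') *
        (h i x.1 * conj (h i' x.1) * conj (h i x.2 * conj (h i' x.2))) ∂(lam ν Z) := by
        refine integral_congr_ae (Eventually.of_forall fun x => ?_)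
        simp only [map_sum, Finset.sum_mul_sum, Complex.real_smul, map_mul, Complex.conj_ofReal]
        exact Finset.sum_congr rfl fun i _ => Finset.sum_congr rfl fun i' _ => by ring
    _ = _ := by
        rw [integral_finsetSum _ fun i _ => integrable_finsetSum _ fun i' _ => hi i i']
        refine Finset.sum_congr rfl fun i _ => ?_
        rw [integral_finsetSum _ fun i' _ => hi i i']
        refine Finset.sum_congr rfl fun i' _ => ?_
        rw [integral_const_mul, integral_lam_mul Z (hg i i') (apairs_conj (hg i i')), apairs_n2_eq]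
        simp only [cE_conj]

lemma apairs_Z (hκ : Measurable[Z.m] κ) (F : (ι → Fin Γ) → ℂ) :
    Measurable[Z.m] (fun x => F (κ x)) ∧ BM fun x => F (κ x) := by
  have h1 : Measurable[Z.m] fun x => F (κ x) := (measurable_of_finite F).comp hκ
  obtain ⟨C, hC⟩ := (Set.finite_range fun c => ‖F c‖).bddAbove
  exact ⟨h1, h1.mono Z.le le_rfl, C, fun x => hC ⟨_, rfl⟩⟩

lemma apairs_int_S (w : ι → ℝ) (hκ : Measurable[Z.m] κ) (hh : ∀ i, BM (h i)) :
    Integrable (fun x => apairs_S w (κ x) fun i => h i x) ν ∧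
      ∫ x, apairs_S w (κ x) (fun i => h i x) ∂ν = ∑ i, ∑ i', w i * w i' * ∫ x,
        ((apairs_b w (κ x) i i' : ℂ) * cE ν Z (fun y => h i y * conj (h i' y)) x).re ∂ν := by
  have hg : ∀ i i', BM fun x => h i x * conj (h i' x) := fun i i' =>
    apairs_mul (hh i) (apairs_conj (hh i'))
  have hb := fun i i' => apairs_Z Z hκ fun c => (apairs_b w c i i' : ℂ)
  have h1 := fun i i' => apairs_int (μ := ν) (apairs_mul (hb i i').2 (hg i i'))
  have hi : ∀ i i', Integrable (fun x => w i * w i' *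
      ((apairs_b w (κ x) i i' : ℂ) * (h i x * conj (h i' x))).re) ν := fun i i' =>
    (h1 i i').re.const_mul _
  refine ⟨integrable_finsetSum _ fun i _ => integrable_finsetSum _ fun i' _ => hi i i', ?_⟩
  unfold apairs_S
  rw [integral_finsetSum _ fun i _ => integrable_finsetSum _ fun i' _ => hi i i']
  refine Finset.sum_congr rfl fun i _ => ?_
  rw [integral_finsetSum _ fun i' _ => hi i i']
  refine Finset.sum_congr rfl fun i' _ => ?_
  rw [integral_const_mul]
  congr 1
  have h2 := integral_re (h1 i i')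
  rw [← integral_mul_cE Z (hb i i').1 (hb i i').2.2 (hg i i'),
    ← integral_re (apairs_int (apairs_mul (hb i i').2 (cE_bm Z (hg i i'))))] at h2
  exact h2

lemma apairs_up {w : ι → ℝ} (hw : ∀ i, 0 ≤ w i) (hκ : Measurable[Z.m] κ) (hh : ∀ i, BM (h i))
    (hΓ : 0 < Γ) {T : ℝ} (hT : 0 < T) (h1 : T ≤ ∫ x, apairs_S w (κ x) (fun i => h i x) ∂ν) :
    T ^ 2 / Γ ≤ n2 (lam ν Z) fun x => ∑ i, w i • (h i x.1 * conj (h i x.2)) := by
  have hΓ' : (0 : ℝ) < Γ := Nat.cast_pos.2 hΓ
  have hg : ∀ i i', BM (cE ν Z fun x => h i x * conj (h i' x)) := fun i i' =>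
    cE_bm Z (apairs_mul (hh i) (apairs_conj (hh i')))
  have hb := fun i i' => (apairs_Z Z hκ fun c => (apairs_b w c i i' : ℂ)).2
  have i1 : ∀ i i', Integrable (fun x => apairs_b w (κ x) i i' ^ 2) ν := fun i i' =>
    (apairs_int (apairs_Z Z hκ fun c => ((apairs_b w c i i' ^ 2 : ℝ) : ℂ)).2).re
  have i2 : ∀ i i', Integrable (fun x => ‖cE ν Z (fun y => h i y * conj (h i' y)) x‖ ^ 2) ν :=
    fun i i' => by simpa only [norm_pow] using (apairs_int (apairs_pow (hg i i') 2)).norm
  set l := T / Γ with hl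
  have hl0 : 0 < l := by positivity
  have h2 : ∀ i i', ∫ x, ((apairs_b w (κ x) i i' : ℂ) *
      cE ν Z (fun y => h i y * conj (h i' y)) x).re ∂ν ≤
      l / 2 * ∫ x, apairs_b w (κ x) i i' ^ 2 ∂ν +
        1 / (2 * l) * n2 ν (cE ν Z fun y => h i y * conj (h i' y)) := fun i i' => by
    rw [n2, ← integral_const_mul, ← integral_const_mul,
      ← integral_add ((i1 i i').const_mul _) ((i2 i i').const_mul _)]
    refine integral_mono (apairs_int (apairs_mul (hb i i') (hg i i'))).re
      (((i1 i i').const_mul _).add ((i2 i i').const_mul _)) fun x => ?_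
    refine (Complex.re_le_norm _).trans ?_
    rw [norm_mul, Complex.norm_real, Real.norm_of_nonneg (apairs_b_nonneg hw _ _ _), ← sub_nonneg]
    generalize apairs_b w (κ x) i i' = b
    generalize ‖cE ν Z (fun y => h i y * conj (h i' y)) x‖ = c
    have : l / 2 * b ^ 2 + 1 / (2 * l) * c ^ 2 - b * c = (l * b - c) ^ 2 / (2 * l) := by
      field_simp
      ring
    rw [this]
    positivity
  have h3 : ∑ i, ∑ i', w i * w i' * ∫ x, apairs_b w (κ x) i i' ^ 2 ∂ν ≤ Γ := by
    have i3 := fun i i' => (i1 i i').const_mul (w i * w i')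
    simp only [← integral_const_mul]
    rw [Finset.sum_congr rfl fun i _ => (integral_finsetSum _ fun i' _ => i3 i i').symm,
      ← integral_finsetSum _ fun i _ => integrable_finsetSum _ fun i' _ => i3 i i']
    refine (integral_mono (integrable_finsetSum _ fun i _ => integrable_finsetSum _ fun i' _ =>
      i3 i i') (integrable_const (Γ : ℝ)) fun x => ?_).trans_eq (by simp)
    simpa only [Fintype.card_fin] using apairs_sq w (κ x)
  rw [(apairs_int_S Z w hκ hh).2] at h1
  have h4 := h1.trans (Finset.sum_le_sum fun i _ => Finset.sum_le_sum fun i' _ =>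
    mul_le_mul_of_nonneg_left (h2 i i') (mul_nonneg (hw i) (hw i')))
  simp only [mul_add, Finset.sum_add_distrib, mul_left_comm _ (l / 2),
    mul_left_comm _ (1 / (2 * l)), ← Finset.mul_sum] at h4
  rw [apairs_n2 Z w hh]
  have h5 := mul_le_mul_of_nonneg_left h3 (half_pos hl0).le
  have h6 : l / 2 * Γ = T / 2 := by rw [hl]; field_simp
  have h7 : T ^ 2 / Γ = 2 * l * (T / 2) := by rw [hl]; ring
  rw [h7, ← le_div_iff₀' (by positivity), div_eq_inv_mul _ (2 * l), ← one_div]
  linarith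

end

/-- Integrate `1_{W0} ∑ wᵢ wᵢ' [colᵢ = colᵢ'] / s_{colᵢ} · (Fej M' (f xᵢ conj f xᵢ') - 1/M')`:
it is `≥ β/(8L)`; move to `lam` (the weight is `Z`-measurable), Cauchy–Schwarz gives the factor
`√Γ`, and the off-diagonal Fejér coefficients sum to `≤ 1`. -/
theorem pairs (hν : Good ν) (Z : Fac) (p : FP E) {W0 : Set X} (hW : MeasurableSet W0)
    (hβ : 0 < ν.real W0) {Γ L M' : ℕ} (hL : 0 < L) (hM' : 8 * L ≤ M') {η : ℝ}
    (hη : (M' : ℝ) * η ≤ 1 / 2) (col : p.ι → X → Fin Γ)
    (hcol : ∀ i c, MeasurableSet[Z.m] {w | col i w = c}) (Gd : p.ι → Set X)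
    (hGd : ∀ i, MeasurableSet (Gd i)) (hGd' : ∀ i, ν.real (W0 \ Gd i) ≤ ν.real W0 / 4)
    (hlab : ∀ w ∈ W0, ∃ lab : p.ι → Fin L, ∀ i i', w ∈ Gd i → w ∈ Gd i' → col i w = col i' w →
      lab i = lab i' → ‖f (p.x i) w - f (p.x i') w‖ ≤ η) :
    ∃ k : ℕ, 0 < k ∧ k < M' ∧ (ν.real W0) ^ 2 / (64 * (L : ℝ) ^ 2 * Γ) ≤
      n2 (lam ν Z) (fun w => p.av fun z => F2 ((k : E) * z) w) := by
  classical
  have hM : 0 < M' := by omega
  have hL' : (0 : ℝ) < L := Nat.cast_pos.2 hL
  have hMr : (0 : ℝ) < M' := Nat.cast_pos.2 hM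
  have hκ : Measurable[Z.m] fun (x : X) (i : p.ι) => col i x :=
    @measurable_pi_lambda X _ _ Z.m _ _ fun i => @measurable_to_countable' _ X _ _ Z.m _ (hcol i)
  set Φ : ℕ → X → ℝ := fun m x => apairs_S p.w (fun i => col i x) fun i => f (p.x i) x ^ m with hΦ
  have hΦi : ∀ m, Integrable (Φ m) ν := fun m =>
    (apairs_int_S Z p.w hκ fun i => apairs_pow (bm_f (p.x i)) m).1
  have hΦ0 : ∀ m x, 0 ≤ Φ m x := fun m x => apairs_S_nonneg p.nonneg _ _
  have hterm : ∀ jk : ℕ × ℕ,
      Integrable (fun x => if jk.1 = jk.2 then 0 else Φ (jk.1.dist jk.2) x) ν := fun jk => by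
    split_ifs
    exacts [integrable_zero _ _ _, hΦi _]
  have hind : ∀ i, Integrable (fun x => if x ∈ Gd i then p.w i else 0) (ν.restrict W0) := fun i =>
    (integrable_const (p.w i)).indicator (hGd i)
  have hG : ∀ i, p.w i * (3 / 4 * ν.real W0) ≤ ∫ x in W0, (if x ∈ Gd i then p.w i else 0) ∂ν := by
    intro i
    have h1 : ∫ x in W0, (if x ∈ Gd i then p.w i else 0) ∂ν = ν.real (Gd i ∩ W0) • p.w i := by
      rw [← measureReal_restrict_apply (hGd i)]
      exact integral_indicator_const _ (hGd i)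
    have h2 := measureReal_inter_add_sdiff (μ := ν) (s := W0) (hGd i)
    rw [h1, smul_eq_mul, mul_comm, Set.inter_comm]
    exact mul_le_mul_of_nonneg_right (by linarith [hGd' i]) (p.nonneg i)
  have hsum := integrable_finsetSum Finset.univ fun i _ => hind i
  have hA : Integrable (fun x => 2 * (∑ i, if x ∈ Gd i then p.w i else 0) - 1) (ν.restrict W0) :=
    (hsum.const_mul 2).sub (integrable_const 1)
  have h1 : ν.real W0 / (8 * L) ≤ ∫ x in W0,
      ((2 * (∑ i, if x ∈ Gd i then p.w i else 0) - 1) / (2 * L) - 1 / M' : ℝ) ∂ν := by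
    rw [integral_sub (hA.div_const _) (integrable_const _), integral_div,
      integral_sub (hsum.const_mul 2) (integrable_const 1),
      integral_const_mul, integral_finsetSum _ fun i _ => hind i]
    simp only [setIntegral_const, smul_eq_mul, mul_one]
    have h2 := Finset.sum_le_sum fun i (_ : i ∈ Finset.univ) => hG i
    rw [← Finset.sum_mul, p.sum_one, one_mul] at h2
    have h3 : ν.real W0 * (1 / M') ≤ ν.real W0 / (8 * L) := by
      rw [mul_one_div]
      exact div_le_div_of_nonneg_left hβ.le (by positivity) (by exact_mod_cast hM')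
    have h4 : ν.real W0 / (8 * L) + ν.real W0 / (8 * L) = ν.real W0 / 2 / (2 * L) := by
      field_simp
      norm_num
    have h5 := div_le_div_of_nonneg_right (c := 2 * (L : ℝ)) (by linarith : ν.real W0 / 2 ≤
      2 * (∑ i, ∫ x in W0, (if x ∈ Gd i then p.w i else 0) ∂ν) - ν.real W0) (by positivity)
    linarith
  have hI := (integrable_finsetSum (Finset.range M' ×ˢ Finset.range M')
    fun jk _ => hterm jk).div_const ((M' : ℝ) ^ 2)
  have h2 : ν.real W0 / (8 * L) ≤ (∑ jk ∈ Finset.range M' ×ˢ Finset.range M',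
      ∫ x, (if jk.1 = jk.2 then 0 else Φ (jk.1.dist jk.2) x) ∂ν) / (M' : ℝ) ^ 2 := by
    rw [← integral_finsetSum _ fun jk _ => hterm jk, ← integral_div]
    refine h1.trans ((setIntegral_mono_on ((hA.div_const _).sub
      (integrable_const _)) hI.integrableOn hW
      fun x hx => ?_).trans (setIntegral_le_integral hI (Eventually.of_forall fun x => ?_)))
    · obtain ⟨lab, h⟩ := hlab x hx
      exact apairs_pt p.nonneg p.sum_one _ hL hM hη (fun i => norm_f _ x) (fun i => x ∈ Gd i) lab h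
    · refine div_nonneg (Finset.sum_nonneg fun jk _ => ?_) (by positivity)
      split_ifs
      exacts [le_rfl, hΦ0 _ x]
  have hT : 0 < ν.real W0 / (8 * L) := by positivity
  obtain ⟨⟨j, k⟩, hjk, h3⟩ := Finset.exists_le_of_sum_le (s := Finset.range M' ×ˢ Finset.range M')
    (f := fun _ => ν.real W0 / (8 * L))
    (g := fun jk : ℕ × ℕ => ∫ x, (if jk.1 = jk.2 then 0 else Φ (jk.1.dist jk.2) x) ∂ν)
    ⟨(0, 0), by simp [hM]⟩ (by
      rw [le_div_iff₀ (by positivity)] at h2
      simpa only [Finset.sum_const, Finset.card_product, Finset.card_range, nsmul_eq_mul,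
        Nat.cast_mul, mul_comm, sq] using h2)
  have hne : j ≠ k := fun e => by
    simp only [e, if_true, integral_zero] at h3
    linarith
  simp only [if_neg hne] at h3
  simp only [Finset.mem_product, Finset.mem_range] at hjk
  obtain ⟨m, hm⟩ : ∃ m, j.dist k = m + 1 := ⟨j.dist k - 1, by unfold Nat.dist; omega⟩
  refine ⟨m + 1, m.succ_pos, by unfold Nat.dist at hm; omega, ?_⟩
  have h4 : ∫ x, Φ (j.dist k) x ∂ν = ∫ x, apairs_S p.w (fun i => col i x)
      (fun i => f (((m + 1 : ℕ) : E) * p.x i) x) ∂ν := by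
    refine integral_congr_ae ?_
    filter_upwards [ae_all_iff.2 fun i => apairs_f_pow hν (p.x i) m] with x hx
    simp only [hΦ, hm, hx]
  obtain ⟨x₀, -⟩ := nonempty_of_measureReal_ne_zero hβ.ne'
  obtain ⟨i₀, -⟩ := Finset.nonempty_of_sum_ne_zero (p.sum_one.trans_ne one_ne_zero)
  have h5 := apairs_up Z p.nonneg hκ (fun i => bm_f (((m + 1 : ℕ) : E) * p.x i)) (col i₀ x₀).pos hT
    (h3.trans_eq h4)
  refine le_of_eq_of_le ?_ h5
  field_simp
  norm_num

end Crest.Agent.R40.A
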