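import Crest.Agent.R40.ADefs

/-! Row 40 A: continuous vectors (minimal norm trick). -/

set_option autoImplicit false
open MeasureTheory ProbabilityTheory Filter Topology
open scoped ComplexConjugate

noncomputable section
namespace Crest.Agent.R40.A

/-- the finite averages of `T z ξ` over `sz z < ε` -/
def Hull {H : Type} [NormedAddCommGroup H] [NormedSpace ℂ H] (T : E → H →ₗᵢ[ℂ] H) (ξ : H)
    (ε : ℝ) : Set H :=
  {v | ∃ p : FP E, (∀ i, sz (p.x i) < ε) ∧ v = p.av fun z => T z ξ}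

section Hilbert
variable {H : Type} [NormedAddCommGroup H] [InnerProductSpace ℂ H] [CompleteSpace H]
  {T : E → H →ₗᵢ[ℂ] H}

omit [CompleteSpace H] in
theorem amin1_hull (ξ : H) (ε : ℝ) :
    Hull T ξ ε = convexHull ℝ ((fun z => T z ξ) '' {z | sz z < ε}) := by
  ext v
  rw [mem_convexHull_iff_exists_fintype]
  constructor
  · rintro ⟨p, hp, rfl⟩
    exact ⟨p.ι, inferInstance, p.w, fun i => T (p.x i) ξ, p.nonneg, p.sum_one,
      fun i => ⟨p.x i, hp i, rfl⟩, rfl⟩
  · rintro ⟨ι, _, w, z, h1, h2, h3, rfl⟩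
    choose x hx hx' using h3
    exact ⟨⟨ι, w, x, h1, h2⟩, hx, Finset.sum_congr rfl fun i _ => by rw [← hx' i]⟩

omit [CompleteSpace H] in
theorem amin1_sub {ξ : H} {ε : ℝ} {S : Set H} (hc : IsClosed S) (hv : Convex ℝ S)
    (h : ∀ z, sz z < ε → T z ξ ∈ S) : closure (Hull T ξ ε) ⊆ S := by
  refine closure_minimal ?_ hc
  rw [amin1_hull]
  exact convexHull_min (by rintro _ ⟨z, hz, rfl⟩; exact h z hz) hv

omit [CompleteSpace H] in
theorem amin1_mem {ξ : H} {ε : ℝ} {z : E} (hz : sz z < ε) : T z ξ ∈ Hull T ξ ε := by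
  rw [amin1_hull]
  exact subset_convexHull ℝ _ ⟨z, hz, rfl⟩

omit [CompleteSpace H] in
theorem amin1_convex (ξ : H) (ε : ℝ) : Convex ℝ (closure (Hull T ξ ε)) := by
  rw [amin1_hull]
  exact (convex_convexHull ℝ _).closure

omit [CompleteSpace H] in
theorem amin1_mono (ξ : H) {ε ε' : ℝ} (h : ε ≤ ε') : Hull T ξ ε ⊆ Hull T ξ ε' := by
  rintro v ⟨p, hp, rfl⟩
  exact ⟨p, fun i => (hp i).trans_le h, rfl⟩

theorem amin1_sz_add (x y : E) : sz (x + y) ≤ sz x + sz y := by
  simpa [sz] using norm_add_le (x : ℂ) (y : ℂ)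

/-- `ε ↦ dist (0, closure (Hull ε))` is antitone; at a continuity point `ε' < ε` the element of
minimal norm `ζ` satisfies `‖T z ζ - ζ‖² = 4‖ζ‖² - ‖ζ + T z ζ‖² ≤ 4 (n(ε')² - n(ε'+δ)²)`. -/
theorem mn (h0 : ∀ ξ, T 0 ξ = ξ) (hadd : ∀ x y ξ, T (x + y) ξ = T x (T y ξ)) (ξ : H) {ε : ℝ}
    (hε : 0 < ε) : ∃ ζ ∈ closure (Hull T ξ ε), Cont T ζ := by
  have hne : ∀ r, 0 < r → (Hull T ξ r).Nonempty := fun r hr =>
    ⟨_, amin1_mem (z := 0) (by simpa [sz] using hr)⟩
  set N : ℝ → ℝ := fun r => Metric.infDist 0 (Hull T ξ (max r (ε / 2))) with hN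
  have hanti : Antitone N := fun r r' h =>
    Metric.infDist_le_infDist_of_subset (amin1_mono ξ (max_le_max_right _ h))
      (hne _ (lt_max_of_lt_right (half_pos hε)))
  obtain ⟨r, hr, hr1, hr2⟩ :=
    (hanti.countable_not_continuousAt.dense_compl ℝ).exists_between (half_lt_self hε)
  have hcont : ContinuousAt N r := not_not.1 hr
  have hr0 : 0 < r := (half_pos hε).trans hr1
  obtain ⟨ζ, hζ, hmin⟩ : ∃ ζ ∈ closure (Hull T ξ r), ∀ w ∈ closure (Hull T ξ r), ‖ζ‖ ≤ ‖w‖ := by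
    let _ : InnerProductSpace ℝ H := InnerProductSpace.complexToReal
    obtain ⟨ζ, hζ, h⟩ := exists_norm_eq_iInf_of_complete_convex (hne r hr0).closure
      isClosed_closure.isComplete (amin1_convex ξ r) 0
    refine ⟨ζ, hζ, fun w hw => ?_⟩
    have h1 := ciInf_le (f := fun w : closure (Hull T ξ r) => ‖(0 : H) - w‖)
      ⟨0, by rintro _ ⟨w, rfl⟩; exact norm_nonneg _⟩ ⟨w, hw⟩
    rw [← h] at h1
    simpa using h1
  refine ⟨ζ, closure_mono (amin1_mono ξ hr2.le) hζ, fun η hη => ?_⟩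
  have hζN : ‖ζ‖ ≤ N r := by
    simp only [hN, max_eq_left hr1.le]
    exact (Metric.le_infDist (hne r hr0)).2 fun w hw => by
      simpa using hmin w (subset_closure hw)
  have hc2 : ContinuousAt (fun s => N s ^ 2) r := hcont.pow 2
  obtain ⟨δ, hδ, hδ'⟩ := Metric.continuousAt_iff.1 hc2 (η ^ 2 / 4) (by positivity)
  refine ⟨δ / 2, half_pos hδ, fun z hz => ?_⟩
  have h1 := hδ' (x := r + δ / 2) (by
    rw [Real.dist_eq, add_sub_cancel_left, abs_of_pos (half_pos hδ)]; exact half_lt_self hδ)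
  have h2 : ζ ∈ closure (Hull T ξ (r + δ / 2)) := closure_mono (amin1_mono ξ (by linarith)) hζ
  have h3 : T z ζ ∈ closure (Hull T ξ (r + δ / 2)) := by
    refine amin1_sub (S := T z ⁻¹' closure (Hull T ξ (r + δ / 2)))
      (isClosed_closure.preimage (T z).continuous)
      ((amin1_convex ξ _).linear_preimage ((T z).toLinearMap.restrictScalars ℝ))
      (fun y hy => subset_closure ?_) hζ
    rw [← hadd]
    exact amin1_mem (by linarith [amin1_sz_add z y])
  have h4 := amin1_convex ξ _ h3 h2 (a := 1 / 2) (b := 1 / 2) (by norm_num) (by norm_num)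
    (by norm_num)
  have h5 : N (r + δ / 2) ≤ ‖T z ζ + ζ‖ / 2 := by
    simp only [hN, max_eq_left (show ε / 2 ≤ r + δ / 2 by linarith)]
    rw [← Metric.infDist_closure]
    refine (Metric.infDist_le_dist_of_mem h4).trans (le_of_eq ?_)
    rw [dist_zero_left, ← smul_add, norm_smul, Real.norm_of_nonneg (by norm_num)]
    ring
  have h6 := parallelogram_law_with_norm ℂ (T z ζ) ζ
  rw [(T z).norm_map] at h6
  have h7 : 0 ≤ N (r + δ / 2) := Metric.infDist_nonneg
  have h8 := pow_le_pow_left₀ h7 h5 2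
  have h9 := pow_le_pow_left₀ (norm_nonneg _) hζN 2
  rw [Real.dist_eq, abs_lt] at h1
  exact le_of_sq_le_sq (by nlinarith [h1.1]) hη.le

/-- the continuous vectors -/
def amin1_C (T : E → H →ₗᵢ[ℂ] H) : Submodule ℂ H where
  carrier := {ζ | Cont T ζ}
  zero_mem' := fun η hη => ⟨1, one_pos, fun z _ => by simpa using hη.le⟩
  add_mem' := by
    intro a b ha hb η hη
    obtain ⟨δ, hδ, h⟩ := ha _ (half_pos hη)
    obtain ⟨δ', hδ', h'⟩ := hb _ (half_pos hη)
    refine ⟨min δ δ', lt_min hδ hδ', fun z hz => ?_⟩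
    rw [map_add, add_sub_add_comm]
    linarith [norm_add_le (T z a - a) (T z b - b), h z (hz.trans_le (min_le_left _ _)),
      h' z (hz.trans_le (min_le_right _ _))]
  smul_mem' := by
    intro c a ha η hη
    obtain ⟨δ, hδ, h⟩ := ha (η / (‖c‖ + 1)) (by positivity)
    refine ⟨δ, hδ, fun z hz => ?_⟩
    have h1 := h z hz
    rw [le_div_iff₀ (by positivity)] at h1
    rw [map_smul, ← smul_sub, norm_smul]
    nlinarith [norm_nonneg (T z a - a)]

omit [CompleteSpace H] in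
theorem amin1_closed : IsClosed (amin1_C T : Set H) := by
  refine isClosed_of_closure_subset fun ζ hζ η hη => ?_
  obtain ⟨a, ha, hd⟩ := Metric.mem_closure_iff.1 hζ (η / 3) (by positivity)
  obtain ⟨δ, hδ, h⟩ := ha (η / 3) (by positivity)
  refine ⟨δ, hδ, fun z hz => ?_⟩
  have e : T z ζ - ζ = T z (ζ - a) + (T z a - a) - (ζ - a) := by rw [map_sub]; abel
  rw [dist_eq_norm] at hd
  have h1 := norm_sub_le (T z (ζ - a) + (T z a - a)) (ζ - a)
  have h2 := norm_add_le (T z (ζ - a)) (T z a - a)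
  rw [(T z).norm_map] at h2
  rw [e]
  linarith [h z hz]

omit [CompleteSpace H] in
theorem amin1_inv (hadd : ∀ x y ξ, T (x + y) ξ = T x (T y ξ)) (x : E) {ζ : H}
    (h : ζ ∈ amin1_C T) : T x ζ ∈ amin1_C T := by
  intro η hη
  obtain ⟨δ, hδ, h⟩ := h η hη
  refine ⟨δ, hδ, fun z hz => ?_⟩
  rw [← hadd, add_comm, hadd, ← map_sub, (T x).norm_map]
  exact h z hz

omit [CompleteSpace H] in
theorem amin1_inv' (h0 : ∀ ξ, T 0 ξ = ξ) (hadd : ∀ x y ξ, T (x + y) ξ = T x (T y ξ)) (x : E) {ξ : H}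
    (h : ξ ∈ (amin1_C T)ᗮ) : T x ξ ∈ (amin1_C T)ᗮ := by
  intro ζ hζ
  have e : ζ = T x (T (-x) ζ) := by rw [← hadd, add_neg_cancel, h0]
  rw [e, LinearIsometry.inner_map_map]
  exact h _ (amin1_inv hadd _ hζ)

omit [CompleteSpace H] in
theorem amin1_Q (hadd : ∀ x y ξ, T (x + y) ξ = T x (T y ξ)) (ξ : H) (p : FP E) :
    Q (fun z => inner ℂ ξ (T z ξ)) p =
      inner ℂ (p.av fun z => T z ξ) (p.av fun z => T z ξ) := by
  simp only [Q, FP.av, inner_sum, sum_inner, RCLike.real_smul_eq_coe_smul (K := ℂ),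
    inner_smul_real_left, inner_smul_real_right, Finset.smul_sum]
  refine Finset.sum_congr rfl fun i _ => Finset.sum_congr rfl fun j _ => ?_
  rw [← (T (p.x j)).inner_map_map ξ, ← hadd, add_sub_cancel]

/-- the orthogonal projection onto the continuous vectors -/
theorem exists_proj (h0 : ∀ ξ, T 0 ξ = ξ) (hadd : ∀ x y ξ, T (x + y) ξ = T x (T y ξ)) :
    ∃ P : H →L[ℂ] H, (∀ ξ, Cont T (P ξ)) ∧ (∀ ξ, Cont T ξ → P ξ = ξ) ∧
      (∀ ξ ζ, Cont T ζ → inner ℂ ζ (ξ - P ξ) = 0) ∧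
      (∀ ξ, P ξ ∈ closure (Hull T ξ 1)) ∧
      (∀ ξ, Q0 fun z => inner ℂ (ξ - P ξ) (T z (ξ - P ξ))) := by
  have : CompleteSpace (amin1_C T) := amin1_closed.completeSpace_coe
  have hP : ∀ z ξ, (amin1_C T).starProjection (T z ξ) = T z ((amin1_C T).starProjection ξ) :=
    fun z ξ => Submodule.eq_starProjection_of_mem_orthogonal
      (amin1_inv hadd z ((amin1_C T).starProjection_apply_mem ξ)) (by
        rw [← map_sub]
        exact amin1_inv' h0 hadd z (Submodule.sub_starProjection_mem_orthogonal ξ))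
  refine ⟨(amin1_C T).starProjection, fun ξ => (amin1_C T).starProjection_apply_mem ξ,
    fun ξ h => Submodule.starProjection_eq_self_iff.2 h,
    fun ξ ζ h => Submodule.sub_starProjection_mem_orthogonal (K := amin1_C T) ξ ζ h,
    fun ξ => ?_, fun ξ ε hε η hη => ?_⟩
  · rw [← closure_closure, Metric.mem_closure_iff]
    intro η hη
    obtain ⟨δ, hδ, h⟩ := (amin1_C T).starProjection_apply_mem ξ _ (half_pos hη)
    obtain ⟨ζ, hζ, hc⟩ := mn h0 hadd ξ (lt_min hδ one_pos)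
    refine ⟨ζ, closure_mono (amin1_mono ξ (min_le_right _ _)) hζ, ?_⟩
    have h1 := amin1_sub (S := (amin1_C T).starProjection ⁻¹'
        Metric.closedBall ((amin1_C T).starProjection ξ) (η / 2))
      (Metric.isClosed_closedBall.preimage (amin1_C T).starProjection.continuous)
      ((convex_closedBall _ _).linear_preimage
        (((amin1_C T).starProjection : H →ₗ[ℂ] H).restrictScalars ℝ))
      (fun z hz => by
        rw [Set.mem_preimage, hP, mem_closedBall_iff_norm]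
        exact h z (hz.trans_le (min_le_left _ _))) hζ
    rw [Set.mem_preimage, (Submodule.starProjection_eq_self_iff (K := amin1_C T) (v := ζ)).2 hc,
      Metric.mem_closedBall'] at h1
    exact h1.trans_lt (half_lt_self hη)
  · obtain ⟨ζ, hζ, hc⟩ := mn h0 hadd (ξ - (amin1_C T).starProjection ξ) hε
    have h1 := amin1_sub (S := ((amin1_C T)ᗮ : Submodule ℂ H)) (amin1_C T).isClosed_orthogonal
      ((amin1_C T)ᗮ.restrictScalars ℝ).convex
      (fun z _ => amin1_inv' h0 hadd z (Submodule.sub_starProjection_mem_orthogonal ξ)) hζ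
    have h2 : ζ = 0 := inner_self_eq_zero.1 (h1 ζ hc)
    rw [h2] at hζ
    obtain ⟨v, ⟨p, hp, rfl⟩, hv⟩ := Metric.mem_closure_iff.1 hζ √η (Real.sqrt_pos.2 hη)
    refine ⟨p, hp, ?_⟩
    rw [dist_zero_left] at hv
    rw [amin1_Q hadd, inner_self_eq_norm_sq_to_K, norm_pow, RCLike.norm_ofReal, abs_norm]
    exact (pow_le_pow_left₀ (norm_nonneg _) hv.le 2).trans (Real.sq_sqrt hη.le).le

end Hilbert

end Crest.Agent.R40.A
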