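import Crest.Agent.R40.ARel1

/-! Row 40 A: the algebra `AP`. -/

set_option autoImplicit false
set_option linter.unusedSectionVars false
open MeasureTheory ProbabilityTheory Filter Topology
open scoped ComplexConjugate

noncomputable section
namespace Crest.Agent.R40.A

variable {ν : Measure X} [IsProbabilityMeasure ν] {Z : Fac}

lemma aplus1_bm_add {g h : X → ℂ} (hg : BM g) (hh : BM h) : BM fun x => g x + h x := by
  obtain ⟨h1, C, h2⟩ := hg
  obtain ⟨h3, D, h4⟩ := hh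
  exact ⟨h1.add h3, C + D, fun x => norm_add_le_of_le (h2 x) (h4 x)⟩

lemma aplus1_bm_sub {g h : X → ℂ} (hg : BM g) (hh : BM h) : BM fun x => g x - h x := by
  obtain ⟨h1, C, h2⟩ := hg
  obtain ⟨h3, D, h4⟩ := hh
  exact ⟨h1.sub h3, C + D, fun x => norm_sub_le_of_le (h2 x) (h4 x)⟩

lemma aplus1_bm_mul {g h : X → ℂ} (hg : BM g) (hh : BM h) : BM fun x => g x * h x := by
  obtain ⟨h1, C, h2⟩ := hg
  obtain ⟨h3, D, h4⟩ := hh
  exact ⟨h1.mul h3, C * D, fun x => norm_mul_le_of_le (h2 x) (h4 x)⟩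

lemma aplus1_bm_act {g : X → ℂ} (hg : BM g) (u : K) : BM fun x => g (act u x) := by
  obtain ⟨h1, C, h2⟩ := hg
  exact ⟨h1.comp (measurable_act u), C, fun x => h2 _⟩

lemma aplus1_sum_le {N : ℕ} {a b : Fin N → X → ℂ} {B : ℝ} (ha : ∀ l x, ‖a l x‖ ≤ B)
    (hb : ∀ l x, ‖b l x‖ ≤ B) (x : X) : ‖∑ l, a l x * b l x‖ ≤ N * (B * B) := by
  refine (norm_sum_le _ _).trans ((Finset.sum_le_card_nsmul _ _ (B * B) fun l _ =>
    norm_mul_le_of_le (ha l x) (hb l x)).trans ?_)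
  simp

lemma aplus1_bm_sum {N : ℕ} {a b : Fin N → X → ℂ} {B : ℝ} (ha : ∀ l, Measurable[Z.m] (a l))
    (ha' : ∀ l x, ‖a l x‖ ≤ B) (hb : ∀ l, Measurable (b l)) (hb' : ∀ l x, ‖b l x‖ ≤ B) :
    BM fun x => ∑ l, a l x * b l x :=
  ⟨Finset.measurable_sum _ fun l _ => ((ha l).mono Z.le le_rfl).mul (hb l), _,
    aplus1_sum_le ha' hb'⟩

lemma aplus1_int {g : X → ℂ} (hg : BM g) : Integrable (fun x => ‖g x‖ ^ 2) ν := by
  obtain ⟨h1, C, h2⟩ := hg
  refine Integrable.of_bound (h1.norm.pow_const 2).aestronglyMeasurable (C ^ 2)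
    (Eventually.of_forall fun x => ?_)
  rw [norm_pow, norm_norm]
  exact pow_le_pow_left₀ (norm_nonneg _) (h2 x) 2

lemma aplus1_n2_add {g h : X → ℂ} (hg : BM g) (hh : BM h) :
    n2 ν (fun x => g x + h x) ≤ 2 * n2 ν g + 2 * n2 ν h := by
  unfold n2
  rw [← integral_const_mul, ← integral_const_mul,
    ← integral_add ((aplus1_int hg).const_mul 2) ((aplus1_int hh).const_mul 2)]
  refine integral_mono_of_nonneg (Eventually.of_forall fun x => sq_nonneg _)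
    (((aplus1_int hg).const_mul 2).add ((aplus1_int hh).const_mul 2))
    (Eventually.of_forall fun x => ?_)
  have h1 := pow_le_pow_left₀ (norm_nonneg _) (norm_add_le (g x) (h x)) 2
  simp only
  nlinarith [sq_nonneg (‖g x‖ - ‖h x‖)]

lemma aplus1_n2_mul {g h : X → ℂ} (hg : BM g) {C : ℝ} (hh : ∀ x, ‖h x‖ ≤ C) :
    n2 ν (fun x => g x * h x) ≤ C ^ 2 * n2 ν g := by
  unfold n2
  rw [← integral_const_mul]
  refine integral_mono_of_nonneg (Eventually.of_forall fun x => sq_nonneg _)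
    ((aplus1_int hg).const_mul _) (Eventually.of_forall fun x => ?_)
  simp only
  rw [norm_mul, mul_pow, mul_comm]
  exact mul_le_mul_of_nonneg_right (pow_le_pow_left₀ (norm_nonneg _) (hh x) 2) (sq_nonneg _)

omit [IsProbabilityMeasure ν] in
lemma aplus1_n2_act (hν : Good ν) {g : X → ℂ} (hg : Measurable g) (u : K) :
    n2 ν (fun x => g (act u x)) = n2 ν g := by
  unfold n2
  rw [← integral_map (hν.mp u).aemeasurable (hg.norm.pow_const 2).aestronglyMeasurable,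
    (hν.mp u).map_eq]

omit [IsProbabilityMeasure ν] in
lemma aplus1_of_fintype {φ : X → ℂ} (h : ∀ ε > 0, ∃ (ι : Type) (_ : Fintype ι) (b : ι → X → ℂ)
    (B : ℝ), (∀ l, Measurable (b l)) ∧ (∀ l x, ‖b l x‖ ≤ B) ∧
    ∀ u : K, ∃ a : ι → X → ℂ, (∀ l, Measurable[Z.m] (a l)) ∧ (∀ l x, ‖a l x‖ ≤ B) ∧
      n2 ν (fun x => φ (act u x) - ∑ l, a l x * b l x) ≤ ε) : AP ν Z φ := by
  intro ε hε
  obtain ⟨ι, _, b, B, hb, hB, hu⟩ := h ε hε
  refine ⟨Fintype.card ι, fun l => b ((Fintype.equivFin ι).symm l), B, fun l => hb _,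
    fun l => hB _, fun u => ?_⟩
  obtain ⟨a, ha, ha', hn⟩ := hu u
  refine ⟨fun l => a ((Fintype.equivFin ι).symm l), fun l => ha _, fun l => ha' _, ?_⟩
  refine le_trans (le_of_eq ?_) hn
  congr 1
  funext x
  rw [Equiv.sum_comp (Fintype.equivFin ι).symm fun l => a l x * b l x]

lemma aplus1_div {c ε : ℝ} (hc : 0 ≤ c) (hε : 0 < ε) : c * (ε / (c + 1)) ≤ ε := by
  rw [← mul_div_assoc, div_le_iff₀ (by linarith)]
  nlinarith

lemma AP.congr (hν : Good ν) {φ φ' : X → ℂ} (h : AP ν Z φ) (he : φ =ᵐ[ν] φ') : AP ν Z φ' := by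
  intro ε hε
  obtain ⟨N, b, B, hb, hB, hu⟩ := h ε hε
  refine ⟨N, b, B, hb, hB, fun u => ?_⟩
  obtain ⟨a, ha, ha', hn⟩ := hu u
  refine ⟨a, ha, ha', le_trans (le_of_eq (integral_congr_ae ?_)) hn⟩
  filter_upwards [(hν.mp u).quasiMeasurePreserving.ae he] with x hx
  rw [hx]

lemma AP.add {φ φ' : X → ℂ} (hφ : BM φ) (hφ' : BM φ') (h : AP ν Z φ) (h' : AP ν Z φ') :
    AP ν Z (fun x => φ x + φ' x) := by
  refine aplus1_of_fintype fun ε hε => ?_
  obtain ⟨N, b, B, hb, hB, hu⟩ := h (ε / 4) (by positivity)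
  obtain ⟨N', b', B', hb', hB', hu'⟩ := h' (ε / 4) (by positivity)
  refine ⟨Fin N ⊕ Fin N', inferInstance, Sum.elim b b', max B B', ?_, ?_, fun u => ?_⟩
  · rintro (l | l)
    exacts [hb l, hb' l]
  · rintro (l | l) x
    exacts [(hB l x).trans (le_max_left _ _), (hB' l x).trans (le_max_right _ _)]
  obtain ⟨a, ha, ha1, hn⟩ := hu u
  obtain ⟨a', ha', ha1', hn'⟩ := hu' u
  refine ⟨Sum.elim a a', ?_, ?_, ?_⟩
  · rintro (l | l)
    exacts [ha l, ha' l]
  · rintro (l | l) x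
    exacts [(ha1 l x).trans (le_max_left _ _), (ha1' l x).trans (le_max_right _ _)]
  have h1 := aplus1_n2_add (ν := ν)
    (aplus1_bm_sub (aplus1_bm_act hφ u) (aplus1_bm_sum ha ha1 hb hB))
    (aplus1_bm_sub (aplus1_bm_act hφ' u) (aplus1_bm_sum ha' ha1' hb' hB'))
  refine le_trans (le_of_eq ?_) (h1.trans (by linarith))
  congr 1
  funext x
  simp only [Fintype.sum_sum_type, Sum.elim_inl, Sum.elim_inr]
  ring

lemma AP.const_mul {φ : X → ℂ} (c : ℂ) (h : AP ν Z φ) : AP ν Z (fun x => c * φ x) := by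
  intro ε hε
  obtain ⟨N, b, B, hb, hB, hu⟩ := h (ε / (‖c‖ ^ 2 + 1)) (by positivity)
  refine ⟨N, fun l x => c * b l x, max B (‖c‖ * B), fun l => (hb l).const_mul c,
    fun l x => (norm_mul_le_of_le le_rfl (hB l x)).trans (le_max_right _ _), fun u => ?_⟩
  obtain ⟨a, ha, ha', hn⟩ := hu u
  refine ⟨a, ha, fun l x => (ha' l x).trans (le_max_left _ _), ?_⟩
  refine le_trans (le_of_eq ?_) ((mul_le_mul_of_nonneg_left hn (sq_nonneg ‖c‖)).trans
    (aplus1_div (sq_nonneg _) hε))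
  unfold n2
  rw [← integral_const_mul]
  congr 1
  funext x
  rw [← mul_pow, ← norm_mul, mul_sub, Finset.mul_sum]
  simp only [mul_left_comm]

lemma AP.conj {φ : X → ℂ} (h : AP ν Z φ) : AP ν Z (fun x => conj (φ x)) := by
  intro ε hε
  obtain ⟨N, b, B, hb, hB, hu⟩ := h ε hε
  refine ⟨N, fun l x => conj (b l x), B, fun l => Complex.continuous_conj.measurable.comp (hb l),
    fun l x => by rw [Complex.norm_conj]; exact hB l x, fun u => ?_⟩
  obtain ⟨a, ha, ha', hn⟩ := hu u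
  refine ⟨fun l x => conj (a l x), fun l => Complex.continuous_conj.measurable.comp (ha l),
    fun l x => by rw [Complex.norm_conj]; exact ha' l x, le_trans (le_of_eq ?_) hn⟩
  unfold n2
  congr 1
  funext x
  rw [← Complex.norm_conj (φ _ - _), map_sub, map_sum]
  simp only [map_mul]

/-- choose the approximant of `φ'` first, then that of `φ` with error `ε / (N' B'²)²` -/
lemma AP.mul {φ φ' : X → ℂ} (hφ : BM φ) (hφ' : BM φ') (h : AP ν Z φ) (h' : AP ν Z φ') :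
    AP ν Z (fun x => φ x * φ' x) := by
  refine aplus1_of_fintype fun ε hε => ?_
  obtain ⟨C, hC⟩ := hφ.2
  obtain ⟨N', b', B', hb', hB', hu'⟩ := h' (ε / 4 / (C ^ 2 + 1)) (by positivity)
  obtain ⟨N, b, B, hb, hB, hu⟩ := h (ε / 4 / ((N' * (B' * B')) ^ 2 + 1)) (by positivity)
  refine ⟨Fin N × Fin N', inferInstance, fun l x => b l.1 x * b' l.2 x, B * B',
    fun l => (hb _).mul (hb' _), fun l x => norm_mul_le_of_le (hB _ x) (hB' _ x), fun u => ?_⟩
  obtain ⟨a, ha, ha1, hn⟩ := hu u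
  obtain ⟨a', ha', ha1', hn'⟩ := hu' u
  refine ⟨fun l x => a l.1 x * a' l.2 x, fun l => (ha _).mul (ha' _),
    fun l x => norm_mul_le_of_le (ha1 _ x) (ha1' _ x), ?_⟩
  have e1 := aplus1_bm_sub (aplus1_bm_act hφ u) (aplus1_bm_sum ha ha1 hb hB)
  have e2 := aplus1_bm_sub (aplus1_bm_act hφ' u) (aplus1_bm_sum ha' ha1' hb' hB')
  have h1 := aplus1_n2_add (ν := ν) (aplus1_bm_mul e1 (aplus1_bm_sum ha' ha1' hb' hB'))
    (aplus1_bm_mul e2 (aplus1_bm_act hφ u))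
  have h2 := (aplus1_n2_mul (ν := ν) e1 (aplus1_sum_le ha1' hB')).trans
    ((mul_le_mul_of_nonneg_left hn (sq_nonneg _)).trans (aplus1_div (sq_nonneg _) (by positivity)))
  have h3 := (aplus1_n2_mul (ν := ν) e2 fun x => hC (act u x)).trans
    ((mul_le_mul_of_nonneg_left hn' (sq_nonneg _)).trans (aplus1_div (sq_nonneg _) (by positivity)))
  refine le_trans (le_of_eq ?_) (h1.trans (by linarith))
  congr 1
  funext x
  have h4 : ∑ l : Fin N × Fin N', a l.1 x * a' l.2 x * (b l.1 x * b' l.2 x) =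
      (∑ l, a l x * b l x) * ∑ l, a' l x * b' l x := by
    rw [Finset.sum_mul_sum, Fintype.sum_prod_type]
    simp only [mul_mul_mul_comm]
  rw [h4]
  ring

lemma AP.closed (hν : Good ν) {φ : X → ℂ} (hφ : BM φ)
    (h : ∀ ε > 0, ∃ φ', BM φ' ∧ AP ν Z φ' ∧ n2 ν (fun x => φ x - φ' x) ≤ ε) : AP ν Z φ := by
  intro ε hε
  obtain ⟨φ', hφ', h', hn'⟩ := h (ε / 4) (by positivity)
  obtain ⟨N, b, B, hb, hB, hu⟩ := h' (ε / 4) (by positivity)
  refine ⟨N, b, B, hb, hB, fun u => ?_⟩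
  obtain ⟨a, ha, ha1, hn⟩ := hu u
  refine ⟨a, ha, ha1, ?_⟩
  have e1 := aplus1_bm_sub hφ hφ'
  have h1 := aplus1_n2_add (ν := ν) (aplus1_bm_act e1 u)
    (aplus1_bm_sub (aplus1_bm_act hφ' u) (aplus1_bm_sum ha ha1 hb hB))
  rw [aplus1_n2_act hν e1.1] at h1
  refine le_trans (le_of_eq ?_) (h1.trans (by linarith))
  congr 1
  funext x
  ring

lemma AP_of_meas_base {φ : X → ℂ} (hφ : Measurable[Z.m] φ) (hb : ∃ C : ℝ, ∀ x, ‖φ x‖ ≤ C) :
    AP ν Z φ := by
  intro ε hε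
  obtain ⟨C, hC⟩ := hb
  refine ⟨1, fun _ _ => 1, max C 1, fun _ => measurable_const, fun _ _ => by simp, fun u =>
    ⟨fun _ x => φ (act u x), fun _ => hφ.comp (Z.inv u),
      fun _ x => (hC _).trans (le_max_left _ _), ?_⟩⟩
  simpa [n2] using hε.le

lemma AP_of_inv {k : X → ℂ} (hk : BM k) (hinv : Inv ν act k) : AP ν Z k := by
  intro ε hε
  obtain ⟨C, hC⟩ := hk.2
  refine ⟨1, fun _ => k, max C 1, fun _ => hk.1, fun _ x => (hC _).trans (le_max_left _ _),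
    fun u => ⟨fun _ _ => 1, fun _ => measurable_const, fun _ _ => by simp, ?_⟩⟩
  refine le_trans (le_of_eq (integral_eq_zero_of_ae ?_)) hε.le
  filter_upwards [hinv u] with x hx
  simp [hx]

end Crest.Agent.R40.A
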