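import Crest.Agent.R40.APlus1

/-! Row 40 A: `AP` and `plus`-measurability. -/

set_option autoImplicit false
open MeasureTheory ProbabilityTheory Filter Topology
open scoped ComplexConjugate

noncomputable section
namespace Crest.Agent.R40.A

variable {ν : Measure X} [IsProbabilityMeasure ν] {Z : Fac}

lemma aplus2_const (c : ℂ) : AP ν Z (fun _ => c) :=
  AP_of_meas_base measurable_const ⟨‖c‖, fun _ => le_rfl⟩

lemma aplus2_BM_add {φ φ' : X → ℂ} (h : BM φ) (h' : BM φ') : BM fun x => φ x + φ' x := by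
  obtain ⟨hm, C, hC⟩ := h
  obtain ⟨hm', C', hC'⟩ := h'
  exact ⟨hm.add hm', C + C', fun x => (norm_add_le _ _).trans (add_le_add (hC x) (hC' x))⟩

lemma aplus2_BM_mul {φ φ' : X → ℂ} (h : BM φ) (h' : BM φ') : BM fun x => φ x * φ' x := by
  obtain ⟨hm, C, hC⟩ := h
  obtain ⟨hm', C', hC'⟩ := h'
  refine ⟨hm.mul hm', C * C', fun x => ?_⟩
  rw [norm_mul]
  exact mul_le_mul (hC x) (hC' x) (norm_nonneg _) ((norm_nonneg _).trans (hC x))

lemma aplus2_BM_const (c : ℂ) : BM fun _ : X => c := ⟨measurable_const, ‖c‖, fun _ => le_rfl⟩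

lemma aplus2_BM_ind {B : Set X} (hB : MeasurableSet B) : BM (B.indicator fun _ => (1 : ℂ)) :=
  ⟨measurable_const.indicator hB, 1, fun x => by
    by_cases hx : x ∈ B <;> simp [hx]⟩

/-- bounded pointwise limits -/
lemma aplus2_lim (hν : Good ν) {φ : X → ℂ} (hφ : Measurable φ) (g : ℕ → X → ℂ) (C : ℝ)
    (hm : ∀ n, Measurable (g n)) (hb : ∀ n x, ‖g n x‖ ≤ C) (hA : ∀ n, AP ν Z (g n))
    (hl : ∀ x, Tendsto (fun n => g n x) atTop (𝓝 (φ x))) : AP ν Z φ := by
  have hφb : ∀ x, ‖φ x‖ ≤ C := fun x => le_of_tendsto' (hl x).norm fun n => hb n x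
  refine AP.closed hν ⟨hφ, C, hφb⟩ fun ε hε => ?_
  have h1 : Tendsto (fun n => ∫ x, ‖φ x - g n x‖ ^ 2 ∂ν) atTop (𝓝 (∫ _ : X, (0 : ℝ) ∂ν)) := by
    refine tendsto_integral_of_dominated_convergence (fun _ => (C + C) ^ 2)
      (fun n => ((hφ.sub (hm n)).norm.pow_const 2).aestronglyMeasurable) (integrable_const _)
      (fun n => Eventually.of_forall fun x => ?_) (Eventually.of_forall fun x => ?_)
    · rw [norm_pow, norm_norm]
      exact pow_le_pow_left₀ (norm_nonneg _)
        ((norm_sub_le _ _).trans (add_le_add (hφb x) (hb n x))) 2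
    · have := (((tendsto_const_nhds (x := φ x)).sub (hl x)).norm).pow 2
      simpa using this
  rw [integral_zero] at h1
  obtain ⟨n, hn⟩ := (h1.eventually (ge_mem_nhds hε)).exists
  exact ⟨g n, ⟨hm n, C, hb n⟩, hA n, hn⟩

lemma aplus2_union {A B : Set X} (hA : MeasurableSet A ∧ AP ν Z (A.indicator fun _ => (1 : ℂ)))
    (hB : MeasurableSet B ∧ AP ν Z (B.indicator fun _ => (1 : ℂ))) :
    MeasurableSet (A ∪ B) ∧ AP ν Z ((A ∪ B).indicator fun _ => (1 : ℂ)) := by
  refine ⟨hA.1.union hB.1, ?_⟩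
  have a := aplus2_BM_ind hA.1
  have b := aplus2_BM_ind hB.1
  have h := AP.add (aplus2_BM_add a b) (aplus2_BM_mul (aplus2_BM_const (-1)) (aplus2_BM_mul a b))
    (AP.add a b hA.2 hB.2) ((AP.mul a b hA.2 hB.2).const_mul (-1))
  refine (congrArg (AP ν Z) (funext fun x => ?_)).mp h
  by_cases h1 : x ∈ A <;> by_cases h2 : x ∈ B <;> simp [h1, h2]

lemma aplus2_poly {g : X → ℝ} (hg : BM fun x => (g x : ℂ)) (h : AP ν Z fun x => (g x : ℂ))
    (p : Polynomial ℝ) :
    BM (fun x => ((p.eval (g x) : ℝ) : ℂ)) ∧ AP ν Z fun x => ((p.eval (g x) : ℝ) : ℂ) := by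
  have hpow : ∀ n : ℕ, BM (fun x => (g x : ℂ) ^ n) ∧ AP ν Z fun x => (g x : ℂ) ^ n := by
    intro n
    induction n with
    | zero => simp only [pow_zero]; exact ⟨aplus2_BM_const 1, aplus2_const 1⟩
    | succ n ih =>
      simp only [pow_succ]
      exact ⟨aplus2_BM_mul ih.1 hg, AP.mul ih.1 hg ih.2 h⟩
  induction p using Polynomial.induction_on' with
  | add p q hp hq =>
    simp only [Polynomial.eval_add, Complex.ofReal_add]
    exact ⟨aplus2_BM_add hp.1 hq.1, AP.add hp.1 hq.1 hp.2 hq.2⟩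
  | monomial n a =>
    simp only [Polynomial.eval_monomial, Complex.ofReal_mul, Complex.ofReal_pow]
    exact ⟨aplus2_BM_mul (aplus2_BM_const _) (hpow n).1, (hpow n).2.const_mul _⟩

lemma aplus2_cont (hν : Good ν) {g : X → ℝ} (hgm : Measurable g) (hg : BM fun x => (g x : ℂ))
    (h : AP ν Z fun x => (g x : ℂ)) {F : ℝ → ℝ} (hF : Continuous F) (hF1 : ∀ s, |F s| ≤ 1) :
    AP ν Z fun x => (F (g x) : ℂ) := by
  refine AP.closed hν ⟨Complex.measurable_ofReal.comp (hF.measurable.comp hgm), 1, fun x => ?_⟩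
    fun ε hε => ?_
  · rw [Complex.norm_real]; exact hF1 _
  obtain ⟨C, hC⟩ := hg.2
  obtain ⟨p, hp⟩ := exists_polynomial_near_of_continuousOn (-C) C F hF.continuousOn (√ε)
    (Real.sqrt_pos.2 hε)
  refine ⟨_, (aplus2_poly hg h p).1, (aplus2_poly hg h p).2, ?_⟩
  unfold n2
  refine (integral_mono_of_nonneg (Eventually.of_forall fun x => by positivity)
    (integrable_const ε) (Eventually.of_forall fun x => ?_)).trans (by simp)
  have h1 : g x ∈ Set.Icc (-C) C := by
    have := hC x
    rw [Complex.norm_real] at this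
    exact abs_le.1 this
  have h2 := hp _ h1
  change ‖(F (g x) : ℂ) - ((p.eval (g x) : ℝ) : ℂ)‖ ^ 2 ≤ ε
  rw [← Complex.ofReal_sub, Complex.norm_real, Real.norm_eq_abs, abs_sub_comm,
    ← Real.sq_sqrt hε.le]
  exact pow_le_pow_left₀ (abs_nonneg _) h2.le 2

lemma aplus2_real (hν : Good ν) {g : X → ℝ} (hgm : Measurable g) (hg : BM fun x => (g x : ℂ))
    (h : AP ν Z fun x => (g x : ℂ)) : Measurable[(plus ν Z).m] g := by
  refine measurable_of_Ioi (mδ := (plus ν Z).m) fun t => ?_
  have hs : MeasurableSet (g ⁻¹' Set.Ioi t) := hgm measurableSet_Ioi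
  refine MeasurableSpace.measurableSet_generateFrom ⟨hs, ?_⟩
  have hc : ∀ n : ℕ, Continuous fun s : ℝ => min 1 (max 0 (n * (s - t))) := fun n => by fun_prop
  have h1 : ∀ (n : ℕ) (s : ℝ), |min 1 (max 0 (n * (s - t)))| ≤ 1 := fun n s =>
    abs_le.2 ⟨le_min (by norm_num) ((by norm_num : (-1 : ℝ) ≤ 0).trans (le_max_left _ _)),
      min_le_left _ _⟩
  refine aplus2_lim hν (aplus2_BM_ind hs).1
    (fun n x => ((min 1 (max 0 (n * (g x - t))) : ℝ) : ℂ)) 1
    (fun n => Complex.measurable_ofReal.comp ((hc n).measurable.comp hgm))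
    (fun n x => by rw [Complex.norm_real]; exact h1 n _)
    (fun n => aplus2_cont hν hgm hg h (hc n) (h1 n)) fun x => ?_
  by_cases hx : t < g x
  · rw [Set.indicator_of_mem (show x ∈ g ⁻¹' Set.Ioi t from hx)]
    refine tendsto_const_nhds.congr' ?_
    have h2 : Tendsto (fun n : ℕ => (n : ℝ) * (g x - t)) atTop atTop :=
      tendsto_natCast_atTop_atTop.atTop_mul_const (sub_pos.2 hx)
    filter_upwards [h2.eventually_ge_atTop 1] with n hn
    rw [min_eq_left (le_max_of_le_right hn), Complex.ofReal_one]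
  · rw [Set.indicator_of_notMem (show x ∉ g ⁻¹' Set.Ioi t from hx)]
    refine tendsto_const_nhds.congr fun n => ?_
    rw [max_eq_left (mul_nonpos_of_nonneg_of_nonpos (Nat.cast_nonneg n) (by linarith)),
      min_eq_right zero_le_one, Complex.ofReal_zero]

lemma aplus2_re_im {W : Type} {m : MeasurableSpace W} {φ : W → ℂ}
    (h1 : Measurable fun x => (φ x).re) (h2 : Measurable fun x => (φ x).im) : Measurable φ := by
  have := (Complex.measurable_ofReal.comp h1).add
    ((Complex.measurable_ofReal.comp h2).mul_const Complex.I)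
  refine (congrArg Measurable (funext fun x => ?_)).mp this
  exact Complex.re_add_im (φ x)

/-- the generating family is already a σ-algebra -/
lemma plus_measurableSet (hν : Good ν) (B : Set X) :
    MeasurableSet[(plus ν Z).m] B ↔
      MeasurableSet B ∧ AP ν Z (B.indicator fun _ => (1 : ℂ)) := by
  refine ⟨fun h => ?_, fun h => MeasurableSpace.measurableSet_generateFrom h⟩
  refine MeasurableSpace.generateFrom_induction
    {B | MeasurableSet B ∧ AP ν Z (B.indicator fun _ => (1 : ℂ))}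
    (fun B _ => MeasurableSet B ∧ AP ν Z (B.indicator fun _ => (1 : ℂ))) (fun _ h _ => h) ?_ ?_ ?_
    B h
  · refine ⟨MeasurableSet.empty, ?_⟩
    rw [Set.indicator_empty]
    exact aplus2_const 0
  · intro A _ hA
    refine ⟨hA.1.compl, ?_⟩
    have a := aplus2_BM_ind hA.1
    have h := AP.add (aplus2_BM_const 1) (aplus2_BM_mul (aplus2_BM_const (-1)) a)
      (aplus2_const 1) (hA.2.const_mul (-1))
    refine (congrArg (AP ν Z) (funext fun x => ?_)).mp h
    by_cases h1 : x ∈ A <;> simp [h1]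
  · intro s _ hs
    have hm : MeasurableSet (⋃ i, s i) := MeasurableSet.iUnion fun i => (hs i).1
    have hU : ∀ n : ℕ, MeasurableSet (⋃ i < n, s i) ∧
        AP ν Z ((⋃ i < n, s i).indicator fun _ => (1 : ℂ)) := by
      intro n
      induction n with
      | zero =>
        simp only [Nat.not_lt_zero, Set.iUnion_of_empty, Set.iUnion_empty, Set.indicator_empty]
        exact ⟨MeasurableSet.empty, aplus2_const 0⟩
      | succ n ih => rw [Set.biUnion_lt_succ]; exact aplus2_union ih (hs n)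
    refine ⟨hm, aplus2_lim hν (aplus2_BM_ind hm).1
      (fun n => (⋃ i < n, s i).indicator fun _ => (1 : ℂ)) 1
      (fun n => (aplus2_BM_ind (hU n).1).1) (fun n x => ?_) (fun n => (hU n).2) fun x => ?_⟩
    · by_cases hx : x ∈ ⋃ i < n, s i
      · rw [Set.indicator_of_mem hx, norm_one]
      · rw [Set.indicator_of_notMem hx, norm_zero]; exact zero_le_one
    · by_cases hx : x ∈ ⋃ i, s i
      · rw [Set.indicator_of_mem hx]
        obtain ⟨i, hi⟩ := Set.mem_iUnion.1 hx
        refine tendsto_const_nhds.congr' ?_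
        filter_upwards [eventually_gt_atTop i] with n hn
        rw [Set.indicator_of_mem (Set.mem_iUnion₂.2 ⟨i, hn, hi⟩)]
      · rw [Set.indicator_of_notMem hx]
        refine tendsto_const_nhds.congr fun n => ?_
        rw [Set.indicator_of_notMem fun h => hx (Set.iUnion₂_subset_iUnion _ _ h)]

/-- simple functions and `AP.closed` -/
theorem AP_of_meas (hν : Good ν) {φ : X → ℂ} (hφ : Measurable[(plus ν Z).m] φ)
    (hb : ∃ C : ℝ, ∀ x, ‖φ x‖ ≤ C) : AP ν Z φ := by
  obtain ⟨C, hC⟩ := hb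
  have hbm : ∀ s : @SimpleFunc X (plus ν Z).m ℂ, BM s := fun s =>
    ⟨(@SimpleFunc.measurable X ℂ (plus ν Z).m _ s).mono (plus ν Z).le le_rfl,
      (@SimpleFunc.exists_forall_norm_le X ℂ (plus ν Z).m _ s)⟩
  have hs : ∀ s : @SimpleFunc X (plus ν Z).m ℂ, AP ν Z s := by
    intro s
    refine @SimpleFunc.induction X ℂ (plus ν Z).m _ (fun s => AP ν Z s) ?_ ?_ s
    · intro c A hA
      refine (congrArg (AP ν Z) (funext fun x => ?_)).mp
        (((plus_measurableSet hν A).1 hA).2.const_mul c)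
      by_cases hx : x ∈ A <;> simp [hx]
    · intro s s' _ h h'
      exact AP.add (hbm s) (hbm s') h h'
  have hsm : StronglyMeasurable[(plus ν Z).m] φ := hφ.stronglyMeasurable
  have hC0 : 0 ≤ C := (norm_nonneg _).trans (hC 0)
  exact aplus2_lim hν (hφ.mono (plus ν Z).le le_rfl) (fun n => hsm.approxBounded C n) C
    (fun n => (hbm _).1) (fun n x => hsm.norm_approxBounded_le hC0 n x) (fun n => hs _)
    fun x => hsm.tendsto_approxBounded_of_norm_le (hC x)

/-- real and imaginary parts are `AP`; polynomials (Weierstrass), then indicators of `{φ > t}` -/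
theorem meas_of_AP (hν : Good ν) {φ : X → ℂ} (hφ : BM φ) (h : AP ν Z φ) :
    Measurable[(plus ν Z).m] φ := by
  obtain ⟨C, hC⟩ := hφ.2
  have hc : BM fun x => conj (φ x) :=
    ⟨Complex.continuous_conj.measurable.comp hφ.1, C, fun x => by rw [Complex.norm_conj]; exact hC x⟩
  refine aplus2_re_im ?_ ?_
  · have hm : Measurable fun x => (φ x).re := Complex.measurable_re.comp hφ.1
    refine aplus2_real hν hm ⟨Complex.measurable_ofReal.comp hm, C, fun x => ?_⟩ ?_
    · rw [Complex.norm_real]; exact (Complex.abs_re_le_norm _).trans (hC x)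
    · refine (congrArg (AP ν Z) (funext fun x => ?_)).mp
        ((AP.add hφ hc h h.conj).const_mul (1 / 2))
      rw [Complex.re_eq_add_conj]; ring
  · have hm : Measurable fun x => (φ x).im := Complex.measurable_im.comp hφ.1
    refine aplus2_real hν hm ⟨Complex.measurable_ofReal.comp hm, C, fun x => ?_⟩ ?_
    · rw [Complex.norm_real]; exact (Complex.abs_im_le_norm _).trans (hC x)
    · refine (congrArg (AP ν Z) (funext fun x => ?_)).mp
        ((AP.add hφ (aplus2_BM_mul (aplus2_BM_const (-1)) hc) h (h.conj.const_mul (-1))).const_mul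
          (1 / (2 * Complex.I)))
      rw [Complex.im_eq_sub_conj]; ring

end Crest.Agent.R40.A
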