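import Crest.Agent.R40.APlus2
import Crest.Agent.R40.ARel

/-! Row 40 A: `plus` is characteristic for the relative product. -/

set_option autoImplicit false
open MeasureTheory ProbabilityTheory Filter Topology
open scoped ComplexConjugate

noncomputable section
namespace Crest.Agent.R40.A

variable {ν : Measure X} [IsProbabilityMeasure ν] {Z : Fac}

lemma aplus3_int {W : Type} [MeasurableSpace W] (μ : Measure W) [IsFiniteMeasure μ] {g : W → ℂ}
    (hg : BM g) : Integrable g μ := by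
  obtain ⟨h, C, hC⟩ := hg
  exact Integrable.of_bound h.aestronglyMeasurable C (Eventually.of_forall hC)

lemma aplus3_int2 {W : Type} [MeasurableSpace W] (μ : Measure W) [IsFiniteMeasure μ] {g : W → ℂ}
    (hg : BM g) : Integrable (fun x => ‖g x‖ ^ 2) μ := by
  obtain ⟨h, C, hC⟩ := hg
  refine Integrable.of_bound (h.norm.pow_const 2).aestronglyMeasurable (C ^ 2)
    (Eventually.of_forall fun x => ?_)
  rw [norm_pow, norm_norm]
  exact pow_le_pow_left₀ (norm_nonneg _) (hC x) 2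

lemma aplus3_mul {W : Type} [MeasurableSpace W] {a b : W → ℂ} (ha : BM a) (hb : BM b) :
    BM fun x => a x * b x := by
  obtain ⟨h, C, hC⟩ := ha
  obtain ⟨h', C', hC'⟩ := hb
  refine ⟨h.mul h', C * C', fun x => ?_⟩
  rw [norm_mul]
  exact mul_le_mul (hC x) (hC' x) (norm_nonneg _) ((norm_nonneg _).trans (hC x))

lemma aplus3_comp {W W' : Type} [MeasurableSpace W] [MeasurableSpace W'] {a : W → ℂ} (ha : BM a)
    {T : W' → W} (hT : Measurable T) : BM fun x => a (T x) :=
  ⟨ha.1.comp hT, let ⟨C, hC⟩ := ha.2; ⟨C, fun _ => hC _⟩⟩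

lemma aplus3_sub {W : Type} [MeasurableSpace W] {a b : W → ℂ} (ha : BM a) (hb : BM b) :
    BM fun x => a x - b x := by
  obtain ⟨h, C, hC⟩ := ha
  obtain ⟨h', C', hC'⟩ := hb
  exact ⟨h.sub h', C + C', fun x => (norm_sub_le _ _).trans (add_le_add (hC x) (hC' x))⟩

lemma aplus3_sum {W : Type} [MeasurableSpace W] {N : ℕ} {a : Fin N → W → ℂ} (ha : ∀ l, BM (a l)) :
    BM fun x => ∑ l, a l x := by
  choose C hC using fun l => (ha l).2
  exact ⟨Finset.measurable_sum _ fun l _ => (ha l).1, ∑ l, C l, fun x =>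
    (norm_sum_le _ _).trans (Finset.sum_le_sum fun l _ => hC l x)⟩

lemma aplus3_conj {W : Type} [MeasurableSpace W] {a : W → ℂ} (ha : BM a) :
    BM fun x => conj (a x) :=
  ⟨Complex.continuous_conj.measurable.comp ha.1,
    let ⟨C, hC⟩ := ha.2; ⟨C, fun x => by simpa using hC x⟩⟩

lemma aplus3_ae_eq {W : Type} [MeasurableSpace W] {μ : Measure W} [IsFiniteMeasure μ]
    {a b : W → ℂ} (ha : BM a) (hb : BM b)
    (h : ∀ k, BM k → ∫ x, k x * a x ∂μ = ∫ x, k x * b x ∂μ) : a =ᵐ[μ] b := by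
  refine Integrable.ae_eq_of_forall_setIntegral_eq a b (aplus3_int μ ha) (aplus3_int μ hb)
    fun s hs _ => ?_
  have := h (s.indicator fun _ => 1) ⟨measurable_const.indicator hs, 1, fun x => by
    by_cases hx : x ∈ s <;> simp [hx]⟩
  simpa only [← Set.indicator_mul_left, one_mul, integral_indicator hs] using this

lemma aplus3_jensen {W : Type} [MeasurableSpace W] (μ : Measure W) [IsProbabilityMeasure μ]
    {g : W → ℂ} (hg : BM g) : ‖∫ x, g x ∂μ‖ ^ 2 ≤ ∫ x, ‖g x‖ ^ 2 ∂μ := by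
  have h1 := (aplus3_int μ hg).norm
  refine (pow_le_pow_left₀ (norm_nonneg _) (norm_integral_le_integral_norm _) 2).trans ?_
  obtain ⟨m, hm⟩ : ∃ m, m = ∫ x, ‖g x‖ ∂μ := ⟨_, rfl⟩
  have h2 : ∫ x, (2 * m * ‖g x‖ - m ^ 2) ∂μ ≤ ∫ x, ‖g x‖ ^ 2 ∂μ :=
    integral_mono ((h1.const_mul _).sub (integrable_const _)) (aplus3_int2 μ hg) fun x => by
      nlinarith [sq_nonneg (‖g x‖ - m)]
  rw [integral_sub (h1.const_mul _) (integrable_const _), integral_const_mul, ← hm] at h2
  simp only [integral_const, probReal_univ, smul_eq_mul, one_mul] at h2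
  rw [← hm]
  linarith

lemma aplus3_conv {H : X × X → ℂ} (hH : BM H) : BM fun x => ∫ y, H (x, y) ∂(ker ν Z x) := by
  obtain ⟨h, C, hC⟩ := hH
  refine ⟨h.stronglyMeasurable.integral_kernel_prod_right'.measurable, C, fun x => ?_⟩
  simpa using norm_integral_le_of_norm_le_const (μ := ker ν Z x) (C := C)
    (Eventually.of_forall fun y => hC (x, y))

lemma aplus3_n2 {H : X × X → ℂ} (hH : BM H) :
    n2 ν (fun x => ∫ y, H (x, y) ∂(ker ν Z x)) ≤ n2 (lam ν Z) H := by
  have h := aplus3_int2 (lam ν Z) hH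
  unfold n2 lam at *
  rw [Measure.integral_compProd h]
  exact integral_mono (aplus3_int2 ν (aplus3_conv hH)) h.integral_compProd fun x =>
    aplus3_jensen _ (aplus3_comp hH measurable_prodMk_left)

lemma aplus3_test {H : X × X → ℂ} (hH : BM H) {k : X → ℂ} (hk : BM k) :
    ∫ x, k x * ∫ y, H (x, y) ∂(ker ν Z x) ∂ν = ∫ w, k w.1 * H w ∂(lam ν Z) := by
  rw [integral_lam Z (aplus3_mul (aplus3_comp hk measurable_fst) hH)]
  simp only [integral_const_mul]

lemma aplus3_act (hν : Good ν) {H : X × X → ℂ} (hH : BM H) (u : K) :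
    (fun x => ∫ y, H (act u x, y) ∂(ker ν Z (act u x))) =ᵐ[ν]
      fun x => ∫ y, H (act u x, act u y) ∂(ker ν Z x) := by
  have h2 := (isAct_act2 Z hν).mp u
  have hH' : BM fun w => H (act2 u w) := aplus3_comp hH h2.measurable
  refine aplus3_ae_eq (aplus3_comp (aplus3_conv hH) (measurable_act u)) (aplus3_conv hH')
    fun k hk => ?_
  have hk' := aplus3_comp hk (measurable_act u⁻¹)
  have e : ∀ x, act u⁻¹ (act u x) = x := fun x => by rw [← act_mul, inv_mul_cancel, act_one]
  have h3 := (aplus3_mul hk' (aplus3_conv (ν := ν) (Z := Z) hH)).1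
  have h4 := (aplus3_mul (aplus3_comp hk' measurable_fst) hH).1
  have h5 := integral_map (μ := ν) (measurable_act u).aemeasurable h3.aestronglyMeasurable
  have h6 := integral_map (μ := lam ν Z) h2.measurable.aemeasurable h4.aestronglyMeasurable
  rw [(hν.mp u).map_eq, aplus3_test hH hk'] at h5
  rw [h2.map_eq] at h6
  simp only [e] at h5
  refine h5.symm.trans (h6.trans (Eq.trans ?_ (aplus3_test hH' hk).symm))
  simp only [act2, e]

/-- `T_u (H * g) = H * (T_u g)` a.e. (test against bounded functions, `isAct_act2`), and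
`(b ⊗ c) * g = b · cE (c g)`; `tensor_dense` gives the uniform approximation -/
theorem AP_conv (hν : Good ν) {H : X × X → ℂ} (hH : BM H) (hinv : Inv (lam ν Z) act2 H)
    {g : X → ℂ} (hg : BM g) : AP ν Z fun x => ∫ y, H (x, y) * g y ∂(ker ν Z x) := by
  intro ε hε
  obtain ⟨C, hC⟩ := hg.2
  have hC0 : 0 ≤ C := (norm_nonneg _).trans (hC 0)
  obtain ⟨N, b, c, B, hb, hc, hB, hB', hn⟩ := tensor_dense (lam ν Z) hH
    (ε := ε / (C ^ 2 + 1)) (by positivity)
  have bb : ∀ l, BM (b l) := fun l => ⟨hb l, B, hB l⟩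
  have bc : ∀ l, BM (c l) := fun l => ⟨hc l, B, hB' l⟩
  refine ⟨N, b, |B| * (C + 1), hb, fun l x => ((hB l x).trans (le_abs_self B)).trans
    (le_mul_of_one_le_right (abs_nonneg B) (by linarith)), fun u => ?_⟩
  have hgu := aplus3_comp hg (measurable_act u)
  refine ⟨fun l => cE ν Z fun y => c l y * g (act u y),
    fun l => cE_meas Z (aplus3_mul (bc l) hgu).1, fun l x => cE_norm_le Z (fun y => ?_) x, ?_⟩
  · rw [norm_mul]
    exact mul_le_mul ((hB' l y).trans (le_abs_self B)) ((hC _).trans (by linarith))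
      (norm_nonneg _) (abs_nonneg B)
  have hD : BM fun w : X × X => H w - ∑ l, b l w.1 * c l w.2 := aplus3_sub hH (aplus3_sum fun l =>
    aplus3_mul (aplus3_comp (bb l) measurable_fst) (aplus3_comp (bc l) measurable_snd))
  have hD' := aplus3_mul hD (aplus3_comp hgu measurable_snd)
  have h1 := aplus3_act (Z := Z) hν (aplus3_mul hH (aplus3_comp hg measurable_snd)) u
  have h2 : ∀ᵐ x ∂ν, ∀ᵐ y ∂(ker ν Z x), H (act2 u (x, y)) = H (x, y) :=
    Measure.ae_ae_of_ae_compProd (hinv u)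
  have h3 : ∀ᵐ x ∂ν, (∫ y, H (act u x, y) * g y ∂(ker ν Z (act u x))) -
      ∑ l, cE ν Z (fun y => c l y * g (act u y)) x * b l x =
      ∫ y, (H (x, y) - ∑ l, b l x * c l y) * g (act u y) ∂(ker ν Z x) := by
    filter_upwards [h1, h2] with x e1 e2
    have i1 := fun l => (aplus3_int (ker ν Z x) (aplus3_mul (bc l) hgu)).const_mul (b l x)
    simp only [sub_mul, Finset.sum_mul, mul_assoc]
    rw [integral_sub (aplus3_int _ (aplus3_mul (aplus3_comp hH measurable_prodMk_left) hgu))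
      (integrable_finsetSum _ fun l _ => i1 l), integral_finsetSum _ fun l _ => i1 l, e1]
    congr 1
    · refine integral_congr_ae (e2.mono fun y hy => ?_)
      exact congrArg (· * g (act u y)) hy
    · exact Finset.sum_congr rfl fun l _ => by rw [integral_const_mul, mul_comm, cE]
  calc _ = n2 ν fun x => ∫ y, (H (x, y) - ∑ l, b l x * c l y) * g (act u y) ∂(ker ν Z x) :=
        integral_congr_ae (h3.mono fun x hx => congrArg (‖·‖ ^ 2) hx)
    _ ≤ _ := aplus3_n2 hD'
    _ ≤ ∫ w, C ^ 2 * ‖H w - ∑ l, b l w.1 * c l w.2‖ ^ 2 ∂(lam ν Z) := by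
        refine integral_mono (aplus3_int2 _ hD') ((aplus3_int2 _ hD).const_mul _) fun w => ?_
        simp only [norm_mul, mul_pow]
        rw [mul_comm]
        exact mul_le_mul_of_nonneg_right (pow_le_pow_left₀ (norm_nonneg _) (hC _) 2) (sq_nonneg _)
    _ ≤ C ^ 2 * (ε / (C ^ 2 + 1)) := by
        rw [integral_const_mul]
        exact mul_le_mul_of_nonneg_left hn (sq_nonneg _)
    _ ≤ ε := by
        rw [← mul_div_assoc, div_le_iff₀ (by positivity)]
        nlinarith

lemma aplus3_orth (hν : Good ν) {g : X → ℂ} (hg : BM g) (h0 : cE ν (plus ν Z) g =ᵐ[ν] 0)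
    {k : X → ℂ} (hk : BM k) (h : AP ν Z k) : ∫ x, g x * k x ∂ν = 0 := by
  simp only [mul_comm (g _)]
  rw [← integral_mul_cE (plus ν Z) (meas_of_AP hν hk h) hk.2 hg]
  refine integral_eq_zero_of_ae (h0.mono fun x hx => ?_)
  simp [hx]

theorem plus_orth (hν : Good ν) {g : X → ℂ} (hg : BM g) (h0 : cE ν (plus ν Z) g =ᵐ[ν] 0) :
    IsPI (lam ν Z) act2 (fun w => g w.1 * conj (g w.2)) 0 := by
  refine ⟨⟨measurable_const, 0, fun _ => by simp⟩, fun _ => Eventually.of_forall fun _ => rfl,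
    fun k hk hinv => ?_⟩
  have hc := aplus3_conj hg
  have h1 := aplus3_mul hk (aplus3_comp hc measurable_snd)
  have h2 := aplus3_orth hν hg h0 (aplus3_conv h1) (AP_conv hν hk hinv hc)
  rw [aplus3_test h1 hg] at h2
  simp only [Pi.zero_apply, zero_mul, integral_zero, mul_assoc, mul_comm (conj (g _))]
  exact h2.symm

theorem plus_pi0 (hν : Good ν) {g : X → ℂ} (hg : BM g) (h0 : cE ν (plus ν Z) g =ᵐ[ν] 0) :
    IsPI ν act g 0 := by
  refine ⟨⟨measurable_const, 0, fun _ => by simp⟩, fun _ => Eventually.of_forall fun _ => rfl,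
    fun k hk hinv => ?_⟩
  simp only [Pi.zero_apply, zero_mul, integral_zero]
  exact (aplus3_orth hν hg h0 hk (AP_of_inv hk hinv)).symm

end Crest.Agent.R40.A
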