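import Crest.Agent.R40.ALift
import Crest.Agent.R40.ABase
import Crest.Agent.R40.AChar
import Crest.Agent.R40.AMeasure
import Crest.Agent.R40.AAlg

/-! Row 40 A: the tower and rigidity. -/

set_option autoImplicit false
open MeasureTheory ProbabilityTheory Filter Topology
open scoped ComplexConjugate

noncomputable section
namespace Crest.Agent.R40.A

variable {ν : Measure X} [IsProbabilityMeasure ν]

theorem q0_tower (hν : Good ν) (h : Q0 fun z => ∫ d, f z d ∂ν) (k : ℕ) :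
    Q0 (psi ν (tower ν k)) := by
  induction k with
  | zero => exact lift hν _ (q0_bot hν h)
  | succ k ih => exact lift hν _ ih

omit [IsProbabilityMeasure ν] in
theorem arigid_prod (hν : Good ν) {ι : Type} (s : Finset ι) (z : ι → E) :
    f (∑ j ∈ s, z j) =ᵐ[ν] fun d => ∏ j ∈ s, f (z j) d := by
  classical
  induction s using Finset.induction_on with
  | empty =>
    filter_upwards [(mult_f hν).mul 0 0] with d hd
    have h0 : f 0 d ≠ 0 := norm_ne_zero_iff.1 (by rw [norm_f]; exact one_ne_zero)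
    rw [add_zero] at hd
    exact mul_left_cancel₀ h0 (hd.symm.trans (mul_one _).symm)
  | insert i s hi ih =>
    filter_upwards [(mult_f hν).mul (z i) (∑ j ∈ s, z j), ih] with d h1 h2
    rw [Finset.sum_insert hi, Finset.prod_insert hi, h1, h2]

omit [IsProbabilityMeasure ν] in
theorem arigid_rad (hν : Good ν) {x y : E} (h : sz x = sz y) :
    ∫ d, f x d ∂ν = ∫ d, f y d ∂ν := by
  obtain ⟨u, rfl⟩ := radial h
  exact (integral_map (measurable_act u).aemeasurable
    (measurable_f y).aestronglyMeasurable).symm.trans (by rw [(hν.mp u).map_eq])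

/-- `nonorth` gives `Λ ≠ 0`; `met_two` along `u ↦ uⁿ`: `Λ = lim av φ(uⁿ b - a)`; `radial` and
`flip_coeffs`: `φ(uⁿ b - a) = ∫ ∏ⱼ f (rⱼ) (act (u^j) ·)`; `telescope`, `three_quarter`, `decay`
give `‖Λ‖² ≤ 72/(n+1)` for all `n ≥ 1`. -/
theorem rigid_meas (hν : Good ν) (h : Q0 fun z => ∫ d, f z d ∂ν) {z : E} (hz : z ≠ 0) :
    ∫ d, f z d ∂ν = 0 := by
  by_contra hne
  obtain ⟨a, b, ha, hb, hab, ξ, hξ, hΛ⟩ := nonorth hν hz hne
  obtain ⟨q⟩ := exists_fol K
  have key : ∀ k : ℕ, ‖∫ x, ξ x * f (-a) x ∂ν‖ ^ 2 ≤ 73 / ((k + 2 : ℕ) : ℝ) := fun k => by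
    obtain ⟨r, hr, hs⟩ := flip_coeffs ha hb hab (k + 1) (Nat.le_add_left 1 k)
    have h1 := met_two (isAct_act hν) q (zpowGroupHom ((k + 1 : ℕ) : ℤ))
      (zpow_surj (Int.natCast_ne_zero.2 k.succ_ne_zero)) (bm_f b) hξ (bm_f (-a))
    have h2 : ∀ u : K, ∫ x, f b (act (zpowGroupHom ((k + 1 : ℕ) : ℤ) u) x) * f (-a) x ∂ν =
        ∫ x, ∏ j : Fin (k + 2), f (r j) (act (u ^ ((j : ℕ) : ℤ)) x) ∂ν := fun u => by
      simp only [f_act, zpowGroupHom_apply, kv_zpow, zpow_natCast (kv u)]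
      rw [← integral_congr_ae ((mult_f hν).mul _ _), ← sub_eq_add_neg, ← arigid_rad hν (hs u)]
      exact integral_congr_ae (arigid_prod hν _ _)
    simp only [h2] at h1
    have hi : Function.Injective fun j : Fin (k + 2) => ((j : ℕ) : ℤ) :=
      Nat.cast_injective.comp Fin.val_injective
    have h3 := h1.sub (telescope hν q k _ hi (fun j => f (r j)) (fun _ => measurable_f _)
      fun _ _ => (norm_f _ _).le)
    simp only [sub_sub_cancel, sub_zero] at h3
    have m : ∀ j, Measurable (cE ν (tower ν k) (f (r j))) := fun j => (cE_bm _ (bm_f _)).1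
    have n1 : ∀ j x, ‖cE ν (tower ν k) (f (r j)) x‖ ≤ 1 := fun j =>
      cE_norm_le _ fun x => (norm_f _ x).le
    choose p hp using fun j => exists_isPI (isAct_act hν)
      (g := fun x => ((1 - ‖cE ν (tower ν k) (f (r j)) x‖ ^ 2 : ℝ) : ℂ))
      (Complex.measurable_ofReal.comp (measurable_const.sub ((m j).norm.pow_const 2))) (C := 1)
      fun x => by
        rw [Complex.norm_real, Real.norm_eq_abs, abs_le]
        constructor <;> nlinarith [n1 j x, norm_nonneg (cE ν (tower ν k) (f (r j)) x)]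
    obtain ⟨Z, hZ⟩ := tower_eq_plus ν k
    refine (le_of_tendsto (h3.norm.pow 2) (decay hν q (k + 2) k.succ.succ_pos _ hi _ p m n1
      (fun j => (hp j).1) (fun j => three_quarter hν Z (hZ ▸ q0_tower hν h k) (hr j)
      (hZ ▸ (hp j).1)) (ε := 1 / ((k + 2 : ℕ) : ℝ)) (by positivity))).trans_eq (by ring)
  have h4 := ge_of_tendsto' ((tendsto_const_div_atTop_nhds_zero_nat (73 : ℝ)).comp
    (tendsto_add_atTop_nat 2)) key
  exact hΛ (norm_eq_zero.1 (pow_eq_zero_iff two_ne_zero |>.1 (le_antisymm h4 (sq_nonneg _))))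

/-- normalise `φ 0 = 1` (if `φ 0 = 0` then `φ = 0`), `bochner`, `rigid_meas` -/
theorem rigid : RigidStmt := by
  intro φ hpd hrad hQ z hz
  obtain ⟨a1, a2⟩ := hpd 1 (fun _ => 1) fun _ => 0
  simp only [Finset.univ_unique, Finset.sum_singleton, map_one, mul_one, one_mul, sub_self] at a1 a2
  rcases a1.eq_or_lt with h0 | h0
  · have h1 : φ 0 = 0 := Complex.ext h0.symm a2
    have b1 := hpd 2 ![1, 1] ![z, 0]
    have b2 := hpd 2 ![1, -1] ![z, 0]
    have b3 := hpd 2 ![1, Complex.I] ![z, 0]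
    have b4 := hpd 2 ![1, -Complex.I] ![z, 0]
    simp [Fin.sum_univ_two, h1] at b1 b2 b3 b4
    refine Complex.ext ?_ ?_ <;> simp <;> linarith [b1.1, b1.2, b2.1, b3.1, b3.2, b4.1]
  obtain ⟨c, hc, hc'⟩ : ∃ c : ℝ, 0 < c ∧ (c : ℂ) * φ 0 = 1 := ⟨(φ 0).re⁻¹, inv_pos.2 h0, by
    rw [← Complex.re_add_im (φ 0), a2]
    simp [h0.ne']⟩
  obtain ⟨ν, hν, he⟩ := bochner (φ := fun z => c * φ z) (fun n t x => by
    obtain ⟨b1, b2⟩ := hpd n t x
    simp only [mul_left_comm _ (c : ℂ), ← Finset.mul_sum, Complex.re_ofReal_mul,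
      Complex.im_ofReal_mul, b2, mul_zero, and_true]
    positivity) hc' fun u z => by rw [hrad]
  have := hν.prob
  have h1 := rigid_meas hν (fun ε hε η hη => by
    obtain ⟨p, p1, p2⟩ := hQ ε hε (η / c) (by positivity)
    refine ⟨p, p1, ?_⟩
    have : Q (fun z => ∫ d, f z d ∂ν) p = c * Q φ p := by
      simp only [Q, FP.av, he, Finset.mul_sum, mul_smul_comm]
    rw [this, norm_mul, Complex.norm_real, Real.norm_of_nonneg hc.le]
    exact (le_div_iff₀' hc).1 p2) hz
  rw [he] at h1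
  exact (mul_eq_zero.1 h1).resolve_left (Complex.ofReal_ne_zero.2 hc.ne')

end Crest.Agent.R40.A
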