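import Mathlib

/-! Row 40 (S0054, the plane is not 5-colourable): the two interface statements.
`A : colouring → MeasStmt`, `B1 : MeasStmt → ClosedStmt`, `B2 : ¬ ClosedStmt`. -/

set_option autoImplicit false
open MeasureTheory

namespace Crest.Agent.R40

/-- A proper 5-colouring of `ℂ` (unit distance graph). -/
def ColStmt : Prop := ∃ c : ℂ → Fin 5, ∀ x y : ℂ, ‖x - y‖ = 1 → c x ≠ c y

/-- A measurable, almost-everywhere proper 5-colouring. -/
def MeasStmt : Prop :=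
  ∃ A : Fin 5 → Set ℂ, (∀ i, MeasurableSet (A i)) ∧ volume (⋃ i, A i)ᶜ = 0 ∧
    ∃ S : Set ℂ, (∀ u : ℂ, ‖u‖ = 1 → u ∈ closure S) ∧
      ∀ u ∈ S, ∀ i, volume (A i ∩ {x | x + u ∈ A i}) = 0

/-- A cover by five regular closed sets, with no unit distance between `K i` and its interior. -/
def ClosedStmt : Prop :=
  ∃ K : Fin 5 → Set ℂ, (∀ i, IsClosed (K i)) ∧ (∀ i, K i ⊆ closure (interior (K i))) ∧
    (∀ x, ∃ i, x ∈ K i) ∧ ∀ i, ∀ x ∈ K i, ∀ y ∈ interior (K i), ‖x - y‖ ≠ 1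

end Crest.Agent.R40
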