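import Crest.Agent.R40.Defs

/-! Row 40: transfer from `EuclideanSpace ℝ (Fin 2)` to `ℂ`. -/

set_option autoImplicit false

namespace Crest.Agent.R40

theorem glue (h : ¬ ColStmt) (c : EuclideanSpace ℝ (Fin 2) → Fin 5) :
    ∃ x y : EuclideanSpace ℝ (Fin 2), dist x y = 1 ∧ c x = c y := by
  by_contra hc
  apply h
  refine ⟨fun z => c (Complex.orthonormalBasisOneI.repr z), fun x y hxy heq => hc ?_⟩
  refine ⟨_, _, ?_, heq⟩
  rw [LinearIsometryEquiv.dist_map, dist_eq_norm, hxy]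

end Crest.Agent.R40
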