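import Crest.Agent.R40.LocL

/-! Row 40, part B2: there is no closed regular 5-colouring. -/

set_option autoImplicit false
open Set Metric

namespace Crest.Agent.R40

theorem not_closedStmt : ¬ ClosedStmt := by
  rintro ⟨K, h1, h2, h3, h4⟩
  have h : Loc.Good K := ⟨h1, h2, h3, h4⟩
  refine top K h1 h3 (fun i Q hQ hs p hp q hq => h.diam hQ.2.1 hs hp hq)
    (fun i j k hij hik hjk Q hQ => h.nt hij hik hjk hQ) ?_ h.arm_forest
  refine (finite_iUnion fun c => h.alt_finite c).subset fun x hx => ?_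
  obtain ⟨c, hc⟩ := h.cyc hx.2
  exact mem_iUnion.2 ⟨c, hx.1, hc⟩

end Crest.Agent.R40
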