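import Crest.Agent.R40.LocDefs

/-! Row 40, B2/local: the sweeping rule and its first consequences. -/

set_option autoImplicit false
open Set Metric

namespace Crest.Agent.R40.Loc

local notation "π" => Real.pi

variable {K : Fin 5 → Set ℂ} {x : ℂ}

/-- (F1) -/
theorem Good.sweep (h : Good K) {i : Fin 5} {Q : Set ℂ} (hQ : IsPreconnected Q) (hs : Q ⊆ K i)
    {y q q' : ℂ} (hq : q ∈ Q) (hq' : q' ∈ Q) (h1 : ‖y - q‖ < 1) (h2 : 1 < ‖y - q'‖) :
    y ∉ K i := by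
  intro hy
  have hO : IsOpen {w : ℂ | ‖w - q‖ < 1 ∧ 1 < ‖w - q'‖} :=
    (isOpen_lt (f := fun w : ℂ => ‖w - q‖) (by fun_prop) continuous_const).inter
      (isOpen_lt (g := fun w : ℂ => ‖w - q'‖) continuous_const (by fun_prop))
  obtain ⟨w, ⟨hw1, hw2⟩, hw⟩ := mem_closure_iff.1 (h.reg i hy) _ hO ⟨h1, h2⟩
  have hc : ContinuousOn (fun u : ℂ => ‖w - u‖) Q := by fun_prop
  obtain ⟨u, hu, e⟩ := hQ.intermediate_value hq hq' hc ⟨hw1.le, hw2.le⟩
  exact h.sep i u (hs hu) w hw (by rw [norm_sub_rev]; exact e)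

theorem Good.diam (h : Good K) {i : Fin 5} {Q : Set ℂ} (hQ : IsPreconnected Q) (hs : Q ⊆ K i)
    {p q : ℂ} (hp : p ∈ Q) (hq : q ∈ Q) : ‖p - q‖ ≤ 1 := by
  by_contra hc
  exact h.sweep hQ hs hp hq (by rw [sub_self, norm_zero]; exact one_pos) (not_le.1 hc) (hs hp)

/-- Two points that can only have the colour `c` are not at distance one. -/
theorem Good.forced (h : Good K) {c : Fin 5} {y y' : ℂ} (hy : ∀ j, j ≠ c → y ∉ K j)
    (hy' : ∀ j, j ≠ c → y' ∉ K j) : ‖y - y'‖ ≠ 1 := by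
  have key : ∀ w, (∀ j, j ≠ c → w ∉ K j) → w ∈ K c := fun w hw => by
    obtain ⟨i, hi⟩ := h.cover w
    by_cases hic : i = c
    · exact hic ▸ hi
    · exact absurd hi (hw i hic)
  have hO : IsOpen {w : ℂ | ∀ j, j ≠ c → w ∉ K j} := by
    have e : {w : ℂ | ∀ j, j ≠ c → w ∉ K j} = ⋂ j, ⋂ _ : j ≠ c, (K j)ᶜ := by
      ext w
      simp only [mem_ofPred_eq, mem_iInter, mem_compl_iff]
    rw [e]
    exact isOpen_iInter_of_finite fun j => isOpen_iInter_of_finite fun _ =>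
      (h.closed j).isOpen_compl
  exact h.sep c y (key y hy) y' (interior_maximal key hO hy')

/-- Rule R. -/
theorem Good.ruleR (h : Good K) {c : Fin 5} {θ : ℝ} (hθ : θ ∈ P K x c) {z : ℂ}
    (hz : ‖z - (x + ex θ)‖ = 1) (h1 : z ≠ x) (h2 : z ≠ x + 2 * ex θ) : z ∉ K c := by
  intro hzc
  obtain ⟨ψ, hψ⟩ := exists_ex hz
  have hz' : z = x + ex θ + ex ψ := by rw [← hψ]; ring
  obtain ⟨ε, hε, hb⟩ := Metric.mem_nhds_iff.1 (mem_interior_iff_mem_nhds.1 hθ)
  have hQ : IsPreconnected ((fun s => x + ex s) '' ball θ ε) :=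
    (convex_ball θ ε).isPreconnected.image _ (by fun_prop)
  have hs : (fun s => x + ex s) '' ball θ ε ⊆ K c := by
    rintro _ ⟨s, hs, rfl⟩
    exact hb hs
  let g : ℝ → ℝ := fun s => 3 + 2 * Real.cos (ψ - θ) - 2 * Real.cos (s - θ) - 2 * Real.cos (s - ψ)
  have hg : ∀ s, ‖z - (x + ex s)‖ ^ 2 = g s := fun s => by
    rw [norm_sub_sq, hz']
    simp only [g, Complex.add_re, Complex.add_im, ex_re, ex_im, Real.cos_sub]
    linear_combination Real.sin_sq_add_cos_sq θ + Real.sin_sq_add_cos_sq ψ +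
      Real.sin_sq_add_cos_sq s
  have hd : HasDerivAt g (2 * Real.sin (θ - ψ)) θ := by
    have d1 := (((hasDerivAt_id θ).sub_const θ).cos.const_mul 2).const_sub
      (3 + 2 * Real.cos (ψ - θ))
    have d2 := ((hasDerivAt_id θ).sub_const ψ).cos.const_mul 2
    have d3 := d1.sub d2
    simp only [id, sub_self, Real.sin_zero] at d3
    exact HasDerivAt.congr_deriv d3 (by ring)
  have hne : 2 * Real.sin (θ - ψ) ≠ 0 := by
    intro h0
    have h3 : Real.sin (θ - ψ) = 0 := by linarith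
    have h4 : ex θ = ex (θ - ψ) * ex ψ := by rw [← ex_add, sub_add_cancel]
    rw [ex_eq (θ - ψ), h3, Complex.ofReal_zero, zero_mul, add_zero] at h4
    rcases Real.sin_eq_zero_iff_cos_eq.1 h3 with h5 | h5
    · rw [h5, Complex.ofReal_one, one_mul] at h4
      exact h2 (by rw [hz', ← h4]; ring)
    · rw [h5, Complex.ofReal_neg, Complex.ofReal_one] at h4
      exact h1 (by rw [hz', h4]; ring)
  have hθ1 : g θ = 1 := by rw [← hg, hz, one_pow]
  have hlt : ∃ s ∈ ball θ ε, ‖z - (x + ex s)‖ < 1 := by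
    by_contra hc
    refine hne (IsLocalMin.hasDerivAt_eq_zero ?_ hd)
    filter_upwards [ball_mem_nhds θ hε] with s hs
    rw [hθ1, ← hg]
    exact one_le_pow₀ (not_lt.1 fun h' => hc ⟨s, hs, h'⟩)
  have hgt : ∃ s ∈ ball θ ε, 1 < ‖z - (x + ex s)‖ := by
    by_contra hc
    refine hne (IsLocalMax.hasDerivAt_eq_zero ?_ hd)
    filter_upwards [ball_mem_nhds θ hε] with s hs
    rw [hθ1, ← hg]
    exact pow_le_one₀ (norm_nonneg _) (not_lt.1 fun h' => hc ⟨s, hs, h'⟩)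
  obtain ⟨s, hs1, hs2⟩ := hlt
  obtain ⟨s', hs1', hs2'⟩ := hgt
  exact h.sweep hQ hs ⟨s, hs1, rfl⟩ ⟨s', hs1', rfl⟩ hs2 hs2' hzc

/-- Product rule. -/
theorem Good.prod (h : Good K) {c : Fin 5} {θ : ℝ} (hθ : θ ∈ P K x c) {φ : ℝ}
    (h1 : ex φ ≠ ex θ) (h2 : ex φ ≠ -ex θ) : x + ex θ + ex φ ∉ K c := by
  refine h.ruleR hθ (by rw [add_sub_cancel_left, norm_ex]) (fun e => h2 ?_) fun e => h1 ?_
  · linear_combination e
  · linear_combination e

theorem Good.adj (h : Good K) {c : Fin 5} {θ : ℝ} (hθ : θ ∈ P K x c) :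
    θ + π / 3 ∉ F K x c ∧ θ - π / 3 ∉ F K x c := by
  have key : ∀ δ : ℝ, Real.cos δ = 1 / 2 → θ + δ ∉ F K x c := by
    intro δ hδ
    refine h.ruleR hθ ?_ (fun e => ?_) fun e => ?_
    · have h3 : ‖x + ex (θ + δ) - (x + ex θ)‖ ^ 2 = 1 := by
        rw [norm_sub_sq]
        simp only [Complex.add_re, Complex.add_im, ex_re, ex_im]
        have h4 := Real.cos_sub (θ + δ) θ
        rw [add_sub_cancel_left, hδ] at h4
        linear_combination Real.sin_sq_add_cos_sq θ + Real.sin_sq_add_cos_sq (θ + δ) + 2 * h4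
      exact (pow_eq_one_iff_of_nonneg (norm_nonneg _) two_ne_zero).1 h3
    · have h3 : ex (θ + δ) = 0 := by linear_combination e
      have h4 := norm_ex (θ + δ)
      rw [h3, norm_zero] at h4
      exact zero_ne_one h4
    · have h3 : ex (θ + δ) = 2 * ex θ := by linear_combination e
      have h4 := norm_ex (θ + δ)
      rw [h3, norm_mul, norm_ex, Complex.norm_two] at h4
      norm_num at h4
  refine ⟨key _ Real.cos_pi_div_three, ?_⟩
  rw [sub_eq_add_neg]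
  exact key _ (by rw [Real.cos_neg, Real.cos_pi_div_three])

theorem P_add_int (K : Fin 5 → Set ℂ) (x : ℂ) (c : Fin 5) (θ : ℝ) (k : ℤ) :
    θ + k * (2 * π) ∈ P K x c ↔ θ ∈ P K x c := by
  have e : (Homeomorph.addRight ((k : ℝ) * (2 * π))) ⁻¹' F K x c = F K x c := by
    ext s
    exact F_add_int K x c s k
  change θ ∈ (Homeomorph.addRight ((k : ℝ) * (2 * π))) ⁻¹' interior (F K x c) ↔
    θ ∈ interior (F K x c)
  rw [Homeomorph.preimage_interior, e]

theorem Good.arc_len (h : Good K) {c : Fin 5} {α β : ℝ} (hs : Ioo α β ⊆ F K x c) :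
    β - α ≤ π / 3 := by
  by_contra hc
  have hc' := not_le.1 hc
  have hp := Real.pi_pos
  have h1 : (α + β - π / 3) / 2 ∈ P K x c :=
    interior_maximal hs isOpen_Ioo ⟨by linarith, by linarith⟩
  exact (h.adj h1).1 (hs ⟨by linarith, by linarith⟩)

theorem Good.out_side (h : Good K) {c : Fin 5} {Q : Set ℂ} (hQ : IsPreconnected Q) (hs : Q ⊆ K c)
    (hx : x ∈ Q) {p q : ℂ} (hq : q ∈ Q) (h1 : ‖p - q‖ < 1) :
    ∃ ρ : ℝ, 0 < ρ ∧ ∀ y ∈ ball p ρ, 1 < ‖y - x‖ → y ∉ K c := by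
  refine ⟨1 - ‖p - q‖, by linarith, fun y hy h2 => h.sweep hQ hs hq hx ?_ h2⟩
  rw [mem_ball_iff_norm] at hy
  have := norm_sub_le_norm_sub_add_norm_sub y p q
  linarith

theorem Good.in_side (h : Good K) {c : Fin 5} {Q : Set ℂ} (hQ : IsPreconnected Q) (hs : Q ⊆ K c)
    (hx : x ∈ Q) {p q : ℂ} (hq : q ∈ Q) (h1 : 1 < ‖p - q‖) :
    ∃ ρ : ℝ, 0 < ρ ∧ ∀ y ∈ ball p ρ, ‖y - x‖ < 1 → y ∉ K c := by
  refine ⟨‖p - q‖ - 1, by linarith, fun y hy h2 => h.sweep hQ hs hx hq h2 ?_⟩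
  rw [mem_ball_iff_norm'] at hy
  have := norm_sub_le_norm_sub_add_norm_sub p y q
  linarith

end Crest.Agent.R40.Loc
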