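import Crest.Agent.R40.TopDefs

/-! Row 40, B2/TOP: cut-wire theorem, boundary bumping, blobs. -/

set_option autoImplicit false
open Set Metric

namespace Crest.Agent.R40

/-- Cut-wire theorem. -/
theorem cut_wire {Z A B : Set ℂ} (hZ : IsCompact Z) (hA : IsClosed A) (hB : IsClosed B)
    (h : ∀ Q, Q ⊆ Z → IsCompact Q → IsPreconnected Q → (Q ∩ A).Nonempty → (Q ∩ B).Nonempty →
      False) :
    ∃ P R : Set ℂ, IsCompact P ∧ IsCompact R ∧ Disjoint P R ∧ P ∪ R = Z ∧ Disjoint P B ∧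
      Disjoint R A := by
  haveI : CompactSpace Z := isCompact_iff_compactSpace.1 hZ
  have hA' : IsCompact ((↑) ⁻¹' A : Set Z) := (hA.preimage continuous_subtype_val).isCompact
  have hB' : IsCompact ((↑) ⁻¹' B : Set Z) := (hB.preimage continuous_subtype_val).isCompact
  have h1 : ∀ a : Z, (a : ℂ) ∈ A → ∃ C : Set Z, IsClopen C ∧ a ∈ C ∧
      Disjoint C ((↑) ⁻¹' B : Set Z) := by
    intro a ha
    have h2 : ((↑) ⁻¹' B : Set Z) ∩ ⋂ s : {s : Set Z // IsClopen s ∧ a ∈ s}, (s : Set Z) = ∅ := by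
      rw [← connectedComponent_eq_iInter_isClopen, eq_empty_iff_forall_notMem]
      rintro b ⟨hb, hba⟩
      exact h ((↑) '' connectedComponent a) (by rintro _ ⟨z, -, rfl⟩; exact z.2)
        (isClosed_connectedComponent.isCompact.image continuous_subtype_val)
        (isPreconnected_connectedComponent.image _ continuous_subtype_val.continuousOn)
        ⟨a, ⟨a, mem_connectedComponent, rfl⟩, ha⟩ ⟨b, ⟨b, hba, rfl⟩, hb⟩
    obtain ⟨u, hu⟩ := hB'.elim_finite_subfamily_closed _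
      (fun s : {s : Set Z // IsClopen s ∧ a ∈ s} => s.2.1.1) h2
    refine ⟨⋂ s ∈ u, (s : Set Z), isClopen_biInter_finset fun s _ => s.2.1,
      mem_iInter₂.2 fun s _ => s.2.2, ?_⟩
    rw [disjoint_iff_inter_eq_empty, inter_comm]
    exact hu
  choose! C hC1 hC2 hC3 using h1
  obtain ⟨t, ht1, ht2⟩ := hA'.elim_nhds_subcover C fun a ha => (hC1 a ha).2.mem_nhds (hC2 a ha)
  have hcl : IsClopen (⋃ a ∈ t, C a) := isClopen_biUnion_finset fun a ha => hC1 a (ht1 a ha)
  refine ⟨(↑) '' (⋃ a ∈ t, C a), (↑) '' (⋃ a ∈ t, C a)ᶜ,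
    hcl.1.isCompact.image continuous_subtype_val,
    hcl.compl.1.isCompact.image continuous_subtype_val,
    disjoint_image_of_injective Subtype.val_injective disjoint_compl_right, ?_, ?_, ?_⟩
  · rw [← image_union, union_compl_self, image_univ, Subtype.range_coe]
  · refine disjoint_left.2 ?_
    rintro _ ⟨z, hz, rfl⟩ hb
    obtain ⟨a, ha, hza⟩ := mem_iUnion₂.1 hz
    exact disjoint_left.1 (hC3 a (ht1 a ha)) hza hb
  · refine disjoint_left.2 ?_
    rintro _ ⟨z, hz, rfl⟩ ha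
    exact hz (ht2 ha)

/-- Cut-wire theorem for disjoint `A`, `B`: only nondegenerate continua matter. -/
theorem cut_wire' {Z A B : Set ℂ} (hZ : IsCompact Z) (hA : IsClosed A) (hB : IsClosed B)
    (hAB : Disjoint A B)
    (h : ∀ Q, Cont Q → Q ⊆ Z → (Q ∩ A).Nonempty → (Q ∩ B).Nonempty → False) :
    ∃ P R : Set ℂ, IsCompact P ∧ IsCompact R ∧ Disjoint P R ∧ P ∪ R = Z ∧ Disjoint P B ∧
      Disjoint R A := by
  refine cut_wire hZ hA hB fun Q hQZ hQ hQ' ⟨a, ha⟩ ⟨b, hb⟩ =>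
    h Q ⟨hQ, hQ', a, ha.1, b, hb.1, fun e => ?_⟩ hQZ ⟨a, ha⟩ ⟨b, hb⟩
  exact disjoint_left.1 hAB ha.2 (e ▸ hb.2)

/-- Boundary bumping. -/
theorem bump {Q U : Set ℂ} (hQ : Cont Q) {x : ℂ} (hx : x ∈ Q) (hU : IsOpen U) (hxU : x ∈ U) :
    ∃ Q', Cont Q' ∧ x ∈ Q' ∧ Q' ⊆ Q ∩ U := by
  obtain ⟨q, hq, hqx⟩ := hQ.2.2.exists_ne x
  obtain ⟨ε, hε, hεU⟩ := Metric.isOpen_iff.1 hU x hxU
  have hd : 0 < dist q x := dist_pos.2 hqx
  set r := min ε (dist q x) / 2 with hr
  have hm : 0 < min ε (dist q x) := lt_min hε hd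
  have hr0 : 0 < r := by positivity
  have hr1 : r < ε := by linarith [min_le_left ε (dist q x)]
  have hr2 : r < dist q x := by linarith [min_le_right ε (dist q x)]
  by_contra hne
  obtain ⟨P, R, hP, hR, hPR, hU', hPB, hRA⟩ := cut_wire' (Z := Q ∩ closedBall x r) (A := {x})
    (B := sphere x r) (hQ.1.inter_right isClosed_closedBall) isClosed_singleton isClosed_sphere
    (disjoint_singleton_left.2 (by simpa using hr0.ne)) fun Q' hQ' hs ⟨y, hy⟩ _ =>
      hne ⟨Q', hQ', (mem_singleton_iff.1 hy.2) ▸ hy.1,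
        hs.trans (inter_subset_inter_right _ ((closedBall_subset_ball hr1).trans hεU))⟩
  have hxP : x ∈ P := by
    have : x ∈ P ∪ R := hU'.symm ▸ ⟨hx, mem_closedBall_self hr0.le⟩
    exact this.resolve_right fun h => disjoint_left.1 hRA h rfl
  obtain ⟨z, -, hzP, hz⟩ := isPreconnected_closed_iff.1 hQ.2.1 P (R ∪ (ball x r)ᶜ) hP.isClosed
    (hR.isClosed.union isOpen_ball.isClosed_compl) (fun z hz => by
      by_cases hb : z ∈ ball x r
      · have : z ∈ P ∪ R := hU'.symm ▸ ⟨hz, ball_subset_closedBall hb⟩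
        exact this.imp_right Or.inl
      · exact Or.inr (Or.inr hb)) ⟨x, hx, hxP⟩
    ⟨q, hq, Or.inr fun h => absurd (mem_ball.1 h) hr2.not_gt⟩
  rcases hz with hz | hz
  · exact disjoint_left.1 hPR hzP hz
  · have : z ∈ Q ∩ closedBall x r := hU' ▸ Or.inl hzP
    exact disjoint_left.1 hPB hzP (le_antisymm (mem_closedBall.1 this.2) (not_lt.1 hz))

/-- A continuum inside `A ∪ T` lies in the closed set `A` if `T` contains no continuum. -/
theorem cont_subset_of_union {Q A T : Set ℂ} (hQ : Cont Q) (hA : IsClosed A)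
    (hT : ∀ Q', Cont Q' → ¬ Q' ⊆ T) (h : Q ⊆ A ∪ T) : Q ⊆ A := by
  intro x hx
  by_contra hxA
  obtain ⟨Q', hQ', -, hs⟩ := bump hQ hx hA.isOpen_compl hxA
  exact hT Q' hQ' fun z hz => (h (hs hz).1).resolve_left (hs hz).2

/-- A continuum covered by finitely many closed sets: one of them contains a subcontinuum. -/
theorem cont_union {ι : Type} [Finite ι] {Q : Set ℂ} (hQ : Cont Q) (F : ι → Set ℂ)
    (hF : ∀ i, IsClosed (F i)) (hcov : Q ⊆ ⋃ i, F i) :
    ∃ i Q', Cont Q' ∧ Q' ⊆ Q ∩ F i := by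
  classical
  have key : ∀ s : Finset ι, Q ⊆ ⋃ i ∈ s, F i → ∃ i Q', Cont Q' ∧ Q' ⊆ Q ∩ F i := by
    intro s
    induction s using Finset.induction_on with
    | empty =>
      intro h
      obtain ⟨x, hx⟩ := hQ.2.2.nonempty
      simpa using h hx
    | insert i s _ ih =>
      intro h
      by_contra hne
      refine hne (ih (cont_subset_of_union (T := Q ∩ F i) hQ
        (isClosed_biUnion_finset fun j _ => hF j) (fun Q' hQ' hs => hne ⟨i, Q', hQ', hs⟩)
        fun z hz => ?_))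
      have := h hz
      rw [Finset.set_biUnion_insert] at this
      exact this.symm.imp_right fun hi => ⟨hz, hi⟩
  have := Fintype.ofFinite ι
  exact key Finset.univ (by simpa using hcov)

end Crest.Agent.R40
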