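import Crest.Agent.R40.LocA
import Crest.Agent.R40.TopA

/-! Row 40, B2/local: rule R2, generic angles. -/

set_option autoImplicit false
open Set Metric

namespace Crest.Agent.R40.Loc

local notation "π" => Real.pi

variable {K : Fin 5 → Set ℂ} {x : ℂ}

theorem LocB.radial (m : ℂ) (φ : ℝ) {d : ℂ} (hd : ‖d‖ < 1)
    (ha : Real.cos φ * d.re + Real.sin φ * d.im ≠ 0) : ∃ t : ℝ, 0 < t ∧ t ≤ 1 ∧ 1 - ‖d‖ ≤ t ∧
      (‖m + t * ex φ - (m - d)‖ < 1 ∧ 1 < ‖m + t * ex φ - (m + d)‖ ∨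
        ‖m + t * ex φ - (m + d)‖ < 1 ∧ 1 < ‖m + t * ex φ - (m - d)‖) := by
  have h0 := norm_nonneg d
  have h1 : 0 < 1 - ‖d‖ ^ 2 := by nlinarith
  have h2 : ‖d‖ ^ 2 = d.re ^ 2 + d.im ^ 2 := by simpa using norm_sub_sq d 0
  have h3 := Real.sq_sqrt h1.le
  have h4 := Real.cos_sq_add_sin_sq φ
  have h5 := Real.sqrt_pos.2 h1
  refine ⟨√(1 - ‖d‖ ^ 2), h5, Real.sqrt_le_one.2 (by nlinarith),
    Real.le_sqrt_of_sq_le (by nlinarith), ?_⟩
  generalize √(1 - ‖d‖ ^ 2) = t at *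
  have e1 : ‖m + t * ex φ - (m - d)‖ ^ 2 = 1 + 2 * (t * (Real.cos φ * d.re + Real.sin φ * d.im)) := by
    rw [norm_sub_sq]
    simp only [Complex.add_re, Complex.add_im, Complex.sub_re, Complex.sub_im, Complex.re_ofReal_mul,
      Complex.im_ofReal_mul, ex_re, ex_im]
    linear_combination h3 - h2 + t ^ 2 * h4
  have e2 : ‖m + t * ex φ - (m + d)‖ ^ 2 = 1 - 2 * (t * (Real.cos φ * d.re + Real.sin φ * d.im)) := by
    rw [norm_sub_sq]
    simp only [Complex.add_re, Complex.add_im, Complex.re_ofReal_mul, Complex.im_ofReal_mul, ex_re,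
      ex_im]
    linear_combination h3 - h2 + t ^ 2 * h4
  have lt : ∀ z : ℂ, ‖z‖ ^ 2 < 1 → ‖z‖ < 1 := fun z => (sq_lt_one_iff₀ (norm_nonneg z)).1
  have gt : ∀ z : ℂ, 1 < ‖z‖ ^ 2 → 1 < ‖z‖ := fun z => (one_lt_sq_iff₀ (norm_nonneg z)).1
  rcases lt_or_gt_of_ne (mul_ne_zero h5.ne' ha) with h | h
  · exact Or.inl ⟨lt _ (by linarith), gt _ (by linarith)⟩
  · exact Or.inr ⟨lt _ (by linarith), gt _ (by linarith)⟩

theorem near_sweep (x : ℂ) (θ : ℝ) {ε : ℝ} (hε : 0 < ε) :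
    ∃ δ : ℝ, 0 < δ ∧ ∀ q ∈ ball x δ, ∀ q' ∈ ball x δ, q ≠ q' → ∃ y ∈ ball (x + ex θ) ε,
      (‖y - q‖ < 1 ∧ 1 < ‖y - q'‖) ∨ (‖y - q'‖ < 1 ∧ 1 < ‖y - q‖) := by
  have hc : ContinuousAt ex θ := continuous_ex.continuousAt
  obtain ⟨η, hη, hb⟩ := Metric.continuousAt_iff.1 hc (ε / 2) (half_pos hε)
  obtain ⟨s, hs0, hs1, hs2⟩ : ∃ s : ℝ, 0 < s ∧ s < η ∧ s < π :=
    ⟨min η π / 2, half_pos (lt_min hη Real.pi_pos), (half_lt_self (lt_min hη Real.pi_pos)).trans_le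
      (min_le_left _ _), (half_lt_self (lt_min hη Real.pi_pos)).trans_le (min_le_right _ _)⟩
  refine ⟨min (ε / 4) 1, lt_min (by positivity) one_pos, fun q hq q' hq' hne => ?_⟩
  rw [mem_ball, dist_eq_norm] at hq hq'
  obtain ⟨m, d, rfl, rfl⟩ : ∃ m d : ℂ, q = m - d ∧ q' = m + d :=
    ⟨(q + q') / 2, (q' - q) / 2, by ring, by ring⟩
  have hd0 : d ≠ 0 := by
    rintro rfl
    simp at hne
  have hm : 2 * ‖m - x‖ ≤ ‖m - d - x‖ + ‖m + d - x‖ := by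
    have := norm_add_le (m - d - x) (m + d - x)
    rwa [show m - d - x + (m + d - x) = 2 * (m - x) by ring, norm_mul, Complex.norm_two] at this
  have hd : 2 * ‖d‖ ≤ ‖m + d - x‖ + ‖m - d - x‖ := by
    have := norm_sub_le (m + d - x) (m - d - x)
    rwa [show m + d - x - (m - d - x) = 2 * d by ring, norm_mul, Complex.norm_two] at this
  obtain ⟨h1, h2⟩ := lt_min_iff.1 hq
  obtain ⟨h3, h4⟩ := lt_min_iff.1 hq'
  obtain ⟨φ, hφ, ha⟩ : ∃ φ, ‖ex φ - ex θ‖ < ε / 2 ∧ Real.cos φ * d.re + Real.sin φ * d.im ≠ 0 := by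
    by_contra hh
    push Not at hh
    have e1 := hh θ (by simpa using hε)
    have e2 := hh (θ + s) (by
      rw [← dist_eq_norm]
      exact hb (by simpa [abs_of_pos hs0] using hs1))
    rw [Real.cos_add, Real.sin_add] at e2
    have e3 : Real.sin s * (Real.cos θ * d.im - Real.sin θ * d.re) = 0 := by
      linear_combination e2 - Real.cos s * e1
    have e4 := (mul_eq_zero.1 e3).resolve_left (Real.sin_pos_of_pos_of_lt_pi hs0 hs2).ne'
    have e5 := Real.cos_sq_add_sin_sq θ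
    refine hd0 (Complex.ext ?_ ?_)
    · rw [Complex.zero_re]
      linear_combination Real.cos θ * e1 - Real.sin θ * e4 - d.re * e5
    · rw [Complex.zero_im]
      linear_combination Real.sin θ * e1 + Real.cos θ * e4 - d.im * e5
  obtain ⟨t, ht0, ht1, ht2, h⟩ := LocB.radial m φ (d := d) (by linarith) ha
  refine ⟨m + t * ex φ, ?_, h⟩
  rw [mem_ball, dist_eq_norm, show m + t * ex φ - (x + ex θ) =
    (m - x) + ((t - 1 : ℝ) * ex φ + (ex φ - ex θ)) by push_cast; ring]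
  refine (norm_add_le _ _).trans_lt ?_
  have h5 := norm_add_le ((t - 1 : ℝ) * ex φ) (ex φ - ex θ)
  rw [norm_mul, norm_ex, mul_one, Complex.norm_real, Real.norm_of_nonpos (by linarith)] at h5
  linarith

theorem Good.r2_set (h : Good K) (S : Set (Fin 5))
    (hS : ∀ ε : ℝ, 0 < ε → ∃ Q, Cont Q ∧ Q ⊆ ball x ε ∧ ∀ i ∈ S, Q ⊆ K i) (θ : ℝ) :
    ∃ k, k ∉ S ∧ θ ∈ F K x k := by
  by_contra hh
  push Not at hh
  have h1 : ∀ᶠ y in nhds (x + ex θ), ∀ k, k ∉ S → y ∉ K k := by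
    refine Filter.eventually_all.2 fun k => ?_
    by_cases hk : k ∈ S
    · exact Filter.Eventually.of_forall fun _ h' => absurd hk h'
    · filter_upwards [(h.closed k).isOpen_compl.mem_nhds (hh k hk)] with y hy _ using hy
  obtain ⟨ε, hε, hb⟩ := Metric.eventually_nhds_iff_ball.1 h1
  obtain ⟨δ, hδ, hs⟩ := near_sweep x θ hε
  obtain ⟨Q, ⟨-, hQ, q, hq, q', hq', hne⟩, hQb, hQK⟩ := hS δ hδ
  obtain ⟨y, hy, h2⟩ := hs q (hQb hq) q' (hQb hq') hne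
  obtain ⟨i, hi⟩ := h.cover y
  have hiS : i ∈ S := by
    by_contra hiS
    exact hb y hy i hiS hi
  rcases h2 with h2 | h2
  · exact h.sweep hQ (hQK i hiS) hq hq' h2.1 h2.2 hi
  · exact h.sweep hQ (hQK i hiS) hq' hq h2.1 h2.2 hi

/-- Rule R2. -/
theorem Good.r2 (h : Good K) {i j : Fin 5} (hg : Gam K x i j) (θ : ℝ) :
    ∃ k, k ≠ i ∧ k ≠ j ∧ θ ∈ F K x k := by
  obtain ⟨k, hk, hF⟩ := h.r2_set (x := x) {i, j} (fun ε hε => by
    obtain ⟨Q, hQ, hs⟩ := hg ε hε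
    refine ⟨Q, hQ, fun z hz => (hs hz).2, ?_⟩
    rintro l (rfl | rfl)
    exacts [fun z hz => (hs hz).1.1, fun z hz => (hs hz).1.2]) θ
  exact ⟨k, fun e => hk (Or.inl e), fun e => hk (Or.inr e), hF⟩

theorem arm_gam {i j : Fin 5} (ha : Arm K x i j) : Gam K x i j := by
  intro ε hε
  obtain ⟨Q, hQ, hx, hs⟩ := ha
  obtain ⟨Q', hQ', -, hs'⟩ := bump hQ hx isOpen_ball (mem_ball_self hε)
  exact ⟨Q', hQ', fun z hz => ⟨hs (hs' hz).1, (hs' hz).2⟩⟩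

theorem not_gam_ball (K : Fin 5 → Set ℂ) (x : ℂ) :
    ∃ r : ℝ, 0 < r ∧ ∀ i j, ¬ Gam K x i j → ∀ Q, Cont Q → ¬ Q ⊆ K i ∩ K j ∩ ball x r := by
  have h1 : ∀ᶠ r in nhdsWithin (0 : ℝ) (Ioi 0), ∀ i j, ¬ Gam K x i j → ∀ Q, Cont Q →
      ¬ Q ⊆ K i ∩ K j ∩ ball x r := by
    refine Filter.eventually_all.2 fun i => Filter.eventually_all.2 fun j => ?_
    by_cases hg : Gam K x i j
    · exact Filter.Eventually.of_forall fun _ h' => absurd hg h'
    · simp only [Gam, not_forall, not_exists, not_and] at hg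
      obtain ⟨ε, hε, hg⟩ := hg
      filter_upwards [Ioo_mem_nhdsGT hε] with r hr _ Q hQ hs
      exact hg Q hQ (hs.trans (inter_subset_inter_right _ (ball_subset_ball hr.2.le)))
  obtain ⟨r, hr, hr0⟩ := (h1.and self_mem_nhdsWithin).exists
  exact ⟨r, hr0, hr⟩

theorem cont_arc (x : ℂ) {α β : ℝ} (h : α < β) : Cont ((fun θ => x + ex θ) '' Icc α β) := by
  have hc : Continuous fun θ => x + ex θ := by fun_prop
  obtain ⟨s, hs0, hs1, hs2⟩ : ∃ s : ℝ, 0 < s ∧ s ≤ β - α ∧ s ≤ 1 :=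
    ⟨min (β - α) 1, lt_min (by linarith) one_pos, min_le_left _ _, min_le_right _ _⟩
  refine ⟨isCompact_Icc.image hc, isPreconnected_Icc.image _ hc.continuousOn,
    _, ⟨α + s, ⟨by linarith, by linarith⟩, rfl⟩, _, ⟨α, ⟨le_rfl, h.le⟩, rfl⟩, fun e => ?_⟩
  have h1 : ex α * ex s = ex α * 1 := by rw [← ex_add, mul_one]; exact add_left_cancel e
  have h2 := congrArg Complex.im (mul_left_cancel₀ (norm_ne_zero_iff.1 (by simp)) h1)
  rw [ex_im, Complex.one_im] at h2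
  exact (Real.sin_pos_of_pos_of_le_one hs0 hs2).ne' h2

/-- An arc around `θ` inside all the colours of `S`, as small as we like. -/
theorem cont_of_P (S : Finset (Fin 5)) {θ : ℝ} (hθ : ∀ i ∈ S, θ ∈ P K x i) {O : Set ℂ}
    (hO : IsOpen O) (hm : x + ex θ ∈ O) :
    ∃ Q, Cont Q ∧ x + ex θ ∈ Q ∧ Q ⊆ O ∧ ∀ i ∈ S, Q ⊆ K i := by
  have hc : Continuous fun θ => x + ex θ := by fun_prop
  have h1 : ∀ᶠ φ in nhds θ, x + ex φ ∈ O ∧ ∀ i ∈ S, φ ∈ F K x i :=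
    (hc.continuousAt.eventually (hO.mem_nhds hm)).and
      ((Filter.eventually_all_finset S).2 fun i hi => mem_interior_iff_mem_nhds.1 (hθ i hi))
  obtain ⟨s, hs, hb⟩ := Metric.nhds_basis_closedBall.eventually_iff.1 h1
  rw [Real.closedBall_eq_Icc] at hb
  refine ⟨_, cont_arc x (α := θ - s) (β := θ + s) (by linarith),
    ⟨θ, ⟨by linarith, by linarith⟩, rfl⟩, ?_, fun i hi => ?_⟩
  · rintro _ ⟨φ, hφ, rfl⟩
    exact (hb hφ).1
  · rintro _ ⟨φ, hφ, rfl⟩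
    exact (hb hφ).2 i hi

theorem Good.dense_gen (h : Good K) (x : ℂ) : Dense (Gen K x) := by
  have h1 : ∀ (k : ℤ) (c : Fin 5), IsClosed {θ : ℝ | θ + k * (π / 3) ∈ F K x c} := fun k c =>
    (h.isClosed_F x c).preimage (f := fun θ : ℝ => θ + k * (π / 3)) (by fun_prop)
  have h2 := dense_iInter_of_isOpen
    (f := fun l : ℤ × Fin 5 => (frontier {θ : ℝ | θ + l.1 * (π / 3) ∈ F K x l.2})ᶜ)
    (fun _ => isClosed_frontier.isOpen_compl)
    fun l => interior_eq_empty_iff_dense_compl.1 (interior_frontier (h1 l.1 l.2))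
  refine h2.mono fun θ hθ k c hc => ?_
  have h3 : θ ∈ interior {θ : ℝ | θ + k * (π / 3) ∈ F K x c} := by
    by_contra h3
    exact mem_iInter.1 hθ (k, c) ⟨subset_closure hc, h3⟩
  exact ((Homeomorph.addRight (k * (π / 3))).preimage_interior (F K x c)).ge h3

theorem Good.of_gen (h : Good K) {C U : Set ℝ} (hC : IsClosed C) (hU : IsOpen U)
    (hG : ∀ θ ∈ U, θ ∈ Gen K x → θ ∈ C) : U ⊆ C := by
  intro θ hθ
  by_contra hc
  obtain ⟨φ, hφ, h1, h2⟩ := (h.dense_gen x).exists_mem_open (hU.sdiff hC) ⟨θ, hθ, hc⟩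
  exact h2 (hG φ h1 hφ)

end Crest.Agent.R40.Loc
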