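import Crest.Agent.R40.LocC2

/-! Row 40, B2/local: lemmas on the real line. -/

set_option autoImplicit false
open Set Metric

namespace Crest.Agent.R40.Loc

local notation "π" => Real.pi

variable {K : Fin 5 → Set ℂ} {x : ℂ}

theorem endpoint_right {W : Set ℝ} (hW : IsOpen W) {y₀ y₁ : ℝ} (h0 : y₀ ∈ W) (h1 : y₁ ∉ W)
    (hlt : y₀ < y₁) : ∃ θ, y₀ < θ ∧ θ ≤ y₁ ∧ θ ∉ W ∧ Ico y₀ θ ⊆ W := by
  obtain ⟨θ, ⟨hθ, hθW⟩, hmin⟩ := (isCompact_Icc.inter_right hW.isClosed_compl).exists_isLeast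
    ⟨y₁, ⟨hlt.le, le_rfl⟩, h1⟩
  refine ⟨θ, lt_of_le_of_ne hθ.1 fun e => hθW (e ▸ h0), hθ.2, hθW, fun z hz => ?_⟩
  by_contra hz'
  exact absurd (hmin ⟨⟨hz.1, hz.2.le.trans hθ.2⟩, hz'⟩) (not_le.2 hz.2)

theorem endpoint_left {W : Set ℝ} (hW : IsOpen W) {y₀ y₁ : ℝ} (h0 : y₀ ∈ W) (h1 : y₁ ∉ W)
    (hlt : y₁ < y₀) : ∃ θ, y₁ ≤ θ ∧ θ < y₀ ∧ θ ∉ W ∧ Ioc θ y₀ ⊆ W := by
  obtain ⟨θ, ⟨hθ, hθW⟩, hmax⟩ := (isCompact_Icc.inter_right hW.isClosed_compl).exists_isGreatest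
    ⟨y₁, ⟨le_rfl, hlt.le⟩, h1⟩
  refine ⟨θ, hθ.1, lt_of_le_of_ne hθ.2 fun e => hθW (e ▸ h0), hθW, fun z hz => ?_⟩
  by_contra hz'
  exact absurd (hmax ⟨⟨hθ.1.trans hz.1.le, hz.2⟩, hz'⟩) (not_le.2 hz.1)

theorem twoType_of_cover {X Y : Set ℝ} (hX : IsClosed X) (hY : IsClosed Y)
    (hcov : ∀ θ, θ ∈ X ∨ θ ∈ Y)
    (aX : ∀ θ ∈ interior X, θ + π / 3 ∉ X ∧ θ - π / 3 ∉ X)
    (aY : ∀ θ ∈ interior Y, θ + π / 3 ∉ Y ∧ θ - π / 3 ∉ Y) :
    interior X = Yᶜ ∧ interior Y = Xᶜ ∧ ∃ q l, TwoType (interior X) (interior Y) q l := by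
  have cX : Xᶜ ⊆ interior Y :=
    interior_maximal (fun θ h => (hcov θ).resolve_left h) hX.isOpen_compl
  have cY : Yᶜ ⊆ interior X :=
    interior_maximal (fun θ h => (hcov θ).resolve_right h) hY.isOpen_compl
  have eX : interior X = Yᶜ := Subset.antisymm
    (fun θ h => by simpa using (aY _ (cX (aX θ h).1)).2) cY
  have eY : interior Y = Xᶜ := Subset.antisymm
    (fun θ h => by simpa using (aX _ (cY (aY θ h).1)).2) cX
  refine ⟨eX, eY, ?_⟩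
  obtain ⟨y₀, hy₀⟩ : (interior X).Nonempty := by
    rw [eX, nonempty_compl]
    rintro rfl
    exact (aY 0 (by simp)).1 trivial
  obtain ⟨q, hq, -, hqX, hI⟩ := endpoint_right isOpen_interior hy₀
    (fun h => (aX y₀ hy₀).1 (interior_subset h)) (by linarith [Real.pi_pos])
  refine ⟨q, q - y₀, ?_, fun θ => ⟨fun h => cX (aX θ h).1, fun h => cY ?_⟩,
    fun θ => ⟨fun h => cY (aY θ h).1, fun h => cX ?_⟩, sub_pos.2 hq, fun θ hθ => hI ?_,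
    fun δ hδ => ?_⟩
  · rw [eX]
    exact disjoint_compl_left.mono_right interior_subset
  · simpa using (aY _ h).2
  · simpa using (aX _ h).2
  · exact ⟨by linarith [hθ.1], hθ.2⟩
  · by_contra hc
    push Not at hc
    have hqX' : q ∈ X := hX.closure_subset_iff.2 (hI.trans interior_subset)
      (by rw [closure_Ico hq.ne]; exact ⟨hq.le, le_rfl⟩)
    refine hqX (interior_maximal (t := Ioo y₀ (q + δ)) (fun z hz => ?_) isOpen_Ioo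
      ⟨hq, by linarith⟩)
    rcases lt_trichotomy z q with h | rfl | h
    · exact interior_subset (hI ⟨hz.1.le, h⟩)
    · exact hqX'
    · have := hc (z - q) (by linarith) (by linarith [hz.2])
      rw [eY] at this
      simpa using this

theorem TwoType.rot {X Y : Set ℝ} {q l : ℝ} (h : TwoType X Y q l) :
    TwoType Y X (q + π / 3) l := by
  refine ⟨h.disj.symm, h.yx, h.xy, h.pos, fun θ hθ => ?_, fun δ hδ => ?_⟩
  · simpa using (h.xy (θ - π / 3)).1 (h.left ⟨by linarith [hθ.1], by linarith [hθ.2]⟩)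
  · obtain ⟨σ, h0, h1, h2⟩ := h.right δ hδ
    exact ⟨σ, h0, h1, by rw [add_right_comm]; exact (h.yx _).1 h2⟩

theorem TwoType.shrink {X Y : Set ℝ} {q l l' : ℝ} (h : TwoType X Y q l) (h0 : 0 < l')
    (h1 : l' ≤ l) : TwoType X Y q l' := by
  exact ⟨h.disj, h.xy, h.yx, h0, fun θ hθ => h.left ⟨by linarith [hθ.1], hθ.2⟩, h.right⟩

theorem TwoType.per {X Y : Set ℝ} {q l : ℝ} (h : TwoType X Y q l) (θ : ℝ) (k : ℤ) :
    (θ + k * (2 * π / 3) ∈ X ↔ θ ∈ X) ∧ (θ + k * (2 * π / 3) ∈ Y ↔ θ ∈ Y) := by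
  have h1 : ∀ θ, (θ + 2 * π / 3 ∈ X ↔ θ ∈ X) ∧ (θ + 2 * π / 3 ∈ Y ↔ θ ∈ Y) := fun θ => by
    rw [show θ + 2 * π / 3 = θ + π / 3 + π / 3 by ring]
    exact ⟨((h.xy θ).trans (h.yx _)).symm, ((h.yx θ).trans (h.xy _)).symm⟩
  induction k using Int.induction_on with
  | zero => simp
  | succ i ih =>
    rw [show θ + ((i + 1 : ℤ) : ℝ) * (2 * π / 3) = θ + ((i : ℤ) : ℝ) * (2 * π / 3) + 2 * π / 3 by
      push_cast; ring]
    exact ⟨(h1 _).1.trans ih.1, (h1 _).2.trans ih.2⟩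
  | pred i ih =>
    rw [show θ + ((-i : ℤ) : ℝ) * (2 * π / 3) =
      θ + ((-i - 1 : ℤ) : ℝ) * (2 * π / 3) + 2 * π / 3 by push_cast; ring] at ih
    exact ⟨(h1 _).1.symm.trans ih.1, (h1 _).2.symm.trans ih.2⟩

end Crest.Agent.R40.Loc
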