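import Crest.Agent.R40.LocDefs

/-! Row 40, B2/local: hulls and counting on the circle. -/

set_option autoImplicit false
open Set Metric

namespace Crest.Agent.R40.Loc

local notation "π" => Real.pi

variable {K : Fin 5 → Set ℂ} {x : ℂ}

/-- Convex hull of an open periodic set of angles contained in an open half circle. -/
theorem hull {U : Set ℝ} (hU : IsOpen U) (hne : U.Nonempty)
    (hper : ∀ (u : ℝ) (k : ℤ), u + k * (2 * π) ∈ U ↔ u ∈ U) (m : ℝ)
    (hm : ∀ u ∈ U, 0 < Real.sin (u - m)) :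
    ∃ α β : ℝ, α < β ∧ (∀ u ∈ U, ∃ k : ℤ, u + k * (2 * π) ∈ Ioo α β) ∧
      ∀ y ∈ Ioo α β, ∃ u ∈ U, ∃ u' ∈ U, 0 < Real.sin (y - u) ∧ Real.sin (y - u') < 0 := by
  have hpi := Real.pi_pos
  have key : ∀ u ∈ U, ∃ k : ℤ, u + k * (2 * π) ∈ U ∩ Ioo m (m + π) := by
    intro u hu
    obtain ⟨k, hk, -⟩ := existsUnique_add_zsmul_mem_Ico (show 0 < 2 * π by positivity) u m
    rw [zsmul_eq_mul] at hk
    have hU' := (hper u k).2 hu
    have hs := hm _ hU'
    refine ⟨k, hU', lt_of_le_of_ne hk.1 fun h => ?_, ?_⟩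
    · rw [← h, sub_self, Real.sin_zero] at hs
      exact lt_irrefl _ hs
    · by_contra h
      have h1 := Real.sin_nonpos_of_nonpos_of_neg_pi_le (x := u + k * (2 * π) - m - 2 * π)
        (by linarith [hk.2]) (by linarith [not_lt.1 h])
      rw [Real.sin_sub_two_pi] at h1
      linarith
  set V := U ∩ Ioo m (m + π) with hV
  have hVo : IsOpen V := hU.inter isOpen_Ioo
  have hVne : V.Nonempty := by
    obtain ⟨u, hu⟩ := hne
    obtain ⟨k, hk⟩ := key u hu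
    exact ⟨_, hk⟩
  have hb : BddBelow V := ⟨m, fun v hv => hv.2.1.le⟩
  have ha : BddAbove V := ⟨m + π, fun v hv => hv.2.2.le⟩
  have hin : ∀ v ∈ V, v ∈ Ioo (sInf V) (sSup V) := by
    intro v hv
    obtain ⟨ε, hε, h⟩ := Metric.isOpen_iff.1 hVo v hv
    have h1 : v - ε / 2 ∈ V := h (by
      rw [mem_ball, Real.dist_eq, abs_lt]
      constructor <;> linarith)
    have h2 : v + ε / 2 ∈ V := h (by
      rw [mem_ball, Real.dist_eq, abs_lt]
      constructor <;> linarith)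
    have h3 := csInf_le hb h1
    have h4 := le_csSup ha h2
    constructor <;> linarith
  refine ⟨sInf V, sSup V, ?_, fun u hu => ?_, fun y hy => ?_⟩
  · obtain ⟨v, hv⟩ := hVne
    exact (hin v hv).1.trans (hin v hv).2
  · obtain ⟨k, hk⟩ := key u hu
    exact ⟨k, hin _ hk⟩
  · obtain ⟨u, hu, hu'⟩ := exists_lt_of_csInf_lt hVne hy.1
    obtain ⟨w, hw, hw'⟩ := exists_lt_of_lt_csSup hVne hy.2
    refine ⟨u, hu.1, w, hw.1, Real.sin_pos_of_pos_of_lt_pi (by linarith)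
      (by linarith [hu.2.1, hw.2.2]), ?_⟩
    exact Real.sin_neg_of_neg_of_neg_pi_lt (by linarith) (by linarith [hu.2.1, hw.2.2])

theorem exists_cos_pos {U : Set ℝ} (hU : IsOpen U) {ψ : ℝ} (hψ : ψ ∈ U) {θ : ℝ}
    (h : Real.cos (θ - ψ) = 0) : ∃ ψ' ∈ U, 0 < Real.cos (θ - ψ') := by
  obtain ⟨ε, hε, hb⟩ := Metric.isOpen_iff.1 hU ψ hψ
  set s := min (ε / 2) 1 with hs
  have s0 : 0 < s := lt_min (by linarith) one_pos
  have s1 : s ≤ ε / 2 := min_le_left _ _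
  have s2 : s ≤ 1 := min_le_right _ _
  have hsin : 0 < Real.sin s :=
    Real.sin_pos_of_pos_of_lt_pi s0 (by linarith [Real.pi_gt_three])
  have h1 : ψ - s ∈ U := hb (by
    rw [mem_ball, Real.dist_eq, abs_lt]
    constructor <;> linarith)
  have h2 : ψ + s ∈ U := hb (by
    rw [mem_ball, Real.dist_eq, abs_lt]
    constructor <;> linarith)
  have h3 := Real.sin_sq_add_cos_sq (θ - ψ)
  rw [h] at h3
  rcases lt_trichotomy (Real.sin (θ - ψ)) 0 with h4 | h4 | h4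
  · refine ⟨ψ - s, h1, ?_⟩
    rw [show θ - (ψ - s) = θ - ψ + s by ring, Real.cos_add, h]
    nlinarith
  · rw [h4] at h3
    norm_num at h3
  · refine ⟨ψ + s, h2, ?_⟩
    rw [show θ - (ψ + s) = θ - ψ - s by ring, Real.cos_sub, h]
    nlinarith

/-- Counting on hexagons modulo `π`. -/
theorem hex_len {G B C : Set ℝ} (hG : Dense G) {α β α' β' : ℝ}
    (hB : ∀ u ∈ B, ∃ k : ℤ, u + k * π ∈ Ioo α β) (hC : ∀ u ∈ C, ∃ k : ℤ, u + k * π ∈ Ioo α' β')
    (hl : β' - α' ≤ π / 3)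
    (hex : ∀ θ ∈ G, ∀ k : ℤ, θ + k * (π / 3) ∈ B ∪ C ∨ θ + k * (π / 3) + π / 3 ∈ B ∪ C) :
    π / 3 ≤ β - α := by
  have hpi := Real.pi_pos
  by_contra hlt
  obtain ⟨θ, hθG, hθ⟩ := hG.exists_between (show β < α + π / 3 by linarith [not_le.1 hlt])
  have hnB : ∀ j : ℤ, θ + j * (π / 3) ∉ B := by
    intro j hj
    obtain ⟨k, hk⟩ := hB _ hj
    have e : θ + j * (π / 3) + k * π = θ + ((j + 3 * k : ℤ) : ℝ) * (π / 3) := by
      push_cast
      ring
    rw [e] at hk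
    rcases le_or_gt 0 (j + 3 * k) with h | h
    · have h' : (0 : ℝ) ≤ ((j + 3 * k : ℤ) : ℝ) := by exact_mod_cast h
      nlinarith [hk.2, hθ.1]
    · have h' : ((j + 3 * k : ℤ) : ℝ) ≤ -1 := by exact_mod_cast (show j + 3 * k ≤ -1 by omega)
      nlinarith [hk.1, hθ.2]
  have hC' : ∀ i j : ℤ, θ + i * (π / 3) ∈ C → θ + j * (π / 3) ∈ C → (3 : ℤ) ∣ i - j := by
    intro i j hi hj
    obtain ⟨a, ha⟩ := hC _ hi
    obtain ⟨b, hb⟩ := hC _ hj
    have h1 : ((i + 3 * a - (j + 3 * b) : ℤ) : ℝ) < 1 := by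
      push_cast
      by_contra h
      nlinarith [ha.2, hb.1, not_lt.1 h]
    have h2 : (-1 : ℝ) < ((i + 3 * a - (j + 3 * b) : ℤ) : ℝ) := by
      push_cast
      by_contra h
      nlinarith [ha.1, hb.2, not_lt.1 h]
    have h3 : i + 3 * a - (j + 3 * b) < 1 := by exact_mod_cast h1
    have h4 : -1 < i + 3 * a - (j + 3 * b) := by exact_mod_cast h2
    omega
  have hx : ∀ k : ℤ, θ + k * (π / 3) ∈ C ∨ θ + ((k + 1 : ℤ) : ℝ) * (π / 3) ∈ C := by
    intro k
    have e : θ + k * (π / 3) + π / 3 = θ + ((k + 1 : ℤ) : ℝ) * (π / 3) := by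
      push_cast
      ring
    have h := hex θ hθG k
    rw [e] at h
    rcases h with (h | h) | (h | h)
    · exact absurd h (hnB _)
    · exact Or.inl h
    · exact absurd h (hnB _)
    · exact Or.inr h
  rcases hx 0 with h0 | h0 <;> rcases hx 1 with h1 | h1 <;> rcases hx 2 with h2 | h2 <;>
    first
    | (have := hC' _ _ h0 h1; omega)
    | (have := hC' _ _ h0 h2; omega)

/-- Six different points, four exceptions. -/
theorem six_points {L R : ℝ} (h1 : L < R) (h2 : R - L ≤ π / 3) {S₁ S₂ S₃ S₄ : Set ℂ}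
    (s₁ : S₁.Subsingleton) (s₂ : S₂.Subsingleton) (s₃ : S₃.Subsingleton) (s₄ : S₄.Subsingleton) :
    ∃ k : ℤ, ex (L + k * (2 * π / 3)) ∉ S₁ ∪ S₂ ∪ S₃ ∪ S₄ ∨
      ex (R + k * (2 * π / 3)) ∉ S₁ ∪ S₂ ∪ S₃ ∪ S₄ := by
  have hpi := Real.pi_pos
  by_contra hcon
  simp only [not_exists, not_or, not_not] at hcon
  let a : Fin 6 → ℝ := ![L + (0 : ℤ) * (2 * π / 3), R + (0 : ℤ) * (2 * π / 3),
    L + (1 : ℤ) * (2 * π / 3), R + (1 : ℤ) * (2 * π / 3), L + (2 : ℤ) * (2 * π / 3),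
    R + (2 : ℤ) * (2 * π / 3)]
  let S : Fin 4 → Set ℂ := ![S₁, S₂, S₃, S₄]
  have hS : ∀ i, (S i).Subsingleton := by
    intro i
    fin_cases i
    exacts [s₁, s₂, s₃, s₄]
  have hmem : ∀ z ∈ S₁ ∪ S₂ ∪ S₃ ∪ S₄, ∃ i, z ∈ S i := by
    rintro z (((h | h) | h) | h)
    exacts [⟨0, h⟩, ⟨1, h⟩, ⟨2, h⟩, ⟨3, h⟩]
  have ha : ∀ j, ∃ i, ex (a j) ∈ S i := by
    intro j
    fin_cases j
    exacts [hmem _ (hcon 0).1, hmem _ (hcon 0).2, hmem _ (hcon 1).1, hmem _ (hcon 1).2,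
      hmem _ (hcon 2).1, hmem _ (hcon 2).2]
  choose g hg using ha
  obtain ⟨i, j, hij, hgij⟩ := Fintype.exists_ne_map_eq_of_card_lt g (by simp)
  have he : ex (a i) = ex (a j) := hS (g j) (hgij ▸ hg i) (hg j)
  have hmono : StrictMono a := by
    refine Fin.strictMono_iff_lt_succ.2 fun k => ?_
    fin_cases k <;> simp [a] <;> linarith
  have hrange : ∀ k, L ≤ a k ∧ a k < L + 2 * π := by
    intro k
    fin_cases k <;> simp [a] <;> (try constructor) <;> linarith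
  obtain ⟨n, hn⟩ := Complex.exp_eq_exp_iff_exists_int.1 he
  have hn' : a i = a j + n * (2 * π) := by
    have := congrArg Complex.im hn
    simpa using this
  have h3 : (n : ℝ) < 1 := by
    by_contra h
    nlinarith [(hrange i).2, (hrange j).1, not_lt.1 h]
  have h4 : (-1 : ℝ) < n := by
    by_contra h
    nlinarith [(hrange i).1, (hrange j).2, not_lt.1 h]
  have h5 : n < 1 := by exact_mod_cast h3
  have h6 : -1 < n := by exact_mod_cast h4
  obtain rfl : n = 0 := by omega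
  exact hij (hmono.injective (by simpa using hn'))

end Crest.Agent.R40.Loc
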