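import Crest.Agent.R40.LocC

/-! Row 40, B2/local: the geometry of (TA), case (In, Out). -/

set_option autoImplicit false
open Set Metric

namespace Crest.Agent.R40.Loc

local notation "π" => Real.pi

variable {K : Fin 5 → Set ℂ} {x : ℂ}

namespace LocD2

theorem norm_add_sq (a b : ℝ) : ‖ex a + ex b‖ ^ 2 = 2 + 2 * Real.cos (a - b) := by
  rw [Complex.sq_norm, Complex.normSq_apply]
  simp only [Complex.add_re, Complex.add_im, ex_re, ex_im, Real.cos_sub]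
  linear_combination Real.sin_sq_add_cos_sq a + Real.sin_sq_add_cos_sq b

theorem cos_two_thirds : Real.cos (2 * π / 3) = -(1 / 2) := by
  rw [show 2 * π / 3 = π - π / 3 by ring, Real.cos_pi_sub, Real.cos_pi_div_three]

theorem norm_lt {a b : ℝ} (h1 : 2 * π / 3 < b - a) (h2 : b - a ≤ π) : ‖ex a + ex b‖ < 1 := by
  have h3 := Real.cos_lt_cos_of_nonneg_of_le_pi (by positivity) h2 h1
  have h4 := norm_add_sq b a
  rw [cos_two_thirds] at h3
  rw [add_comm]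
  nlinarith [norm_nonneg (ex b + ex a)]

theorem norm_gt {a b : ℝ} (h1 : 0 ≤ b - a) (h2 : b - a < 2 * π / 3) : 1 < ‖ex a + ex b‖ := by
  have h3 := Real.cos_lt_cos_of_nonneg_of_le_pi h1 (by linarith [Real.pi_pos]) h2
  have h4 := norm_add_sq b a
  rw [cos_two_thirds] at h3
  rw [add_comm]
  nlinarith [norm_nonneg (ex b + ex a)]

theorem sum_eq (a : ℝ) : ex (a - π / 3) + ex (a + π / 3) = ex a := by
  apply Complex.ext
  · simp only [Complex.add_re, ex_re, Real.cos_sub, Real.cos_add, Real.cos_pi_div_three]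
    ring
  · simp only [Complex.add_im, ex_im, Real.sin_sub, Real.sin_add, Real.cos_pi_div_three]
    ring

theorem dist_eq (q s t μ : ℝ) :
    ‖ex (q - 2 * π / 3 - μ) + ex (q + s) - (ex (q - π / 3 + t) + ex (q + π / 3 - μ))‖ =
      ‖ex s - 2 * ex (π / 3 - μ) - ex (t - π / 3)‖ := by
  have e : ex (q - 2 * π / 3 - μ) + ex (q + s) - (ex (q - π / 3 + t) + ex (q + π / 3 - μ)) =
      ex q * (ex s - 2 * ex (π / 3 - μ) - ex (t - π / 3)) := by
    rw [show q - 2 * π / 3 - μ = q + (π / 3 - μ) - π by ring, ex_sub_pi,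
      show q - π / 3 + t = q + (t - π / 3) by ring, show q + π / 3 - μ = q + (π / 3 - μ) by ring,
      ex_add, ex_add, ex_add]
    ring
  rw [e, norm_mul, norm_ex, one_mul]

theorem D_mu {μ : ℝ} (h0 : 0 < μ) (h1 : μ ≤ π) :
    1 < ‖ex 0 - 2 * ex (π / 3 - μ) - ex (0 - π / 3)‖ := by
  have e : ‖ex 0 - 2 * ex (π / 3 - μ) - ex (0 - π / 3)‖ ^ 2 = 5 - 4 * Real.cos μ := by
    rw [Complex.sq_norm, Complex.normSq_apply]
    simp only [Complex.sub_re, Complex.sub_im, Complex.mul_re, Complex.mul_im, ex_re, ex_im,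
      Real.cos_sub, Real.sin_sub, Real.cos_zero, Real.sin_zero, Real.cos_pi_div_three,
      Real.sin_pi_div_three, Complex.re_ofNat, Complex.im_ofNat]
    have h3 : √3 ^ 2 = 3 := Real.sq_sqrt (by norm_num)
    linear_combination ((1 / 2 - Real.cos μ) ^ 2 + Real.sin μ ^ 2) * h3 +
      4 * Real.sin_sq_add_cos_sq μ
  have h3 := Real.cos_lt_cos_of_nonneg_of_le_pi le_rfl h1 h0
  rw [Real.cos_zero] at h3
  nlinarith [norm_nonneg (ex 0 - 2 * ex (π / 3 - μ) - ex (0 - π / 3))]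

theorem D_s {s : ℝ} (h0 : 0 < s) (h1 : s ≤ π / 6) :
    ‖ex s - 2 * ex (π / 3 - 0) - ex (0 - π / 3)‖ < 1 := by
  have h3 : √3 ^ 2 = 3 := Real.sq_sqrt (by norm_num)
  have e : ‖ex s - 2 * ex (π / 3 - 0) - ex (0 - π / 3)‖ ^ 2 =
      4 - 2 * √3 * Real.cos (π / 6 - s) := by
    rw [Complex.sq_norm, Complex.normSq_apply]
    simp only [Complex.sub_re, Complex.sub_im, Complex.mul_re, Complex.mul_im, ex_re, ex_im,
      Real.cos_sub, Real.sin_sub, Real.cos_zero, Real.sin_zero, Real.cos_pi_div_three,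
      Real.sin_pi_div_three, Real.cos_pi_div_six, Real.sin_pi_div_six, Complex.re_ofNat,
      Complex.im_ofNat]
    linear_combination (1 / 4 + Real.cos s) * h3 + Real.sin_sq_add_cos_sq s
  have h4 := Real.cos_lt_cos_of_nonneg_of_le_pi (x := π / 6 - s) (y := π / 6) (by linarith)
    (by linarith [Real.pi_pos]) (by linarith)
  rw [Real.cos_pi_div_six] at h4
  have h5 : 0 < √3 := Real.sqrt_pos.2 (by norm_num)
  have h6 := mul_lt_mul_of_pos_left h4 h5
  nlinarith [norm_nonneg (ex s - 2 * ex (π / 3 - 0) - ex (0 - π / 3))]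

theorem near {g : ℝ × ℝ → ℝ} (hg : Continuous g) {c : ℝ} (h : c < g (0, 0)) :
    ∃ δ : ℝ, 0 < δ ∧ ∀ u v : ℝ, 0 < u → u < δ → 0 < v → v < δ → c < g (u, v) := by
  obtain ⟨δ, hδ, H⟩ := Metric.eventually_nhds_iff.1
    ((hg.tendsto (0, 0)).eventually (lt_mem_nhds h))
  refine ⟨δ, hδ, fun u v hu hu' hv hv' => H ?_⟩
  rw [Prod.dist_eq, Real.dist_eq, Real.dist_eq, sub_zero, sub_zero, abs_of_pos hu, abs_of_pos hv]
  exact max_lt hu' hv'

end LocD2

open LocD2 in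
theorem ta_in_out {X Y : Set ℝ} {q l : ℝ} (h : TwoType X Y q l) {N : Set ℂ}
    (hN : ∀ y ∈ N, ∀ y' ∈ N, ‖y - y'‖ ≠ 1) {q₀ : ℂ}
    (hf : ∀ a ∈ X, ∀ b ∈ Y, (1 < ‖ex a + ex b‖ ∧ ‖ex a + ex b - q₀‖ < 1) ∨
      (‖ex a + ex b‖ < 1 ∧ 1 < ‖ex a + ex b - q₀‖) → ex a + ex b ∈ N)
    (h1 : 1 < ‖ex (q - π / 3) - q₀‖) (h2 : ‖ex q - q₀‖ < 1) : False := by
  have hπ := Real.pi_pos
  obtain ⟨δ₁, hδ₁, H₁⟩ := near
    (g := fun p => ‖ex (q - 2 * π / 3 - p.2) + ex (q + p.1) - q₀‖) (by fun_prop) (c := 1) (by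
      have e := sum_eq (q - π / 3)
      rw [show q - π / 3 - π / 3 = q - 2 * π / 3 - 0 by ring,
        show q - π / 3 + π / 3 = q + 0 by ring] at e
      simpa only [e] using h1)
  obtain ⟨δ₂, hδ₂, H₂⟩ := near
    (g := fun p => -‖ex (q - π / 3 + p.1) + ex (q + π / 3 - p.2) - q₀‖) (by fun_prop) (c := -1) (by
      have e := sum_eq q
      simp only [add_zero, sub_zero, e]
      linarith)
  obtain ⟨L, hL, hL₁, hL₂, hL₃, hL₄⟩ : ∃ L : ℝ, 0 < L ∧ L ≤ δ₁ ∧ L ≤ δ₂ ∧ L ≤ l ∧ L ≤ π / 6 :=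
    ⟨min (min δ₁ δ₂) (min l (π / 6)), lt_min (lt_min hδ₁ hδ₂) (lt_min h.pos (by positivity)),
      (min_le_left _ _).trans (min_le_left _ _), (min_le_left _ _).trans (min_le_right _ _),
      (min_le_right _ _).trans (min_le_left _ _), (min_le_right _ _).trans (min_le_right _ _)⟩
  have key : ∀ s t μ : ℝ, 0 < s → s < L → 0 < t → t < L → 0 < μ → μ < L → q + s ∈ Y → q + t ∈ Y →
      ‖ex s - 2 * ex (π / 3 - μ) - ex (t - π / 3)‖ ≠ 1 := by
    intro s t μ hs hs' ht ht' hμ hμ' hsY htY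
    have hX : q - μ ∈ X := h.left ⟨by linarith, by linarith⟩
    have a1 : q - 2 * π / 3 - μ ∈ X := by
      have := (h.per (q - μ) (-1)).1.2 hX
      rwa [show q - μ + ((-1 : ℤ) : ℝ) * (2 * π / 3) = q - 2 * π / 3 - μ by push_cast; ring] at this
    have a2 : q + π / 3 - μ ∈ Y := by
      have := (h.xy (q - μ)).1 hX
      rwa [show q - μ + π / 3 = q + π / 3 - μ by ring] at this
    have a3 : q - π / 3 + t ∈ X :=
      (h.xy _).2 (by rwa [show q - π / 3 + t + π / 3 = q + t by ring])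
    have b1 := hf _ a1 _ hsY (Or.inr ⟨norm_lt (by linarith) (by linarith),
      H₁ s μ hs (by linarith) hμ (by linarith)⟩)
    have b2 := hf _ a3 _ a2 (Or.inl ⟨norm_gt (by linarith) (by linarith), by
      have := H₂ t μ ht (by linarith) hμ (by linarith)
      simp only at this
      linarith⟩)
    rw [← dist_eq q]
    exact hN _ b1 _ b2
  obtain ⟨δ₃, hδ₃, H₃⟩ := near
    (g := fun p => ‖ex p.1 - 2 * ex (π / 3 - L / 2) - ex (p.2 - π / 3)‖) (by fun_prop) (c := 1)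
    (D_mu (by linarith) (by linarith))
  obtain ⟨s, hs, hs', hsY⟩ := h.right (min δ₃ L) (lt_min hδ₃ hL)
  have hs₁ := hs'.trans_le (min_le_left _ _)
  have hs₂ := hs'.trans_le (min_le_right _ _)
  obtain ⟨δ₄, hδ₄, H₄⟩ := near
    (g := fun p => -‖ex s - 2 * ex (π / 3 - p.2) - ex (p.1 - π / 3)‖) (by fun_prop) (c := -1)
    (neg_lt_neg (D_s hs (by linarith)))
  obtain ⟨t, ht, ht', htY⟩ := h.right (min (min δ₃ δ₄) (L / 2))
    (lt_min (lt_min hδ₃ hδ₄) (by linarith))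
  have ht₁ := ht'.trans_le ((min_le_left _ _).trans (min_le_left _ _))
  have ht₂ := ht'.trans_le ((min_le_left _ _).trans (min_le_right _ _))
  have ht₃ := ht'.trans_le (min_le_right _ _)
  have c1 := H₃ s t hs hs₁ ht ht₁
  have c2 := H₄ t t ht ht₂ ht ht₂
  simp only at c1 c2
  obtain ⟨μ, hμ, hμ1⟩ : (1 : ℝ) ∈
      (fun μ => ‖ex s - 2 * ex (π / 3 - μ) - ex (t - π / 3)‖) '' Icc t (L / 2) :=
    intermediate_value_Icc ht₃.le (by fun_prop) ⟨by linarith, c1.le⟩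
  exact key s t μ hs hs₂ ht (by linarith) (by linarith [hμ.1]) (by linarith [hμ.2]) hsY htY hμ1

end Crest.Agent.R40.Loc
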