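import Crest.Agent.R40.LocC

/-! Row 40, B2/local: the geometry of (F). -/

set_option autoImplicit false
open Set Metric

namespace Crest.Agent.R40.Loc

local notation "π" => Real.pi

variable {K : Fin 5 → Set ℂ} {x : ℂ}

namespace LocD3

theorem add_ne_zero {a b : ℝ} (h : |a - b| ≤ π / 2) : ex a + ex b ≠ 0 := by
  intro h0
  have h1 := congrArg Complex.re h0
  have h2 := congrArg Complex.im h0
  simp only [Complex.add_re, Complex.add_im, ex_re, ex_im, Complex.zero_re, Complex.zero_im]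
    at h1 h2
  have h3 := Real.cos_nonneg_of_neg_pi_div_two_le_of_le (abs_le.1 h).1 (abs_le.1 h).2
  rw [Real.cos_sub, eq_neg_of_add_eq_zero_left h1, eq_neg_of_add_eq_zero_left h2] at h3
  nlinarith [Real.sin_sq_add_cos_sq b]

theorem lt_one {l : ℝ} (h0 : 0 < l) (h1 : l ≤ π / 12) :
    ‖ex (0 + π / 3) + ex (π / 3 - (l - 0)) - (ex (-0) + ex (π / 3 - 0))‖ ^ 2 < 1 := by
  have hp := Real.pi_pos
  have h2 : Real.cos (π / 3) < Real.cos (π / 3 - l) :=
    Real.cos_lt_cos_of_nonneg_of_le_pi (by linarith) (by linarith) (by linarith)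
  rw [Real.cos_pi_div_three] at h2
  rw [norm_sub_sq]
  simp only [Complex.add_re, Complex.add_im, ex_re, ex_im, zero_add, sub_zero, neg_zero,
    Real.cos_zero, Real.sin_zero]
  nlinarith [Real.sin_sq_add_cos_sq (π / 3 - l)]

theorem one_lt {l : ℝ} (h0 : 0 < l) (h1 : l ≤ π / 12) :
    1 < ‖ex (0 + π / 3) + ex (π / 3 - (l - (l - 0))) - (ex (-0) + ex (π / 3 - (l - 0)))‖ ^ 2 := by
  have hp := Real.pi_pos
  have h2 : Real.sin (π / 3 - l) < Real.sin (π / 3) :=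
    Real.sin_lt_sin_of_lt_of_le_pi_div_two (by linarith) (by linarith) (by linarith)
  have h3 : 0 < Real.sin (π / 3) := Real.sin_pos_of_pos_of_lt_pi (by linarith) (by linarith)
  have h4 := Real.sq_sin_pi_div_three
  rw [norm_sub_sq]
  simp only [Complex.add_re, Complex.add_im, ex_re, ex_im, zero_add, sub_zero, neg_zero,
    Real.cos_zero, Real.sin_zero, sub_self, Real.cos_pi_div_three]
  nlinarith [Real.sin_sq_add_cos_sq (π / 3 - l), mul_pos h3 (sub_pos.2 h2)]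

end LocD3

theorem f_geom {X Y : Set ℝ} {q l : ℝ} (h : TwoType X Y q l) {N : Set ℂ}
    (hN : ∀ y ∈ N, ∀ y' ∈ N, ‖y - y'‖ ≠ 1)
    (hf : ∀ a ∈ X, ∀ b ∈ Y, ex a + ex b ≠ 0 → ex a + ex b ∈ N) : False := by
  have hp := Real.pi_pos
  obtain ⟨m, m0, m1, h⟩ : ∃ m, 0 < m ∧ m ≤ π / 12 ∧ TwoType X Y q m :=
    ⟨min l (π / 12), lt_min h.pos (by positivity), min_le_right _ _,
      h.shrink (lt_min h.pos (by positivity)) (min_le_left _ _)⟩
  obtain ⟨V, hV⟩ : ∃ V : ℝ → ℝ → ℝ → ℝ, V = fun τ s σ =>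
      ‖ex (σ + π / 3) + ex (π / 3 - (m - τ)) - (ex (-s) + ex (π / 3 - τ))‖ ^ 2 := ⟨_, rfl⟩
  have c1 : Continuous fun p : ℝ × ℝ => V p.1 p.1 p.2 := by
    rw [hV]
    fun_prop
  have c2 : Continuous fun p : ℝ × ℝ => V (m - p.1) p.1 p.2 := by
    rw [hV]
    fun_prop
  have e1 : ∀ᶠ p : ℝ × ℝ in nhds (0, 0), V p.1 p.1 p.2 < 1 :=
    c1.continuousAt.eventually_lt continuousAt_const (by rw [hV]; exact LocD3.lt_one m0 m1)
  have e2 : ∀ᶠ p : ℝ × ℝ in nhds (0, 0), 1 < V (m - p.1) p.1 p.2 :=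
    continuousAt_const.eventually_lt c2.continuousAt (by rw [hV]; exact LocD3.one_lt m0 m1)
  obtain ⟨δ, δ0, hδ⟩ := Metric.eventually_nhds_iff.1 (e1.and e2)
  obtain ⟨σ, σ0, σ1, hσ⟩ := h.right (min δ m) (lt_min δ0 m0)
  obtain ⟨t, t0, t1, t2⟩ : ∃ t, 0 < t ∧ t < δ ∧ t ≤ m / 2 :=
    ⟨min δ m / 2, half_pos (lt_min δ0 m0),
      (half_lt_self (lt_min δ0 m0)).trans_le (min_le_left _ _), by
      have := min_le_right δ m
      linarith⟩
  have σ2 := σ1.trans_le (min_le_left _ _)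
  have σ3 := σ1.trans_le (min_le_right _ _)
  obtain ⟨g1, g2⟩ := hδ (y := (t, σ)) (by
    rw [Prod.dist_eq, Real.dist_0_eq_abs, Real.dist_0_eq_abs, abs_of_pos t0, abs_of_pos σ0]
    exact max_lt t1 σ2)
  have c3 : Continuous fun τ => V τ t σ := by
    rw [hV]
    fun_prop
  obtain ⟨τ, ⟨τ0, τ1⟩, hτ⟩ :=
    intermediate_value_Icc (a := t) (b := m - t) (by linarith) c3.continuousOn ⟨g1.le, g2.le⟩
  have a1 : q - t ∈ X := h.left ⟨by linarith, by linarith⟩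
  have a2 : q + σ + π / 3 ∈ X := (h.yx _).1 hσ
  have b1 : q - τ + π / 3 ∈ Y := (h.xy _).1 (h.left ⟨by linarith, by linarith⟩)
  have b2 : q - (m - τ) + π / 3 ∈ Y := (h.xy _).1 (h.left ⟨by linarith, by linarith⟩)
  refine hN _ (hf _ a2 _ b2 (LocD3.add_ne_zero (abs_le.2 ⟨by linarith, by linarith⟩))) _
    (hf _ a1 _ b1 (LocD3.add_ne_zero (abs_le.2 ⟨by linarith, by linarith⟩))) ?_
  have e : ex (q + σ + π / 3) + ex (q - (m - τ) + π / 3) - (ex (q - t) + ex (q - τ + π / 3)) =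
      ex q * (ex (σ + π / 3) + ex (π / 3 - (m - τ)) - (ex (-t) + ex (π / 3 - τ))) := by
    simp only [mul_sub, mul_add, ← ex_add]
    congr 3 <;> ring
  rw [hV] at hτ
  rw [e, norm_mul, norm_ex, one_mul]
  exact (pow_eq_one_iff_of_nonneg (norm_nonneg _) two_ne_zero).1 hτ

end Crest.Agent.R40.Loc
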