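import Crest.Agent.R40.LocD1
import Crest.Agent.R40.LocD2
import Crest.Agent.R40.LocD3

/-! Row 40, B2/local: the geometry of (TA) and (F). -/

set_option autoImplicit false
open Set Metric

namespace Crest.Agent.R40.Loc

local notation "π" => Real.pi

variable {K : Fin 5 → Set ℂ} {x : ℂ}

namespace LocD

theorem seq {g : ℕ → ℝ} {n : ℝ} (h0 : 0 < n) (h1 : n < 1) (hr : ∀ k, g (k + 2) = g (k + 1) - g k)
    (hi : ∀ k, g k ^ 2 - g k * g (k + 1) + g (k + 1) ^ 2 = 3 / 4 * n) :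
    ∃ k, (n < 2 * g k ∧ 2 * g (k + 1) < n) ∨ (2 * g k < n ∧ n < 2 * g (k + 1)) := by
  by_contra hne
  have hA : ∀ k, n < 2 * g k → n ≤ 2 * g (k + 1) := fun k hk =>
    not_lt.1 fun h => hne ⟨k, Or.inl ⟨hk, h⟩⟩
  have hB : ∀ k, n < 2 * g (k + 1) → n ≤ 2 * g k := fun k hk =>
    not_lt.1 fun h => hne ⟨k, Or.inr ⟨h, hk⟩⟩
  have one : ∀ j, 2 * g (j + 2) ≤ n := by
    intro j
    by_contra hb
    have hb' := not_le.1 hb
    have e0 := hr j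
    have e1 : g (j + 3) = g (j + 2) - g (j + 1) := hr (j + 1)
    have e2 : g (j + 4) = g (j + 3) - g (j + 2) := hr (j + 2)
    have a1 : n ≤ 2 * g (j + 1) := hB (j + 1) hb'
    have a3 : n ≤ 2 * g (j + 3) := hA (j + 2) hb'
    have b1 : 2 * g (j + 1) ≤ n := by
      by_contra h
      have := hB j (not_le.1 h)
      linarith
    have b3 : 2 * g (j + 3) ≤ n := by
      by_contra h
      have : n ≤ 2 * g (j + 4) := hA (j + 3) (not_le.1 h)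
      linarith
    have c1 : g (j + 1) = n / 2 := by linarith
    have c2 : g (j + 2) = n := by linarith
    have := hi (j + 1)
    rw [show j + 1 + 1 = j + 2 from rfl, c1, c2] at this
    nlinarith
  have e2 : g 4 = g 3 - g 2 := hr 2
  have e3 : g 5 = g 4 - g 3 := hr 3
  have e4 : g 6 = g 5 - g 4 := hr 4
  have e5 : g 7 = g 6 - g 5 := hr 5
  have a2 : 2 * g 2 ≤ n := one 0
  have a3 : 2 * g 3 ≤ n := one 1
  have a4 : 2 * g 4 ≤ n := one 2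
  have a5 : 2 * g 5 ≤ n := one 3
  have a6 : 2 * g 6 ≤ n := one 4
  have a7 : 2 * g 7 ≤ n := one 5
  have hi2 : g 2 ^ 2 - g 2 * g 3 + g 3 ^ 2 = 3 / 4 * n := hi 2
  have s1 : g 2 ^ 2 ≤ (n / 2) ^ 2 := sq_le_sq' (by linarith) (by linarith)
  have s2 : g 3 ^ 2 ≤ (n / 2) ^ 2 := sq_le_sq' (by linarith) (by linarith)
  have s3 : (g 3 - g 2) ^ 2 ≤ (n / 2) ^ 2 := sq_le_sq' (by linarith) (by linarith)
  nlinarith

theorem norm_sq (a : ℝ) (q₀ : ℂ) : ‖ex a - q₀‖ ^ 2 =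
    1 - 2 * (q₀.re * Real.cos a + q₀.im * Real.sin a) + (q₀.re ^ 2 + q₀.im ^ 2) := by
  rw [norm_sub_sq, ex_re, ex_im]
  nlinarith [Real.sin_sq_add_cos_sq a]

end LocD

theorem ta_pick (q : ℝ) {q₀ : ℂ} (h0 : q₀ ≠ 0) (h1 : ‖q₀‖ < 1) :
    ∃ k : ℕ, (‖ex (q + k * (π / 3) - π / 3) - q₀‖ < 1 ∧ 1 < ‖ex (q + k * (π / 3)) - q₀‖) ∨
      (1 < ‖ex (q + k * (π / 3) - π / 3) - q₀‖ ∧ ‖ex (q + k * (π / 3)) - q₀‖ < 1) := by
  have hn : ‖q₀‖ ^ 2 = q₀.re ^ 2 + q₀.im ^ 2 := by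
    rw [Complex.sq_norm, Complex.normSq_apply]
    ring
  have hpos : 0 < ‖q₀‖ := norm_pos_iff.2 h0
  have h3 : √3 ^ 2 = 3 := Real.sq_sqrt (by norm_num)
  have e1 : ∀ k : ℕ, q + ((k + 1 : ℕ) : ℝ) * (π / 3) - π / 3 = q + k * (π / 3) := by
    intro k
    push_cast
    ring
  have e2 : ∀ k : ℕ, q + ((k + 2 : ℕ) : ℝ) * (π / 3) - π / 3 = q + k * (π / 3) + π / 3 := by
    intro k
    push_cast
    ring
  obtain ⟨k, hk⟩ := LocD.seq (n := q₀.re ^ 2 + q₀.im ^ 2)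
    (g := fun k => q₀.re * Real.cos (q + k * (π / 3) - π / 3) +
      q₀.im * Real.sin (q + k * (π / 3) - π / 3)) (by rw [← hn]; positivity)
    (by rw [← hn]; nlinarith) (fun k => by
      beta_reduce
      rw [e2, e1]
      generalize q + k * (π / 3) = θ
      rw [Real.cos_add, Real.sin_add, Real.cos_sub, Real.sin_sub, Real.cos_pi_div_three,
        Real.sin_pi_div_three]
      ring) (fun k => by
      simp only [e1]
      generalize q + k * (π / 3) = θ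
      rw [Real.cos_sub, Real.sin_sub, Real.cos_pi_div_three, Real.sin_pi_div_three]
      have := Real.sin_sq_add_cos_sq θ
      linear_combination (3 / 4 * (q₀.re ^ 2 + q₀.im ^ 2)) * this +
        (1 / 4 * (q₀.re * Real.sin θ - q₀.im * Real.cos θ) ^ 2) * h3)
  simp only [e1] at hk
  have hlt : ∀ a : ℝ, q₀.re ^ 2 + q₀.im ^ 2 < 2 * (q₀.re * Real.cos a + q₀.im * Real.sin a) →
      ‖ex a - q₀‖ < 1 := fun a ha =>
    (sq_lt_one_iff₀ (norm_nonneg _)).1 (by rw [LocD.norm_sq]; linarith)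
  have hgt : ∀ a : ℝ, 2 * (q₀.re * Real.cos a + q₀.im * Real.sin a) < q₀.re ^ 2 + q₀.im ^ 2 →
      1 < ‖ex a - q₀‖ := fun a ha =>
    (one_lt_sq_iff₀ (norm_nonneg _)).1 (by rw [LocD.norm_sq]; linarith)
  exact ⟨k, hk.imp (fun h => ⟨hlt _ h.1, hgt _ h.2⟩) fun h => ⟨hgt _ h.1, hlt _ h.2⟩⟩

theorem ta_geom {X Y : Set ℝ} {q l : ℝ} (h : TwoType X Y q l) {N : Set ℂ}
    (hN : ∀ y ∈ N, ∀ y' ∈ N, ‖y - y'‖ ≠ 1) {q₀ : ℂ} (h0 : q₀ ≠ 0) (h1 : ‖q₀‖ < 1)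
    (hf : ∀ a ∈ X, ∀ b ∈ Y, (1 < ‖ex a + ex b‖ ∧ ‖ex a + ex b - q₀‖ < 1) ∨
      (‖ex a + ex b‖ < 1 ∧ 1 < ‖ex a + ex b - q₀‖) → ex a + ex b ∈ N) : False := by
  obtain ⟨k, hk⟩ := ta_pick q h0 h1
  have key : ∀ k : ℕ, ∃ X' Y' : Set ℝ, TwoType X' Y' (q + k * (π / 3)) l ∧
      ∀ a ∈ X', ∀ b ∈ Y', (1 < ‖ex a + ex b‖ ∧ ‖ex a + ex b - q₀‖ < 1) ∨
        (‖ex a + ex b‖ < 1 ∧ 1 < ‖ex a + ex b - q₀‖) → ex a + ex b ∈ N := by
    intro k
    induction k with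
    | zero => exact ⟨X, Y, by simpa using h, hf⟩
    | succ k ih =>
      obtain ⟨X', Y', h2, h3⟩ := ih
      refine ⟨Y', X', ?_, fun a ha b hb => ?_⟩
      · have := h2.rot
        rwa [show q + k * (π / 3) + π / 3 = q + ((k + 1 : ℕ) : ℝ) * (π / 3) by
          push_cast; ring] at this
      · rw [add_comm]
        exact h3 b hb a ha
  obtain ⟨X', Y', h2, h3⟩ := key k
  rcases hk with hk | hk
  · exact ta_out_in h2 hN h3 hk.1 hk.2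
  · exact ta_in_out h2 hN h3 hk.1 hk.2

end Crest.Agent.R40.Loc
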