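import Crest.Agent.R40.LocC

/-! Row 40, B2/local: the geometry of (TA), case (Out, In). -/

set_option autoImplicit false
open Set Metric

namespace Crest.Agent.R40.Loc

local notation "π" => Real.pi

variable {K : Fin 5 → Set ℂ} {x : ℂ}

namespace LocD1

theorem nsq (a b : ℝ) : ‖ex a + ex b‖ ^ 2 = 2 + 2 * Real.cos (a - b) := by
  rw [Complex.sq_norm, Complex.normSq_apply, Real.cos_sub]
  simp only [Complex.add_re, Complex.add_im, ex_re, ex_im]
  nlinarith [Real.sin_sq_add_cos_sq a, Real.sin_sq_add_cos_sq b]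

theorem cos23 : Real.cos (2 * π / 3) = -(1 / 2) := by
  rw [show 2 * π / 3 = π - π / 3 by ring, Real.cos_pi_sub, Real.cos_pi_div_three]

theorem out {a b : ℝ} (h0 : 0 ≤ a - b) (h1 : a - b < 2 * π / 3) : 1 < ‖ex a + ex b‖ := by
  have := Real.cos_lt_cos_of_nonneg_of_le_pi h0 (by linarith [Real.pi_pos]) h1
  refine lt_of_pow_lt_pow_left₀ 2 (norm_nonneg _) ?_
  rw [nsq]
  linarith [cos23]

theorem inn {a b : ℝ} (h0 : 2 * π / 3 < a - b) (h1 : a - b ≤ π) : ‖ex a + ex b‖ < 1 := by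
  have := Real.cos_lt_cos_of_nonneg_of_le_pi (by linarith [Real.pi_pos]) h1 h0
  refine lt_of_pow_lt_pow_left₀ 2 zero_le_one ?_
  rw [nsq]
  linarith [cos23]

theorem nsq3 (a b c : ℝ) : ‖ex a + ex (b - π) - (ex b + ex c)‖ ^ 2 =
    6 - 4 * Real.cos (b - a) - 2 * Real.cos (a - c) + 4 * Real.cos (b - c) := by
  rw [ex_sub_pi, norm_sub_sq, Real.cos_sub, Real.cos_sub, Real.cos_sub]
  simp only [Complex.add_re, Complex.add_im, Complex.neg_re, Complex.neg_im, ex_re, ex_im]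
  nlinarith [Real.sin_sq_add_cos_sq a, Real.sin_sq_add_cos_sq b, Real.sin_sq_add_cos_sq c]

theorem end1 (q : ℝ) {a : ℝ} (h0 : 0 < a) (h1 : a < 1 / 3) :
    1 < ‖ex (q - a) + ex (q + π / 3 - π) - (ex (q + π / 3) + ex (q - π / 3))‖ := by
  refine lt_of_pow_lt_pow_left₀ 2 (norm_nonneg _) ?_
  rw [nsq3, show q + π / 3 - (q - a) = π / 3 + a by ring,
    show q - a - (q - π / 3) = π / 3 - a by ring,
    show q + π / 3 - (q - π / 3) = 2 * π / 3 by ring, cos23, Real.cos_add, Real.cos_sub,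
    Real.cos_pi_div_three, Real.sin_pi_div_three]
  have := mul_pos (Real.sqrt_pos.2 three_pos) (Real.sin_pos_of_pos_of_le_one h0 (by linarith))
  linarith [Real.cos_le_one a]

theorem end2 (q : ℝ) {a : ℝ} (h0 : 0 < a) (h1 : a < 1 / 3) :
    ‖ex q + ex (q + π / 3 - π) - (ex (q + π / 3) + ex (q - a - π / 3))‖ < 1 := by
  refine lt_of_pow_lt_pow_left₀ 2 zero_le_one ?_
  rw [nsq3, show q + π / 3 - q = π / 3 by ring,
    show q - (q - a - π / 3) = π / 3 + a by ring,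
    show q + π / 3 - (q - a - π / 3) = π - (π / 3 - a) by ring, Real.cos_pi_sub, Real.cos_add,
    Real.cos_sub, Real.cos_pi_div_three, Real.sin_pi_div_three]
  have h2 := Real.sin_pos_of_pos_of_le_one h0 (by linarith)
  have h3 := Real.sin_le h0.le
  have h4 := Real.cos_pos_of_le_one (x := a) (by rw [abs_of_pos h0]; linarith)
  have h5 := Real.cos_le_one a
  have h6 := mul_le_mul_of_nonneg_right (Real.one_le_sqrt.2 (show (1 : ℝ) ≤ 3 by norm_num)) h2.le
  nlinarith [Real.sin_sq_add_cos_sq a]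

theorem sum_ex (q : ℝ) : ex (q + π / 3) + ex (q - π / 3) = ex q := by
  apply Complex.ext <;>
    simp [Real.cos_add, Real.cos_sub, Real.sin_add, Real.sin_sub, Real.cos_pi_div_three] <;> ring

end LocD1

open LocD1 in
theorem ta_out_in {X Y : Set ℝ} {q l : ℝ} (h : TwoType X Y q l) {N : Set ℂ}
    (hN : ∀ y ∈ N, ∀ y' ∈ N, ‖y - y'‖ ≠ 1) {q₀ : ℂ}
    (hf : ∀ a ∈ X, ∀ b ∈ Y, (1 < ‖ex a + ex b‖ ∧ ‖ex a + ex b - q₀‖ < 1) ∨
      (‖ex a + ex b‖ < 1 ∧ 1 < ‖ex a + ex b - q₀‖) → ex a + ex b ∈ N)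
    (h1 : ‖ex (q - π / 3) - q₀‖ < 1) (h2 : 1 < ‖ex q - q₀‖) : False := by
  have hπ := Real.pi_gt_three
  have c1 : ContinuousAt (fun p : ℝ × ℝ => ‖ex (q - p.1) + ex (q + p.2 + π / 3 - π) - q₀‖) 0 := by
    fun_prop
  have c2 : ContinuousAt (fun p : ℝ × ℝ => ‖ex (q + p.2 + π / 3) + ex (q - p.1 - π / 3) - q₀‖)
      0 := by fun_prop
  have e1 : ex q + ex (q + π / 3 - π) = ex (q - π / 3) := by
    rw [ex_sub_pi, ← sum_ex q]
    ring
  obtain ⟨δ, hδ, H⟩ := Metric.eventually_nhds_iff.1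
    ((c1.eventually_lt continuousAt_const (by simpa [e1] using h1)).and
      (continuousAt_const.eventually_lt c2 (by simpa [sum_ex] using h2)))
  obtain ⟨a, a0, a1⟩ := exists_between (lt_min (lt_min hδ h.pos) (show (0 : ℝ) < 1 / 3 by norm_num))
  simp only [lt_min_iff] at a1
  obtain ⟨⟨a1, a2⟩, a3⟩ := a1
  obtain ⟨E, hE⟩ : ∃ E : ℝ → ℝ → ℝ, E = fun τ σ => ‖ex (q - τ) + ex (q + σ + π / 3 - π) -
    (ex (q + σ + π / 3) + ex (q - (a - τ) - π / 3))‖ := ⟨_, rfl⟩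
  have cE : Continuous fun p : ℝ × ℝ => E p.1 p.2 := by
    rw [hE]
    fun_prop
  have d1 : ContinuousAt (fun η => E (a - η) 0) 0 :=
    (cE.comp (f := fun η => (a - η, (0 : ℝ))) (by fun_prop)).continuousAt
  have d2 := fun σ => cE.comp (f := fun η => (η, σ)) (by fun_prop)
  have d3 := fun η => (cE.comp (f := fun σ => (η, σ)) (by fun_prop)).continuousAt (x := 0)
  obtain ⟨η, ⟨⟨b1, b2⟩, b3⟩, b4⟩ := (((((continuousAt_const.eventually_lt d1
    (by simpa [hE] using end1 q a0 a3)).and ((d2 0).continuousAt.eventually_lt continuousAt_const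
      (by simpa [hE] using end2 q a0 a3))).and (eventually_lt_nhds a0)).filter_mono
    nhdsWithin_le_nhds).and (self_mem_nhdsWithin (s := Ioi 0))).exists
  obtain ⟨ε, hε, H'⟩ := Metric.eventually_nhds_iff.1 ((continuousAt_const.eventually_lt (d3 _) b1).and
    ((d3 _).eventually_lt continuousAt_const b2))
  obtain ⟨σ, s0, s1, s2⟩ := h.right _ (lt_min hε a0)
  obtain ⟨s3, s4⟩ := lt_min_iff.1 s1
  obtain ⟨b5, b6⟩ := H' (y := σ) (by rwa [Real.dist_eq, sub_zero, abs_of_pos s0])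
  obtain ⟨τ, t0, t1⟩ := intermediate_value_uIcc (a := η) (b := a - η) (d2 σ).continuousOn
    (mem_uIcc_of_le b6.le b5.le)
  have t2 : 0 < τ ∧ τ < a := by
    have : 0 < η := b4
    rcases mem_uIcc.1 t0 with t | t <;> exact ⟨by linarith [t.1], by linarith [t.2]⟩
  have H2 : ∀ u, 0 < u → u < a → _ := fun u u0 u1 => H (y := (u, σ)) (by
    rw [Prod.dist_eq, max_lt_iff, Real.dist_eq, Real.dist_eq, Prod.fst_zero, Prod.snd_zero,
      sub_zero, sub_zero, abs_of_pos u0, abs_of_pos s0]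
    exact ⟨by linarith, by linarith⟩)
  have hX : ∀ u, 0 < u → u < a → q - u ∈ X := fun u u0 u1 => h.left ⟨by linarith, by linarith⟩
  rw [hE] at t1
  refine hN _ (hf _ (hX τ t2.1 t2.2) _ ((h.yx _).2 ((h.xy _).2 ?_))
    (.inl ⟨out (by linarith) (by linarith), (H2 τ t2.1 t2.2).1⟩)) _
    (hf _ ((h.yx _).1 s2) _ ((h.yx _).2 ?_)
      (.inr ⟨inn (by linarith) (by linarith), (H2 (a - τ) (by linarith) (by linarith)).2⟩)) t1
  · rwa [show q + σ + π / 3 - π + π / 3 + π / 3 = q + σ by ring]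
  · rw [sub_add_cancel]
    exact hX _ (by linarith) (by linarith)

end Crest.Agent.R40.Loc
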