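import Crest.Agent.R40.TopDefs

/-! Row 40, B2/local analysis: definitions. -/

set_option autoImplicit false
open Set Metric

noncomputable section
namespace Crest.Agent.R40.Loc

/-- The data of `ClosedStmt`. -/
structure Good (K : Fin 5 → Set ℂ) : Prop where
  closed : ∀ i, IsClosed (K i)
  reg : ∀ i, K i ⊆ closure (interior (K i))
  cover : ∀ x, ∃ i, x ∈ K i
  sep : ∀ i, ∀ x ∈ K i, ∀ y ∈ interior (K i), ‖x - y‖ ≠ 1

/-- The unit vector with argument `θ`. -/
def ex (θ : ℝ) : ℂ := Complex.exp (θ * Complex.I)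

/-- Angles of the points of colour `c` on the unit circle around `x`. -/
def F (K : Fin 5 → Set ℂ) (x : ℂ) (c : Fin 5) : Set ℝ := {θ | x + ex θ ∈ K c}

/-- Angles around which an arc of the unit circle around `x` has colour `c`. -/
def P (K : Fin 5 → Set ℂ) (x : ℂ) (c : Fin 5) : Set ℝ := interior (F K x c)

/-- Generic angles: for the whole hexagon, every colour present is present on an arc. -/
def Gen (K : Fin 5 → Set ℂ) (x : ℂ) : Set ℝ :=
  {θ | ∀ (k : ℤ) (c : Fin 5), θ + k * (Real.pi / 3) ∈ F K x c → θ + k * (Real.pi / 3) ∈ P K x c}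

/-- The colour `c` alternates on the unit circle around `x`. -/
def Alt (K : Fin 5 → Set ℂ) (c : Fin 5) (x : ℂ) : Prop :=
  ∀ θ : ℝ, θ ∈ F K x c ∨ θ + Real.pi / 3 ∈ F K x c

/-- An open polar rectangle around `x`. -/
def Sect (x : ℂ) (a b α β : ℝ) : Set ℂ :=
  {z | ∃ t φ : ℝ, a < t ∧ t < b ∧ α < φ ∧ φ < β ∧ z = x + t * ex φ}

/-- Directions around which a small open sector at `x` has colour `c`. -/
def Dir (K : Fin 5 → Set ℂ) (x : ℂ) (c : Fin 5) : Set ℝ :=
  {ψ | ∃ η r : ℝ, 0 < η ∧ 0 < r ∧ Sect x 0 r (ψ - η) (ψ + η) ⊆ K c}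

/-- Two types of angles exchanged by the rotation by `π/3`; `q` is the right end of an interval of
type `X` at which the type `Y` accumulates from the right. -/
structure TwoType (X Y : Set ℝ) (q l : ℝ) : Prop where
  disj : Disjoint X Y
  xy : ∀ θ, θ ∈ X ↔ θ + Real.pi / 3 ∈ Y
  yx : ∀ θ, θ ∈ Y ↔ θ + Real.pi / 3 ∈ X
  pos : 0 < l
  left : Ioo (q - l) q ⊆ X
  right : ∀ δ : ℝ, 0 < δ → ∃ σ : ℝ, 0 < σ ∧ σ < δ ∧ q + σ ∈ Y

theorem ex_eq (θ : ℝ) : ex θ = Real.cos θ + Real.sin θ * Complex.I := by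
  simp [ex, Complex.exp_mul_I]

@[simp] theorem ex_re (θ : ℝ) : (ex θ).re = Real.cos θ := Complex.exp_ofReal_mul_I_re θ

@[simp] theorem ex_im (θ : ℝ) : (ex θ).im = Real.sin θ := Complex.exp_ofReal_mul_I_im θ

@[simp] theorem norm_ex (θ : ℝ) : ‖ex θ‖ = 1 := Complex.norm_exp_ofReal_mul_I θ

theorem ex_add (a b : ℝ) : ex (a + b) = ex a * ex b := by
  simp [ex, add_mul, Complex.exp_add]

theorem ex_add_pi (a : ℝ) : ex (a + Real.pi) = -ex a := by
  apply Complex.ext <;> simp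

theorem ex_sub_pi (a : ℝ) : ex (a - Real.pi) = -ex a := by
  apply Complex.ext <;> simp

theorem ex_add_int (a : ℝ) (k : ℤ) : ex (a + k * (2 * Real.pi)) = ex a := by
  apply Complex.ext <;> simp

@[fun_prop] theorem continuous_ex : Continuous ex := by
  unfold ex
  fun_prop

theorem exists_ex {u : ℂ} (hu : ‖u‖ = 1) : ∃ θ, u = ex θ :=
  ⟨u.arg, by
    have := Complex.norm_mul_exp_arg_mul_I u
    rw [hu] at this
    simpa [ex] using this.symm⟩

theorem norm_sub_sq (z w : ℂ) :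
    ‖z - w‖ ^ 2 = (z.re - w.re) ^ 2 + (z.im - w.im) ^ 2 := by
  rw [Complex.sq_norm, Complex.normSq_apply]
  simp only [Complex.sub_re, Complex.sub_im]
  ring

theorem F_add_int (K : Fin 5 → Set ℂ) (x : ℂ) (c : Fin 5) (θ : ℝ) (k : ℤ) :
    θ + k * (2 * Real.pi) ∈ F K x c ↔ θ ∈ F K x c := by
  simp only [F, mem_ofPred_eq, ex_add_int]

theorem P_subset (K : Fin 5 → Set ℂ) (x : ℂ) (c : Fin 5) : P K x c ⊆ F K x c := interior_subset

theorem Good.isClosed_F {K : Fin 5 → Set ℂ} (h : Good K) (x : ℂ) (c : Fin 5) :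
    IsClosed (F K x c) :=
  (h.closed c).preimage (f := fun θ => x + ex θ) (by fun_prop)

theorem Gen.mem {K : Fin 5 → Set ℂ} {x : ℂ} {θ : ℝ} (h : θ ∈ Gen K x) {c : Fin 5}
    (hc : θ ∈ F K x c) : θ ∈ P K x c := by
  simpa using h 0 c (by simpa using hc)

theorem Gen.add {K : Fin 5 → Set ℂ} {x : ℂ} {θ : ℝ} (h : θ ∈ Gen K x) (k : ℤ) :
    θ + k * (Real.pi / 3) ∈ Gen K x := by
  intro j c
  have e : θ + k * (Real.pi / 3) + j * (Real.pi / 3) = θ + ((k + j : ℤ) : ℝ) * (Real.pi / 3) := by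
    push_cast
    ring
  rw [e]
  exact h (k + j) c

/-- Five different colours are all colours. -/
theorem all_of_nodup {a b c d e : Fin 5} (h : [a, b, c, d, e].Nodup) (k : Fin 5) :
    k = a ∨ k = b ∨ k = c ∨ k = d ∨ k = e := by
  simp only [List.nodup_cons, List.mem_cons, List.not_mem_nil, or_false, not_or,
    not_false_eq_true, List.nodup_nil, and_true] at h
  omega

theorem ne_of_nodup {a b c d e : Fin 5} (h : [a, b, c, d, e].Nodup) :
    (a ≠ b ∧ a ≠ c ∧ a ≠ d ∧ a ≠ e) ∧ (b ≠ c ∧ b ≠ d ∧ b ≠ e) ∧ (c ≠ d ∧ c ≠ e) ∧ d ≠ e := by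
  simpa using h

theorem exists_fifth {a b c d : Fin 5} (h : [a, b, c, d].Nodup) :
    ∃ e, [a, b, c, d, e].Nodup := by
  revert a b c d
  decide

theorem exists_fourth {a b c : Fin 5} (h : [a, b, c].Nodup) :
    ∃ d e, [a, b, c, d, e].Nodup := by
  revert a b c
  decide

theorem gam_symm {K : Fin 5 → Set ℂ} {x : ℂ} {i j : Fin 5} (h : Gam K x i j) : Gam K x j i := by
  intro ε hε
  obtain ⟨Q, hQ, hs⟩ := h ε hε
  exact ⟨Q, hQ, by rwa [inter_comm (K j)]⟩

theorem arm_symm {K : Fin 5 → Set ℂ} {x : ℂ} {i j : Fin 5} (h : Arm K x i j) : Arm K x j i := by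
  obtain ⟨Q, hQ, hx, hs⟩ := h
  exact ⟨Q, hQ, hx, by rwa [inter_comm (K j)]⟩

theorem locDefs_anchor : True := by
  have := @ex.eq_1
  have := @ex.eq_def
  have := @ex.eq_unfold
  have := @ex.congr_simp
  have := @F.eq_1
  have := @F.eq_def
  have := @F.eq_unfold
  have := @F.congr_simp
  have := @P.eq_1
  have := @P.eq_def
  have := @P.eq_unfold
  have := @P.congr_simp
  have := @Gen.eq_1
  have := @Gen.eq_def
  have := @Gen.eq_unfold
  have := @Gen.congr_simp
  have := @Alt.eq_1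
  have := @Alt.eq_def
  have := @Alt.eq_unfold
  have := @Alt.congr_simp
  have := @Sect.eq_1
  have := @Sect.eq_def
  have := @Sect.eq_unfold
  have := @Sect.congr_simp
  have := @Dir.eq_1
  have := @Dir.eq_def
  have := @Dir.eq_unfold
  have := @Dir.congr_simp
  have := @Good.congr_simp
  have := @TwoType.congr_simp
  trivial

end Crest.Agent.R40.Loc
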