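import Crest.Agent.R40.LocB
import Crest.Agent.R40.LocD

/-! Row 40, B2/local: (TA), (NT), triangles. -/

set_option autoImplicit false
open Set Metric

namespace Crest.Agent.R40.Loc

local notation "π" => Real.pi

variable {K : Fin 5 → Set ℂ} {x : ℂ}

theorem LocE.prod (h : Good K) {c d : Fin 5} {θ φ : ℝ} (hθ : θ ∈ P K x c) (hφ : φ ∈ P K x d)
    (h1 : ex θ ≠ ex φ) (h2 : ex θ + ex φ ≠ 0) :
    x + (ex θ + ex φ) ∉ K c ∧ x + (ex θ + ex φ) ∉ K d := by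
  constructor
  · rw [← add_assoc]
    exact h.prod hθ h1.symm fun e => h2 (by rw [e, add_neg_cancel])
  · rw [add_comm (ex θ), ← add_assoc]
    exact h.prod hφ h1 fun e => h2 (by rw [e, neg_add_cancel])

theorem LocE.forced (h : Good K) (x : ℂ) (c : Fin 5) : ∀ y ∈ {w | ∀ j, j ≠ c → x + w ∉ K j},
    ∀ y' ∈ {w | ∀ j, j ≠ c → x + w ∉ K j}, ‖y - y'‖ ≠ 1 := fun y hy y' hy' => by
  simpa using h.forced hy hy'

theorem Good.two_types (h : Good K) {d e : Fin 5} (hcov : ∀ θ, θ ∈ F K x d ∨ θ ∈ F K x e) :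
    P K x d = (F K x e)ᶜ ∧ P K x e = (F K x d)ᶜ ∧ ∃ q l, TwoType (P K x d) (P K x e) q l :=
  twoType_of_cover (h.isClosed_F x d) (h.isClosed_F x e) hcov (fun _ => h.adj) fun _ => h.adj

/-- (TA) -/
theorem Good.ta (h : Good K) {a b c d e : Fin 5} (hn : [a, b, c, d, e].Nodup)
    (hcov : ∀ θ, θ ∈ F K x d ∨ θ ∈ F K x e) (harm : Arm K x a b) : False := by
  obtain ⟨h1, -, q, l, ht⟩ := h.two_types hcov
  obtain ⟨Q₀, hQ₀, hx₀, hs₀⟩ := harm
  obtain ⟨Q, hQ, hx, hs⟩ := bump hQ₀ hx₀ isOpen_ball (mem_ball_self one_pos)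
  obtain ⟨z, hz, hzx⟩ := hQ.2.2.exists_ne x
  refine ta_geom ht (LocE.forced h x c) (sub_ne_zero.2 hzx) (mem_ball_iff_norm.1 (hs hz).2)
    fun θ hθ φ hφ hf j hj => ?_
  have h2 : ∀ i, Q ⊆ K i → x + (ex θ + ex φ) ∉ K i := fun i hi => by
    have e1 : x + (ex θ + ex φ) - x = ex θ + ex φ := add_sub_cancel_left _ _
    have e2 : x + (ex θ + ex φ) - z = ex θ + ex φ - (z - x) := by ring
    rcases hf with hf | hf
    · exact h.sweep hQ.2.1 hi hz hx (e2 ▸ hf.2) (e1.symm ▸ hf.1)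
    · exact h.sweep hQ.2.1 hi hx hz (e1.symm ▸ hf.1) (e2 ▸ hf.2)
  have h3 := LocE.prod h hθ hφ (fun e' => (h1.le hθ) (show x + ex θ ∈ K e by
      rw [e']; exact P_subset _ _ _ hφ))
    fun e => by
      have := mem_ball_iff_norm.1 (hs hz).2
      rw [e, zero_sub, norm_neg, norm_zero] at hf
      rcases hf with hf | hf <;> linarith [hf.1, hf.2]
  rcases all_of_nodup hn j with rfl | rfl | rfl | rfl | rfl
  exacts [h2 _ fun y hy => (hs₀ (hs hy).1).1, h2 _ fun y hy => (hs₀ (hs hy).1).2, absurd rfl hj,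
    h3.1, h3.2]

/-- (NT) -/
theorem Good.nt (h : Good K) {i j k : Fin 5} (hij : i ≠ j) (hik : i ≠ k) (hjk : j ≠ k)
    {Q : Set ℂ} (hQ : Cont Q) : ¬ Q ⊆ K i ∩ K j ∩ K k := by
  intro hs
  obtain ⟨x, hx⟩ := hQ.2.2.nonempty
  obtain ⟨d, e, hn⟩ := exists_fourth (show [i, j, k].Nodup by simp [*])
  refine h.ta hn (fun θ => ?_) ⟨Q, hQ, hx, hs.trans inter_subset_left⟩
  obtain ⟨c, hc, hθ⟩ := h.r2_set (x := x) {i, j, k} (fun ε hε => by
    obtain ⟨Q', h1, -, h2⟩ := bump hQ hx isOpen_ball (mem_ball_self hε)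
    refine ⟨Q', h1, fun y hy => (h2 hy).2, ?_⟩
    rintro _ (rfl | rfl | rfl) y hy
    exacts [(hs (h2 hy).1).1.1, (hs (h2 hy).1).1.2, (hs (h2 hy).1).2]) θ
  rcases all_of_nodup hn c with rfl | rfl | rfl | rfl | rfl
  exacts [absurd (by simp) hc, absurd (by simp) hc, absurd (by simp) hc, .inl hθ, .inr hθ]

theorem Good.three_P (h : Good K) {i j k : Fin 5} (hij : i ≠ j) (hik : i ≠ k) (hjk : j ≠ k)
    {θ : ℝ} (hi : θ ∈ P K x i) (hj : θ ∈ P K x j) (hk : θ ∈ P K x k) : False := by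
  obtain ⟨Q, hQ, -, -, hs⟩ := cont_of_P (K := K) (x := x) {i, j, k} (θ := θ) (by simp [*])
    isOpen_univ (mem_univ _)
  exact h.nt hij hik hjk hQ
    (subset_inter (subset_inter (hs i (by simp)) (hs j (by simp))) (hs k (by simp)))

theorem Good.tri (h : Good K) {a b c d e : Fin 5} (hn : [a, b, c, d, e].Nodup)
    (hab : Gam K x a b) (hbc : Gam K x b c) (hca : Gam K x c a) (θ : ℝ) :
    θ ∈ F K x d ∨ θ ∈ F K x e := by
  refine h.of_gen (x := x) ((h.isClosed_F x d).union (h.isClosed_F x e)) isOpen_univ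
    (fun φ _ hφ => ?_) (mem_univ θ)
  by_contra hc
  have key : ∀ {i j k : Fin 5}, Gam K x i j → (∀ l, l = i ∨ l = j ∨ l = k ∨ l = d ∨ l = e) →
      φ ∈ P K x k := fun hg hl => by
    obtain ⟨l, h1, h2, h3⟩ := h.r2 hg φ
    rcases hl l with rfl | rfl | rfl | rfl | rfl
    exacts [absurd rfl h1, absurd rfl h2, Gen.mem hφ h3, absurd (.inl h3) hc, absurd (.inr h3) hc]
  obtain ⟨⟨h1, h2, -⟩, ⟨h3, -⟩, -⟩ := ne_of_nodup hn
  have := all_of_nodup hn
  exact h.three_P h1 h2 h3 (key hbc fun l => by have := this l; tauto)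
    (key hca fun l => by have := this l; tauto) (key hab this)

theorem Good.alt_of_two (h : Good K) {d e : Fin 5} (hcov : ∀ θ, θ ∈ F K x d ∨ θ ∈ F K x e) :
    Alt K d x := by
  obtain ⟨-, h2, q, l, ht⟩ := h.two_types hcov
  exact fun θ => or_iff_not_imp_left.2 fun hθ => P_subset _ _ _ ((ht.yx θ).1 (h2.ge hθ))

/-- Opposite pairs alternating on the circle. -/
theorem Good.pair_case (h : Good K) {a b c d e : Fin 5} (hn : [a, b, c, d, e].Nodup)
    (hg : ∀ θ ∈ Gen K x, (θ ∈ F K x a ∧ θ ∈ F K x b) ∨ (θ ∈ F K x c ∧ θ ∈ F K x d)) : False := by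
  have hX := (h.isClosed_F x a).inter (h.isClosed_F x b)
  have hY := (h.isClosed_F x c).inter (h.isClosed_F x d)
  have adj : ∀ i j, ∀ θ ∈ interior (F K x i ∩ F K x j),
      θ + π / 3 ∉ F K x i ∩ F K x j ∧ θ - π / 3 ∉ F K x i ∩ F K x j := fun i j θ hθ =>
    (h.adj (interior_mono inter_subset_left hθ)).imp (fun h h' => h h'.1) fun h h' => h h'.1
  obtain ⟨h1, -, q, l, ht⟩ := twoType_of_cover hX hY
    (fun θ => h.of_gen (hX.union hY) isOpen_univ (fun φ _ => hg φ) (mem_univ θ)) (adj a b) (adj c d)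
  refine f_geom ht (LocE.forced h x e) fun θ hθ φ hφ h0 j hj => ?_
  have h2 : ex θ ≠ ex φ := fun e => h1.le hθ
    (show x + ex θ ∈ K c ∧ x + ex θ ∈ K d by rw [e]; exact interior_subset (s := F K x c ∩ _) hφ)
  rw [interior_inter] at hθ hφ
  have h3 := LocE.prod h hθ.1 hφ.1 h2 h0
  have h4 := LocE.prod h hθ.2 hφ.2 h2 h0
  rcases all_of_nodup hn j with rfl | rfl | rfl | rfl | rfl
  exacts [h3.1, h4.1, h3.2, h4.2, absurd rfl hj]

end Crest.Agent.R40.Loc
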