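import Crest.Agent.R40.LocDefs

/-! Row 40, B2/local: the root used in (ISO). -/

set_option autoImplicit false
open Set Metric

namespace Crest.Agent.R40.Loc

local notation "π" => Real.pi

variable {K : Fin 5 → Set ℂ} {x : ℂ}

namespace LocF0

theorem chord (a b : ℝ) : ‖ex a - ex b‖ ^ 2 = 2 - 2 * Real.cos (a - b) := by
  rw [norm_sub_sq, ex_re, ex_re, ex_im, ex_im, Real.cos_sub]
  linear_combination Real.sin_sq_add_cos_sq a + Real.sin_sq_add_cos_sq b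

theorem chord_eq (a b : ℝ) : ‖ex a - ex b‖ = √(2 - 2 * Real.cos (a - b)) := by
  rw [← chord, Real.sqrt_sq (norm_nonneg _)]

theorem chord_le {a b : ℝ} (h : a ≤ b) : ‖ex a - ex b‖ ≤ b - a := by
  refine (pow_le_pow_iff_left₀ (norm_nonneg _) (sub_nonneg.2 h) two_ne_zero).1 ?_
  rw [chord]
  linarith [Real.one_sub_sq_div_two_le_cos (x := a - b)]

theorem inner_le (δ w : ℂ) : δ.re * w.re + δ.im * w.im ≤ ‖δ‖ * ‖w‖ := by
  have h := Complex.re_le_norm (δ * (starRingEnd ℂ) w)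
  simpa using h

theorem norm_add_sq (δ w : ℂ) :
    ‖δ + w‖ ^ 2 = ‖δ‖ ^ 2 + 2 * (δ.re * w.re + δ.im * w.im) + ‖w‖ ^ 2 := by
  simp only [Complex.sq_norm, Complex.normSq_apply, Complex.add_re, Complex.add_im]
  ring

theorem cos_le {s : ℝ} (h0 : 0 ≤ s) (h1 : s ≤ π / 6) :
    2 - 2 * Real.cos (π / 3 - s) ≤ 1 - 2 / 5 * s := by
  have hp := Real.pi_lt_four
  have hp0 := Real.pi_pos
  have h2 := Real.mul_le_sin h0 (by linarith)
  have h3 := Real.one_sub_sq_div_two_le_cos (x := s)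
  have h4 : 1 / 2 * s ≤ 2 / π * s :=
    mul_le_mul_of_nonneg_right (by rw [div_le_div_iff₀ two_pos hp0]; linarith) h0
  have h5 : (3 / 2 : ℝ) ≤ √3 := Real.le_sqrt_of_sq_le (by norm_num)
  have h6 : 3 / 2 * Real.sin s ≤ √3 * Real.sin s :=
    mul_le_mul_of_nonneg_right h5 (by linarith)
  have h7 : s * s ≤ s * (2 / 3) := mul_le_mul_of_nonneg_left (by linarith) h0
  rw [Real.cos_sub, Real.cos_pi_div_three, Real.sin_pi_div_three]
  linarith

theorem hex (β : ℝ) : ex (β + π / 3) - ex β = -ex (β - π / 3) := by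
  apply Complex.ext <;>
    simp only [Complex.sub_re, Complex.sub_im, Complex.neg_re, Complex.neg_im, ex_re, ex_im,
      Real.cos_add, Real.cos_sub, Real.sin_add, Real.sin_sub, Real.cos_pi_div_three,
      Real.sin_pi_div_three] <;> ring

theorem root {δ : ℂ} {φ a b : ℝ} (hab : a ≤ b) (ha : 1 < ‖δ + ex (φ + π / 3) - ex a‖)
    (hb : ‖δ + ex (φ + π / 3) - ex b‖ < 1) :
    ∃ θ, a ≤ θ ∧ θ < b ∧ ‖δ + ex (φ + π / 3) - ex θ‖ = 1 := by
  obtain ⟨θ, h1, h2⟩ := intermediate_value_Icc' hab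
    (f := fun θ => ‖δ + ex (φ + π / 3) - ex θ‖) (by fun_prop) ⟨hb.le, ha.le⟩
  refine ⟨θ, h1.1, lt_of_le_of_ne h1.2 fun h => ?_, h2⟩
  rw [← h] at hb
  exact hb.ne h2

end LocF0

open LocF0 in
theorem iso_root {η : ℝ} (h0 : 0 < η) (h1 : η ≤ π / 6) :
    ∃ δ₀ : ℝ, 0 < δ₀ ∧ δ₀ ≤ 1 ∧ ∀ δ : ℂ, ‖δ‖ < δ₀ → ∀ β φ : ℝ, φ ≤ β →
      ‖δ‖ ^ 2 < 2 * (δ.re * Real.cos (β - π / 3) + δ.im * Real.sin (β - π / 3)) →
      ∃ θ : ℝ, φ - η ≤ θ ∧ θ < β ∧ ‖δ + ex (φ + π / 3) - ex θ‖ = 1 := by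
  have hp0 := Real.pi_pos
  have c1 : Real.cos (π / 3 + η) < 1 / 2 := by
    rw [← Real.cos_pi_div_three]
    exact Real.cos_lt_cos_of_nonneg_of_le_pi (by linarith) (by linarith) (by linarith)
  have c2 : 1 / 2 < Real.cos (π / 3 - η) := by
    rw [← Real.cos_pi_div_three]
    exact Real.cos_lt_cos_of_nonneg_of_le_pi (by linarith) (by linarith) (by linarith)
  have r1 : 1 < √(2 - 2 * Real.cos (π / 3 + η)) := Real.lt_sqrt_of_sq_lt (by linarith)
  have r2 : √(2 - 2 * Real.cos (π / 3 - η)) < 1 := (Real.sqrt_lt' one_pos).2 (by linarith)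
  refine ⟨min (1 / 5) (min (√(2 - 2 * Real.cos (π / 3 + η)) - 1)
    (1 - √(2 - 2 * Real.cos (π / 3 - η)))), lt_min (by norm_num) (lt_min (by linarith)
      (by linarith)), (min_le_left _ _).trans (by norm_num), fun δ hδ β φ hφ h => ?_⟩
  obtain ⟨d1, d2, d3⟩ : ‖δ‖ < 1 / 5 ∧ ‖δ‖ < √(2 - 2 * Real.cos (π / 3 + η)) - 1 ∧
      ‖δ‖ < 1 - √(2 - 2 * Real.cos (π / 3 - η)) := by simpa only [lt_min_iff] using hδ
  have ha : 1 < ‖δ + ex (φ + π / 3) - ex (φ - η)‖ := by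
    have e1 := chord_eq (φ + π / 3) (φ - η)
    rw [show φ + π / 3 - (φ - η) = π / 3 + η by ring] at e1
    have e2 := norm_sub_le (δ + ex (φ + π / 3) - ex (φ - η)) δ
    rw [show δ + ex (φ + π / 3) - ex (φ - η) - δ = ex (φ + π / 3) - ex (φ - η) by ring] at e2
    linarith
  rcases lt_or_ge (φ + η) β with hβ | hβ
  · obtain ⟨θ, t1, t2, t3⟩ := root (b := φ + η) (by linarith) ha (by
      have e1 := chord_eq (φ + π / 3) (φ + η)
      rw [show φ + π / 3 - (φ + η) = π / 3 - η by ring] at e1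
      have e2 := norm_add_le δ (ex (φ + π / 3) - ex (φ + η))
      rw [← add_sub_assoc] at e2
      linarith)
    exact ⟨θ, t1, t2.trans hβ, t3⟩
  · refine root (by linarith) ha (lt_of_pow_lt_pow_left₀ 2 zero_le_one ?_)
    have e1 := chord (φ + π / 3) β
    rw [show φ + π / 3 - β = π / 3 - (β - φ) by ring] at e1
    have e2 := cos_le (s := β - φ) (by linarith) (by linarith)
    have e3 := chord_le (a := φ + π / 3) (b := β + π / 3) (by linarith)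
    have e4 := inner_le δ (ex (φ + π / 3) - ex (β + π / 3))
    have e5 := mul_le_mul d1.le e3 (norm_nonneg _) (by norm_num)
    have e6 := congrArg Complex.re (hex β)
    have e7 := congrArg Complex.im (hex β)
    rw [add_sub_assoc, LocF0.norm_add_sq, e1]
    simp only [Complex.sub_re, Complex.sub_im, Complex.neg_re, Complex.neg_im, ex_re,
      ex_im] at e4 e6 e7 ⊢
    have e8 : Real.cos β = Real.cos (β + π / 3) + Real.cos (β - π / 3) := by linarith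
    have e9 : Real.sin β = Real.sin (β + π / 3) + Real.sin (β - π / 3) := by linarith
    rw [e8, e9]
    linarith

theorem iso_dir {δ : ℂ} (h0 : δ ≠ 0) (h1 : ‖δ‖ < 1) (β : ℝ) :
    ∃ j : ℤ, ‖δ‖ ^ 2 < 2 * (δ.re * Real.cos (β + j * (2 * π / 3) - π / 3) +
      δ.im * Real.sin (β + j * (2 * π / 3) - π / 3)) := by
  by_contra h
  push Not at h
  have a0 := h 0
  have a1 := h 1
  have a2 := h (-1)
  rw [show β + ((0 : ℤ) : ℝ) * (2 * π / 3) - π / 3 = β - π / 3 by push_cast; ring] at a0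
  rw [show β + ((1 : ℤ) : ℝ) * (2 * π / 3) - π / 3 = β + π / 3 by push_cast; ring] at a1
  rw [show β + ((-1 : ℤ) : ℝ) * (2 * π / 3) - π / 3 = β - π by push_cast; ring] at a2
  simp only [Real.cos_add, Real.cos_sub, Real.sin_add, Real.sin_sub, Real.cos_pi_div_three,
    Real.sin_pi_div_three, Real.cos_pi, Real.sin_pi] at a0 a1 a2
  have hn : 0 < ‖δ‖ ^ 2 := pow_pos (norm_pos_iff.2 h0) 2
  have hn1 : ‖δ‖ ^ 2 < 1 := pow_lt_one₀ (norm_nonneg _) h1 two_ne_zero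
  have e1 : ‖δ‖ ^ 2 = δ.re ^ 2 + δ.im ^ 2 := by
    rw [Complex.sq_norm, Complex.normSq_apply]
    ring
  have e2 := Real.sin_sq_add_cos_sq β
  have e3 : √3 ^ 2 = 3 := Real.sq_sqrt (by norm_num)
  obtain ⟨A, hA⟩ : ∃ A, A = δ.re * Real.cos β + δ.im * Real.sin β := ⟨_, rfl⟩
  obtain ⟨B, hB⟩ : ∃ B, B = √3 * (δ.re * Real.sin β - δ.im * Real.cos β) := ⟨_, rfl⟩
  have e4 : 3 * A ^ 2 + B ^ 2 = 3 * ‖δ‖ ^ 2 := by
    rw [hA, hB, e1, mul_pow, e3]
    linear_combination 3 * (δ.re ^ 2 + δ.im ^ 2) * e2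
  have b0 : A + B ≤ ‖δ‖ ^ 2 := by rw [hA, hB]; linarith
  have b1 : A - B ≤ ‖δ‖ ^ 2 := by rw [hA, hB]; linarith
  have b2 : -(2 * A) ≤ ‖δ‖ ^ 2 := by rw [hA]; linarith
  generalize ‖δ‖ ^ 2 = n at *
  have m1 := mul_nonneg (sub_nonneg.2 b0) (sub_nonneg.2 b1)
  have m2 := mul_nonneg (sub_nonneg.2 b0) (sub_nonneg.2 b2)
  have m3 := mul_nonneg (sub_nonneg.2 b1) (sub_nonneg.2 b2)
  have m4 := mul_pos hn (sub_pos.2 hn1)
  linarith

end Crest.Agent.R40.Loc
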