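import Crest.Agent.R40.TopD

/-! Row 40, B2/TOP: removing the triple points around the exceptional set. -/

set_option autoImplicit false
open Set Metric

namespace Crest.Agent.R40

/-- One blob whose frontier avoids finitely many closed sets that are disjoint off a ball. -/
theorem sep_family {ι : Type} [Finite ι] (Z U : ι → Set ℂ) (hZ : ∀ a, IsClosed (Z a))
    (hU : ∀ a, IsOpen (U a)) {x : ℂ} {η r : ℝ} (hηr : η < r)
    (h1 : ∀ a, closedBall x η ⊆ U a) (h2 : ∀ a, closure (U a) ⊆ ball x r)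
    (hfr : ∀ a, Disjoint (frontier (U a)) (Z a))
    (hd : ∀ a b, a ≠ b → Z a ∩ Z b ∩ ball x r ⊆ ball x η) :
    ∃ V, IsOpen V ∧ closedBall x η ⊆ V ∧ closure V ⊆ ball x r ∧
      ∀ a, Disjoint (frontier V) (Z a) := by
  have hP : IsClosed (closedBall x η ∪ ⋃ a, (Z a ∩ closure (U a)) \ ball x η) :=
    isClosed_closedBall.union (isClosed_iUnion_of_finite fun a =>
      ((hZ a).inter isClosed_closure).sdiff isOpen_ball)
  have hR : IsClosed ((ball x r)ᶜ ∪ ⋃ a, Z a \ U a) :=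
    isOpen_ball.isClosed_compl.union (isClosed_iUnion_of_finite fun a => (hZ a).sdiff (hU a))
  obtain ⟨V, hV, hPV, hVR⟩ := normal_exists_closure_subset hP hR.isOpen_compl (by
    rintro y (hy | hy) (hy' | hy')
    · exact hy' (closedBall_subset_ball hηr hy)
    · obtain ⟨b, hb⟩ := mem_iUnion.1 hy'
      exact hb.2 (h1 b hy)
    · obtain ⟨a, ha⟩ := mem_iUnion.1 hy
      exact hy' (h2 a ha.1.2)
    · obtain ⟨a, ha⟩ := mem_iUnion.1 hy
      obtain ⟨b, hb⟩ := mem_iUnion.1 hy'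
      by_cases hab : a = b
      · subst hab
        exact disjoint_left.1 (hfr a) ((hU a).frontier_eq ▸ ⟨ha.1.2, hb.2⟩) hb.1
      · exact ha.2 (hd a b hab ⟨⟨ha.1.1, hb.1⟩, h2 a ha.1.2⟩))
  refine ⟨V, hV, subset_union_left.trans hPV, fun y hy => by_contra fun h => hVR hy (Or.inl h),
    fun a => disjoint_left.2 fun y hy hyZ => ?_⟩
  rw [hV.frontier_eq] at hy
  have h3 : y ∈ U a := by_contra fun h => hVR hy.1 (Or.inr (mem_iUnion.2 ⟨a, hyZ, h⟩))
  by_cases h4 : y ∈ ball x η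
  · exact hy.2 (hPV (Or.inl (ball_subset_closedBall h4)))
  · exact hy.2 (hPV (Or.inr (mem_iUnion.2 ⟨a, ⟨hyZ, subset_closure h3⟩, h4⟩)))

theorem TopE.trip {K : Fin 5 → Set ℂ} {a b : Fin 5 × Fin 5} (ha : a.1 < a.2) (hb : b.1 < b.2)
    (hab : a ≠ b) {y : ℂ} (h1 : y ∈ K a.1 ∩ K a.2) (h2 : y ∈ K b.1 ∩ K b.2) : y ∈ Trip K := by
  by_cases h3 : a.1 ≠ b.1 ∧ a.2 ≠ b.1
  · exact ⟨a.1, a.2, b.1, ha.ne, h3.1, h3.2, h1.1, h1.2, h2.1⟩
  · have h4 : ¬ (a.1 = b.1 ∧ a.2 = b.2) := fun h => hab (Prod.ext h.1 h.2)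
    exact ⟨a.1, a.2, b.2, ha.ne, by omega, by omega, h1.1, h1.2, h2.2⟩

/-- Stage 2: recolour around the points of `D`, one after the other. -/
theorem stage2 {S : Set ℂ} (hS : IsClosed S) {η r : ℝ} (hηr : η < r)
    (G : ℂ → Fin 5 → Fin 5 → Prop) (hs : ∀ x i j, G x i j → G x j i)
    (U : ℂ → Fin 5 → Fin 5 → Set ℂ) (D : Finset ℂ) (hG : ∀ x ∈ D, Forest (G x))
    (hsep : ∀ x ∈ D, ∀ y ∈ D, x ≠ y → Disjoint (ball x r) (ball y r))
    (hU : ∀ x ∈ D, ∀ i j, i < j → ¬ G x i j →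
      IsOpen (U x i j) ∧ closedBall x η ⊆ U x i j ∧ closure (U x i j) ⊆ ball x r)
    (K : Fin 5 → Set ℂ) (hc : ∀ i, IsClosed (K i)) (hKS : ∀ i, K i ⊆ S) (hcov : S ⊆ ⋃ i, K i)
    (hT : Trip K ⊆ ⋃ x ∈ D, ball x η)
    (hfr : ∀ x ∈ D, ∀ i j, i < j → ¬ G x i j → Disjoint (frontier (U x i j)) (K i ∩ K j)) :
    ∃ K' : Fin 5 → Set ℂ, (∀ i, IsClosed (K' i)) ∧ (∀ i, K' i ⊆ S) ∧ S ⊆ ⋃ i, K' i ∧
      Trip K' = ∅ ∧ ∀ i, K' i ⊆ K i ∪ ⋃ x ∈ D, ball x r := by
  classical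
  induction D using Finset.induction generalizing K with
  | empty => exact ⟨K, hc, hKS, hcov, subset_empty_iff.1 (by simpa using hT), fun i => subset_union_left⟩
  | insert x D hx ih =>
    have hxD := Finset.mem_insert_self x D
    have hne : ∀ y ∈ D, x ≠ y := fun y hy h => hx (h ▸ hy)
    obtain ⟨V, hV, h1, h2, h3⟩ := sep_family
      (ι := {p : Fin 5 × Fin 5 // p.1 < p.2 ∧ ¬ G x p.1 p.2}) (fun p => K p.1.1 ∩ K p.1.2)
      (fun p => U x p.1.1 p.1.2) (fun p => (hc _).inter (hc _))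
      (fun p => (hU x hxD _ _ p.2.1 p.2.2).1) hηr (fun p => (hU x hxD _ _ p.2.1 p.2.2).2.1)
      (fun p => (hU x hxD _ _ p.2.1 p.2.2).2.2) (fun p => hfr x hxD _ _ p.2.1 p.2.2) (by
        intro a b hab y hy
        obtain ⟨z, hz, hyz⟩ := mem_iUnion₂.1 (hT (TopE.trip a.2.1 b.2.1
          (fun h => hab (Subtype.ext h)) hy.1.1 hy.1.2))
        by_cases hzx : x = z
        · exact hzx ▸ hyz
        · exact (disjoint_left.1 (hsep x hxD z hz hzx) hy.2 (ball_subset_ball hηr.le hyz)).elim)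
    obtain ⟨K₁, hc₁, hKS₁, hcov₁, he, hT₁⟩ := recolour (hG x hxD) hS hV K hc hKS hcov (by
      rintro i j hij ⟨y, hy, hyV⟩
      by_contra hn
      rcases lt_or_gt_of_ne hij with h | h
      · exact disjoint_left.1 (h3 ⟨(i, j), h, hn⟩) hyV hy
      · exact disjoint_left.1 (h3 ⟨(j, i), h, fun h' => hn (hs _ _ _ h')⟩) hyV ⟨hy.2, hy.1⟩)
    have hK : ∀ i y, y ∈ K₁ i → y ∉ ball x r → y ∈ K i := fun i y hy hn =>
      ((he i).subset ⟨hy, fun h => hn (h2 (subset_closure h))⟩).1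
    obtain ⟨K', a1, a2, a3, a4, a5⟩ := ih (fun y hy => hG y (Finset.mem_insert_of_mem hy))
      (fun y hy z hz => hsep y (Finset.mem_insert_of_mem hy) z (Finset.mem_insert_of_mem hz))
      (fun y hy => hU y (Finset.mem_insert_of_mem hy)) K₁ hc₁ hKS₁ hcov₁ (by
        intro y hy
        obtain ⟨z, hz, hyz⟩ := mem_iUnion₂.1 (hT (hT₁ hy).1)
        rcases Finset.mem_insert.1 hz with rfl | hz
        · exact ((hT₁ hy).2 (subset_closure (h1 (ball_subset_closedBall hyz)))).elim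
        · exact mem_iUnion₂.2 ⟨z, hz, hyz⟩) (by
        intro z hz i j hij hn
        have hz' := Finset.mem_insert_of_mem (b := x) hz
        refine disjoint_left.2 fun y hy hy' => ?_
        have h4 : y ∉ ball x r := fun h => disjoint_left.1 (hsep x hxD z hz' (hne z hz)) h
          ((hU z hz' i j hij hn).2.2 (frontier_subset_closure hy))
        exact disjoint_left.1 (hfr z hz' i j hij hn) hy ⟨hK _ _ hy'.1 h4, hK _ _ hy'.2 h4⟩)
    refine ⟨K', a1, a2, a3, a4, fun i y hy => ?_⟩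
    rcases a5 i hy with h | h
    · by_cases h4 : y ∈ ball x r
      · exact Or.inr (mem_iUnion₂.2 ⟨x, hxD, h4⟩)
      · exact Or.inl (hK i y h h4)
    · obtain ⟨z, hz, hyz⟩ := mem_iUnion₂.1 h
      exact Or.inr (mem_iUnion₂.2 ⟨z, Finset.mem_insert_of_mem hz, hyz⟩)

/-- A closed cover without triple points, close to the given one. -/
theorem cover2 {S : Set ℂ} (hS : IsCompact S) (K : Fin 5 → Set ℂ) (hc : ∀ i, IsClosed (K i))
    (hKS : ∀ i, K i ⊆ S) (hcov : S ⊆ ⋃ i, K i) (hno : ∀ Q, Cont Q → ¬ Q ⊆ Trip K)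
    (hD : {x | x ∈ Trip K ∧ ¬ Forest (Gam K x)}.Finite) (hA : ∀ x, Forest (Arm K x))
    {ε : ℝ} (hε : 0 < ε) :
    ∃ K' : Fin 5 → Set ℂ, (∀ i, IsClosed (K' i)) ∧ (∀ i, K' i ⊆ S) ∧ S ⊆ ⋃ i, K' i ∧
      Trip K' = ∅ ∧ ∀ i, K' i ⊆ K i ∪ thickening ε (Trip K) := by
  have hle : ∀ {c : ℝ}, 0 < c → ∀ᶠ r in nhdsWithin (0 : ℝ) (Ioi 0), r < c := fun hc =>
    (gt_mem_nhds hc).filter_mono nhdsWithin_le_nhds
  have hTc := isClosed_trip hc
  obtain ⟨r, hr0, hrε, hsep⟩ : ∃ r, 0 < r ∧ r < ε ∧ ∀ x ∈ hD.toFinset, ∀ y ∈ hD.toFinset, x ≠ y →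
      Disjoint (ball x r) (ball y r) := by
    refine (Filter.Eventually.and (f := nhdsWithin (0 : ℝ) (Ioi 0)) self_mem_nhdsWithin ((hle hε).and
      ((Filter.eventually_all_finset _).2 fun x _ => (Filter.eventually_all_finset _).2 fun y _ =>
        ?_))).exists
    by_cases hxy : x = y
    · exact .of_forall fun _ h => (h hxy).elim
    · exact (hle (half_pos (dist_pos.2 hxy))).mono fun r h _ => ball_disjoint_ball (by linarith)
  have hb : ∀ (x : ℂ) (i j : Fin 5), ∃ U, ¬ Arm K x i j → IsOpen U ∧ {x} ⊆ U ∧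
      closure U ⊆ ball x r ∧ Disjoint (frontier U) (K i ∩ K j ∪ Trip K) := by
    intro x i j
    by_cases h : Arm K x i j
    · exact ⟨∅, fun h' => (h' h).elim⟩
    · obtain ⟨U, hU⟩ := blob (((hc i).inter (hc j)).union hTc) isCompact_singleton isOpen_ball
        (singleton_subset_iff.2 (mem_ball_self (x := x) hr0)) (by
          rintro Q hQ h1 ⟨_, h2, rfl⟩
          exact h ⟨Q, hQ, h2, cont_subset_of_union hQ ((hc i).inter (hc j)) hno
            (h1.trans inter_subset_left)⟩)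
      exact ⟨U, fun _ => hU⟩
  choose U hU using hb
  obtain ⟨η, hη0, hηr, hη⟩ : ∃ η, 0 < η ∧ η < r ∧ ∀ x ∈ hD.toFinset, ∀ i j, ¬ Arm K x i j →
      closedBall x η ⊆ U x i j ∧ Disjoint (frontier (U x i j)) (thickening η (Trip K)) := by
    refine (Filter.Eventually.and (f := nhdsWithin (0 : ℝ) (Ioi 0)) self_mem_nhdsWithin ((hle hr0).and
      ((Filter.eventually_all_finset _).2 fun x _ => Filter.eventually_all.2 fun i =>
        Filter.eventually_all.2 fun j => Filter.eventually_all.2 fun h => ?_))).exists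
    obtain ⟨h1, h2, h3, h4⟩ := hU x i j h
    obtain ⟨δ, hδ, h5⟩ := (h4.mono_right subset_union_right).exists_thickenings
      ((isCompact_closedBall x r).of_isClosed_subset isClosed_frontier
        (frontier_subset_closure.trans (h3.trans ball_subset_closedBall))) hTc
    exact ((eventually_closedBall_subset (h1.mem_nhds (h2 rfl))).filter_mono
      nhdsWithin_le_nhds).and ((hle hδ).mono fun η h6 =>
        h5.mono (self_subset_thickening hδ _) (thickening_mono h6.le _))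
  obtain ⟨K₁, hc₁, hKS₁, hcov₁, hT₁, hK₁⟩ := stage1 hS K hc hKS hcov hno hD.toFinset
    (fun x hx hn => by_contra fun h => hn (hD.mem_toFinset.2 ⟨hx, h⟩)) hη0
  obtain ⟨K', a1, a2, a3, a4, a5⟩ := stage2 hS.isClosed hηr (Arm K)
    (fun x i j ⟨Q, h1, h2, h3⟩ => ⟨Q, h1, h2, h3.trans (inter_comm _ _).subset⟩) U hD.toFinset
    (fun x _ => hA x) hsep
    (fun x hx i j _ h => ⟨(hU x i j h).1, (hη x hx i j h).1, (hU x i j h).2.2.1⟩) K₁ hc₁ hKS₁ hcov₁
    hT₁ (fun x hx i j _ h => disjoint_left.2 fun y hy hy' => by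
      have h1 := disjoint_left.1 (hη x hx i j h).2 hy
      exact disjoint_left.1 (hU x i j h).2.2.2 hy
        (Or.inl ⟨(hK₁ i hy'.1).resolve_right h1, (hK₁ j hy'.2).resolve_right h1⟩))
  refine ⟨K', a1, a2, a3, a4, fun i y hy => ?_⟩
  rcases a5 i hy with h | h
  · exact (hK₁ i h).imp_right fun h' => thickening_mono (hηr.trans hrε).le _ h'
  · obtain ⟨z, hz, hyz⟩ := mem_iUnion₂.1 h
    exact Or.inr (ball_subset_thickening (hD.mem_toFinset.1 hz).1 ε (ball_subset_ball hrε.le hyz))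

end Crest.Agent.R40
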