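import Crest.Agent.R40.TopB
import Crest.Agent.R40.TopE

/-! Row 40, B2/TOP: the covering-dimension contradiction. -/

set_option autoImplicit false
open Set Metric

namespace Crest.Agent.R40

namespace TopAux

theorem isCompact_sq : IsCompact Sq := by
  have h : Sq = (fun p : ℝ × ℝ => (⟨p.1, p.2⟩ : ℂ)) '' (Icc 0 3 ×ˢ Icc 0 3) := by
    ext z
    constructor
    · rintro ⟨h1, h2, h3, h4⟩
      exact ⟨(z.re, z.im), ⟨⟨h1, h2⟩, ⟨h3, h4⟩⟩, rfl⟩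
    · rintro ⟨p, ⟨⟨h1, h2⟩, ⟨h3, h4⟩⟩, rfl⟩
      exact ⟨h1, h2, h3, h4⟩
  rw [h]
  refine (isCompact_Icc.prod isCompact_Icc).image ?_
  have : (fun p : ℝ × ℝ => (⟨p.1, p.2⟩ : ℂ)) = fun p => (p.1 : ℂ) + (p.2 : ℂ) * Complex.I := by
    funext p
    apply Complex.ext <;> simp
  rw [this]
  fun_prop

/-- Splitting of `K ∪ T` along a coordinate `f`. -/
theorem split {K T : Set ℂ} (hK : IsCompact K) (hT : IsCompact T)
    (hno : ∀ Q, Cont Q → ¬ Q ⊆ T) (hd : ∀ Q, Cont Q → Q ⊆ K → ∀ p ∈ Q, ∀ q ∈ Q, ‖p - q‖ ≤ 1)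
    (f : ℂ → ℝ) (hf : Continuous f) (hl : ∀ p q, f p - f q ≤ ‖p - q‖) :
    ∃ δ : ℝ, 0 < δ ∧ ∃ P R : Set ℂ, IsClosed P ∧ IsClosed R ∧ Disjoint P R ∧
      thickening δ (K ∪ T) ⊆ P ∪ R ∧ (∀ z ∈ P, f z ≠ 3) ∧ (∀ z ∈ R, f z ≠ 0) := by
  obtain ⟨δ, hδ, P, R, hP, hR, hPR, hsub, h1, h2⟩ := thick_split (Z := K ∪ T) (A := {z | f z = 0})
    (B := {z | f z = 3}) (hK.union hT) (isClosed_eq hf continuous_const)
    (isClosed_eq hf continuous_const)
    (by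
      rw [Set.disjoint_left]
      intro z h0 h3
      simp only [mem_ofPred_eq] at h0 h3
      linarith)
    (by
      rintro Q hQ hsub ⟨p, hp, hp0⟩ ⟨q, hq, hq3⟩
      have := hd Q hQ (cont_subset_of_union hQ hK.isClosed hno hsub) q hq p hp
      have h2 := hl q p
      simp only [mem_ofPred_eq] at hp0 hq3
      linarith)
  exact ⟨δ, hδ, P, R, hP, hR, hPR, hsub, fun z hz h => Set.disjoint_left.1 h1 hz h,
    fun z hz h => Set.disjoint_left.1 h2 hz h⟩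

end TopAux

open TopAux in
/-- (TOP) -/
theorem top (K : Fin 5 → Set ℂ) (hc : ∀ i, IsClosed (K i)) (hcov : ∀ x, ∃ i, x ∈ K i)
    (hd : ∀ i Q, Cont Q → Q ⊆ K i → ∀ p ∈ Q, ∀ q ∈ Q, ‖p - q‖ ≤ 1)
    (hNT : ∀ i j k, i ≠ j → i ≠ k → j ≠ k → ∀ Q, Cont Q → ¬ Q ⊆ K i ∩ K j ∩ K k)
    (hD : {x | x ∈ Sq ∧ ¬ Forest (Gam K x)}.Finite) (hA : ∀ x, Forest (Arm K x)) : False := by
  set L : Fin 5 → Set ℂ := fun i => K i ∩ Sq with hL
  have hS := isCompact_sq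
  have hLK : ∀ i, L i ⊆ K i := fun i => inter_subset_left
  have hLS : ∀ i, L i ⊆ Sq := fun i => inter_subset_right
  have hLc : ∀ i, IsClosed (L i) := fun i => (hc i).inter hS.isClosed
  have hLk : ∀ i, IsCompact (L i) := fun i => hS.of_isClosed_subset (hLc i) (hLS i)
  have hLcov : Sq ⊆ ⋃ i, L i := fun x hx => by
    obtain ⟨i, hi⟩ := hcov x
    exact mem_iUnion.2 ⟨i, hi, hx⟩
  have hno : ∀ Q, Cont Q → ¬ Q ⊆ Trip L := trip_no_cont hLc fun i j k hij hik hjk Q hQ h =>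
    hNT i j k hij hik hjk Q hQ
      (h.trans (inter_subset_inter (inter_subset_inter (hLK i) (hLK j)) (hLK k)))
  have hTS : Trip L ⊆ Sq := by
    rintro x ⟨i, j, k, -, -, -, hi, -, -⟩
    exact hLS i hi
  have hTk : IsCompact (Trip L) := hS.of_isClosed_subset (isClosed_trip hLc) hTS
  have hD' : {x | x ∈ Trip L ∧ ¬ Forest (Gam L x)}.Finite := by
    refine hD.subset fun x hx => ⟨hTS hx.1, fun hF => hx.2 (hF.mono ?_)⟩
    intro i j _ h ε hε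
    obtain ⟨Q, hQ, hsub⟩ := h ε hε
    exact ⟨Q, hQ, hsub.trans
      (inter_subset_inter_left _ (inter_subset_inter (hLK i) (hLK j)))⟩
  have hA' : ∀ x, Forest (Arm L x) := fun x => (hA x).mono (by
    rintro i j _ ⟨Q, hQ, hx, hsub⟩
    exact ⟨Q, hQ, hx, hsub.trans (inter_subset_inter (hLK i) (hLK j))⟩)
  have hdL : ∀ i Q, Cont Q → Q ⊆ L i → ∀ p ∈ Q, ∀ q ∈ Q, ‖p - q‖ ≤ 1 :=
    fun i Q hQ h => hd i Q hQ (h.trans (hLK i))
  choose δ₁ hδ₁ P R hP hR hPR hs₁ hP3 hR0 using fun i =>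
    split (hLk i) hTk hno (hdL i) Complex.re Complex.continuous_re
      (fun p q => by simpa using (le_abs_self _).trans (Complex.abs_re_le_norm (p - q)))
  choose δ₂ hδ₂ P' R' hP' hR' hPR' hs₂ hP3' hR0' using fun i =>
    split (hLk i) hTk hno (hdL i) Complex.im Complex.continuous_im
      (fun p q => by simpa using (le_abs_self _).trans (Complex.abs_im_le_norm (p - q)))
  obtain ⟨ε, hε, hε₁, hε₂⟩ : ∃ ε : ℝ, 0 < ε ∧ (∀ i, ε ≤ δ₁ i) ∧ ∀ i, ε ≤ δ₂ i := by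
    obtain ⟨i, -, hi⟩ := Finset.exists_min_image Finset.univ δ₁ Finset.univ_nonempty
    obtain ⟨j, -, hj⟩ := Finset.exists_min_image Finset.univ δ₂ Finset.univ_nonempty
    exact ⟨min (δ₁ i) (δ₂ j), lt_min (hδ₁ i) (hδ₂ j),
      fun k => (min_le_left _ _).trans (hi k (Finset.mem_univ k)),
      fun k => (min_le_right _ _).trans (hj k (Finset.mem_univ k))⟩
  obtain ⟨M, hMc, -, hMcov, hMT, hML⟩ := cover2 hS L hLc hLS hLcov hno hD' hA' hε
  have hM : ∀ i δ, ε ≤ δ → M i ⊆ thickening δ (L i ∪ Trip L) := by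
    intro i δ hδ z hz
    rcases hML i hz with h | h
    · exact self_subset_thickening (hε.trans_le hδ) _ (Or.inl h)
    · exact thickening_mono hδ _ (thickening_subset_of_subset ε subset_union_right h)
  have h1 : ∀ i, M i ⊆ P i ∪ R i := fun i => (hM i _ (hε₁ i)).trans (hs₁ i)
  have h2 : ∀ i, M i ⊆ P' i ∪ R' i := fun i => (hM i _ (hε₂ i)).trans (hs₂ i)
  have cA : IsClosed (⋃ i, M i ∩ P i) := isClosed_iUnion_of_finite fun i => (hMc i).inter (hP i)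
  have cB : IsClosed (⋃ i, M i ∩ R i) := isClosed_iUnion_of_finite fun i => (hMc i).inter (hR i)
  have cP : IsClosed (⋃ i, M i ∩ R i ∩ P' i) :=
    isClosed_iUnion_of_finite fun i => ((hMc i).inter (hR i)).inter (hP' i)
  have cR : IsClosed (⋃ i, M i ∩ R i ∩ R' i) :=
    isClosed_iUnion_of_finite fun i => ((hMc i).inter (hR i)).inter (hR' i)
  obtain ⟨s, -, t, -, ⟨⟨hzA, -⟩, hzP⟩, hzR⟩ := four_sets
    (fun p : ℝ × ℝ => ((3 * p.1 : ℝ) : ℂ) + ((3 * p.2 : ℝ) : ℂ) * Complex.I) (by fun_prop)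
    cA cB cP cR
    (by
      intro s hs t ht
      have hz : ((3 * s : ℝ) : ℂ) + ((3 * t : ℝ) : ℂ) * Complex.I ∈ Sq := by
        refine ⟨?_, ?_, ?_, ?_⟩ <;> simp <;> linarith [hs.1, hs.2, ht.1, ht.2]
      obtain ⟨i, hi⟩ := mem_iUnion.1 (hMcov hz)
      rcases h1 i hi with h | h
      · exact Or.inl (mem_iUnion.2 ⟨i, hi, h⟩)
      · exact Or.inr (mem_iUnion.2 ⟨i, hi, h⟩))
    (by
      intro s _ t _ _ hB
      obtain ⟨i, hi, hi'⟩ := mem_iUnion.1 hB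
      rcases h2 i hi with h | h
      · exact Or.inl (mem_iUnion.2 ⟨i, ⟨hi, hi'⟩, h⟩)
      · exact Or.inr (mem_iUnion.2 ⟨i, ⟨hi, hi'⟩, h⟩))
    (by
      intro t _ h
      obtain ⟨i, -, hi⟩ := mem_iUnion.1 h
      exact hP3 i _ hi (by simp))
    (by
      intro t _ h
      obtain ⟨i, -, hi⟩ := mem_iUnion.1 h
      exact hR0 i _ hi (by simp))
    (by
      intro s _ h
      obtain ⟨i, -, hi⟩ := mem_iUnion.1 h
      exact hP3' i _ hi (by simp))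
    (by
      intro s _ h
      obtain ⟨i, -, hi⟩ := mem_iUnion.1 h
      exact hR0' i _ hi (by simp))
  obtain ⟨i, hi, hi'⟩ := mem_iUnion.1 hzA
  obtain ⟨j, ⟨hj, hj'⟩, hj''⟩ := mem_iUnion.1 hzP
  obtain ⟨k, ⟨hk, hk'⟩, hk''⟩ := mem_iUnion.1 hzR
  have hz : _ ∈ Trip M := ⟨i, j, k,
    fun h => by subst h; exact Set.disjoint_left.1 (hPR i) hi' hj',
    fun h => by subst h; exact Set.disjoint_left.1 (hPR i) hi' hk',
    fun h => by subst h; exact Set.disjoint_left.1 (hPR' j) hj'' hk'', hi, hj, hk⟩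
  rw [hMT] at hz
  exact hz

end Crest.Agent.R40
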