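import Crest.Agent.R40.LocA
import Crest.Agent.R40.LocC
import Crest.Agent.R40.LocF0
import Crest.Agent.R40.Top

/-! Row 40, B2/local: (ISO), alternating points are isolated. -/

set_option autoImplicit false
open Set Metric

namespace Crest.Agent.R40.Loc

local notation "π" => Real.pi

variable {K : Fin 5 → Set ℂ} {x : ℂ}

theorem Good.alt_closed (h : Good K) (c : Fin 5) : IsClosed {x | Alt K c x} := by
  have e : {x | Alt K c x} =
      ⋂ θ : ℝ, ((fun x : ℂ => x + ex θ) ⁻¹' K c ∪ (fun x : ℂ => x + ex (θ + π / 3)) ⁻¹' K c) := by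
    ext x
    simp only [Alt, F, mem_ofPred_eq, mem_iInter, mem_union, mem_preimage]
  rw [e]
  refine isClosed_iInter fun θ => IsClosed.union ?_ ?_
  · exact (h.closed c).preimage (by fun_prop)
  · exact (h.closed c).preimage (by fun_prop)

theorem Good.alt_iff (h : Good K) {c : Fin 5} (hA : Alt K c x) (θ : ℝ) :
    (θ ∈ P K x c ↔ θ + π / 3 ∉ F K x c) ∧ (θ ∈ P K x c ↔ θ - π / 3 ∉ F K x c) := by
  refine ⟨⟨fun hθ => (h.adj hθ).1, fun hθ => ?_⟩, ⟨fun hθ => (h.adj hθ).2, fun hθ => ?_⟩⟩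
  · have hU : IsOpen ((fun φ : ℝ => φ + π / 3) ⁻¹' (F K x c)ᶜ) :=
      (h.isClosed_F x c).isOpen_compl.preimage (by fun_prop)
    refine interior_maximal (fun φ hφ => ?_) hU hθ
    exact (hA φ).resolve_right hφ
  · have hU : IsOpen ((fun φ : ℝ => φ - π / 3) ⁻¹' (F K x c)ᶜ) :=
      (h.isClosed_F x c).isOpen_compl.preimage (by fun_prop)
    refine interior_maximal (fun φ hφ => ?_) hU hθ
    have := (hA (φ - π / 3)).resolve_left hφ
    rwa [sub_add_cancel] at this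

theorem Good.alt_per (h : Good K) {c : Fin 5} (hA : Alt K c x) (θ : ℝ) (k : ℤ) :
    θ + k * (2 * π / 3) ∈ P K x c ↔ θ ∈ P K x c := by
  have step : ∀ φ : ℝ, φ + 2 * π / 3 ∈ P K x c ↔ φ ∈ P K x c := by
    intro φ
    rw [(h.alt_iff hA φ).1, (h.alt_iff hA (φ + 2 * π / 3)).2]
    have e : φ + 2 * π / 3 - π / 3 = φ + π / 3 := by ring
    rw [e]
  induction k using Int.induction_on with
  | zero => simp
  | succ n ih =>
    have e : θ + (((n : ℤ) + 1 : ℤ) : ℝ) * (2 * π / 3) =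
        θ + ((n : ℤ) : ℝ) * (2 * π / 3) + 2 * π / 3 := by
      push_cast
      ring
    rw [e]
    exact (step _).trans ih
  | pred n ih =>
    have e : θ + ((-(n : ℤ) - 1 : ℤ) : ℝ) * (2 * π / 3) + 2 * π / 3 =
        θ + ((-(n : ℤ) : ℤ) : ℝ) * (2 * π / 3) := by
      push_cast
      ring
    refine (step _).symm.trans ?_
    rw [e]
    exact ih

theorem Good.alt_edge (h : Good K) {c : Fin 5} (hA : Alt K c x) :
    ∃ q l : ℝ, 0 < l ∧ Ioo (q - l) q ⊆ P K x c ∧ q ∉ P K x c := by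
  have hne : ∃ y, y ∈ P K x c := by
    by_contra hn
    have hF : F K x c = univ := by
      refine eq_univ_of_forall fun φ => ?_
      by_contra hφ
      refine hn ⟨φ - π / 3, (h.alt_iff hA _).1.2 ?_⟩
      rwa [sub_add_cancel]
    refine hn ⟨0, ?_⟩
    rw [P, hF, interior_univ]
    exact mem_univ _
  obtain ⟨y, hy⟩ := hne
  have hy1 : y + π / 3 ∉ P K x c := fun hh => (h.adj hy).1 (P_subset K x c hh)
  have hlt : y < y + π / 3 := by linarith [Real.pi_pos]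
  obtain ⟨q, hq0, -, hq2, hq3⟩ := endpoint_right (W := P K x c) isOpen_interior hy hy1 hlt
  refine ⟨q, q - y, by linarith, fun φ hφ => hq3 ⟨?_, hφ.2⟩, hq2⟩
  have := hφ.1
  linarith

theorem Good.alt_step (h : Good K) (c : Fin 5) {η : ℝ} (h0 : 0 < η) (h1 : η ≤ π / 6) :
    ∃ δ₀ : ℝ, 0 < δ₀ ∧ ∀ x x' : ℂ, Alt K c x → Alt K c x' → x ≠ x' → ‖x' - x‖ < δ₀ →
      ∀ θ₀ β : ℝ, Ico (θ₀ - η) β ⊆ P K x c → Icc θ₀ β ⊆ P K x' c := by
  obtain ⟨δ₀, hδ0, hδ1, hroot⟩ := iso_root h0 h1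
  refine ⟨δ₀, hδ0, fun x x' hA hA' hne hlt θ₀ β hsub φ hφ => ?_⟩
  have hδne : x' - x ≠ 0 := sub_ne_zero.2 hne.symm
  have hδ : ‖x' - x‖ < 1 := hlt.trans_le hδ1
  obtain ⟨j, hj⟩ := iso_dir hδne hδ β
  obtain ⟨θ, hθ1, hθ2, hθ3⟩ := hroot (x' - x) hlt (β + j * (2 * π / 3)) (φ + j * (2 * π / 3))
    (by linarith [hφ.2]) hj
  have hθP : θ ∈ P K x c := by
    have h1 : θ - j * (2 * π / 3) ∈ P K x c :=
      hsub ⟨by linarith [hφ.1], by linarith⟩
    have h2 := (h.alt_per hA (θ - j * (2 * π / 3)) j).2 h1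
    rwa [sub_add_cancel] at h2
  have hz : x' + ex (φ + j * (2 * π / 3) + π / 3) ∉ K c := by
    refine h.ruleR hθP ?_ ?_ ?_
    · rw [← hθ3]
      congr 1
      ring
    · intro hh
      have e : x' - x = -ex (φ + j * (2 * π / 3) + π / 3) := by
        linear_combination hh
      rw [e, norm_neg, norm_ex] at hδ
      exact lt_irrefl _ hδ
    · intro hh
      have e : (2 : ℂ) * ex θ = (x' - x) + ex (φ + j * (2 * π / 3) + π / 3) := by
        linear_combination -hh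
      have h2 : ‖(2 : ℂ) * ex θ‖ = 2 := by
        rw [norm_mul, norm_ex]
        simp
      have h3 := norm_add_le (x' - x) (ex (φ + j * (2 * π / 3) + π / 3))
      rw [← e, h2, norm_ex] at h3
      linarith
  have h3 : φ + j * (2 * π / 3) ∈ P K x' c := (h.alt_iff hA' _).1.2 hz
  exact (h.alt_per hA' φ j).1 h3

theorem Good.alt_isolated (h : Good K) {c : Fin 5} (hA : Alt K c x) :
    ∃ r : ℝ, 0 < r ∧ ∀ x' ∈ ball x r, Alt K c x' → x' = x := by
  obtain ⟨q, l, hl, hsub, hq⟩ := h.alt_edge hA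
  have hη0 : 0 < min (l / 4) (π / 6) := lt_min (by linarith) (by linarith [Real.pi_pos])
  have hη1 : min (l / 4) (π / 6) ≤ π / 6 := min_le_right _ _
  have hη2 : min (l / 4) (π / 6) ≤ l / 4 := min_le_left _ _
  generalize min (l / 4) (π / 6) = η at hη0 hη1 hη2
  obtain ⟨δ₀, hδ0, hstep⟩ := h.alt_step c hη0 hη1
  refine ⟨δ₀, hδ0, fun x' hx' hA' => ?_⟩
  by_contra hne
  have hd : ‖x' - x‖ < δ₀ := by rwa [mem_ball, dist_eq_norm] at hx'
  have hd' : ‖x - x'‖ < δ₀ := by rwa [norm_sub_rev]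
  have s1 : Icc (q - 2 * η) q ⊆ P K x' c :=
    hstep x x' hA hA' (Ne.symm hne) hd (q - 2 * η) q fun φ hφ =>
      hsub ⟨by linarith [hφ.1], hφ.2⟩
  have s2 : Icc (q - η) q ⊆ P K x c :=
    hstep x' x hA' hA hne hd' (q - η) q fun φ hφ =>
      s1 ⟨by linarith [hφ.1], hφ.2.le⟩
  exact hq (s2 ⟨by linarith, le_rfl⟩)

theorem Good.alt_finite (h : Good K) (c : Fin 5) : {x | x ∈ Sq ∧ Alt K c x}.Finite := by
  have hC : IsCompact {x | x ∈ Sq ∧ Alt K c x} := TopAux.isCompact_sq.inter_right (h.alt_closed c)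
  have hr : ∀ x : ℂ, ∃ r : ℝ, 0 < r ∧ (Alt K c x → ∀ x' ∈ ball x r, Alt K c x' → x' = x) := by
    intro x
    by_cases hA : Alt K c x
    · obtain ⟨r, hr0, hr⟩ := h.alt_isolated hA
      exact ⟨r, hr0, fun _ => hr⟩
    · exact ⟨1, one_pos, fun hh => absurd hh hA⟩
  choose r hr0 hr using hr
  obtain ⟨t, ht, hcov⟩ := hC.elim_nhds_subcover (fun x => ball x (r x))
    (fun x _ => ball_mem_nhds x (hr0 x))
  refine t.finite_toSet.subset fun y hy => ?_
  obtain ⟨x, hx, hyx⟩ := mem_iUnion₂.1 (hcov hy)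
  have := hr x (ht x hx).2 y hyx hy.2
  rw [this]
  exact hx

end Crest.Agent.R40.Loc
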