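import Crest.Agent.R40.LocDefs

/-! Row 40, B2/local: polar rectangles. -/

set_option autoImplicit false
open Set Metric

namespace Crest.Agent.R40.Loc

local notation "π" => Real.pi

variable {K : Fin 5 → Set ℂ} {x : ℂ}

theorem isOpen_sect (x : ℂ) {a : ℝ} (ha : 0 ≤ a) (b α β : ℝ) : IsOpen (Sect x a b α β) := by
  have e : Sect x a b α β = (fun w : ℂ => x + Complex.exp w) ''
      {w : ℂ | a < Real.exp w.re ∧ Real.exp w.re < b ∧ α < w.im ∧ w.im < β} := by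
    ext z
    constructor
    · rintro ⟨t, φ, h1, h2, h3, h4, rfl⟩
      have ht : 0 < t := ha.trans_lt h1
      refine ⟨Real.log t + φ * Complex.I, ?_, ?_⟩
      · simpa [Real.exp_log ht, -Complex.natCast_log] using ⟨h1, h2, h3, h4⟩
      · show x + Complex.exp (Real.log t + φ * Complex.I) = x + t * Complex.exp (φ * Complex.I)
        rw [Complex.exp_add, ← Complex.ofReal_exp, Real.exp_log ht]
    · rintro ⟨w, ⟨h1, h2, h3, h4⟩, rfl⟩
      refine ⟨Real.exp w.re, w.im, h1, h2, h3, h4, ?_⟩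
      show x + Complex.exp w = x + (Real.exp w.re : ℂ) * Complex.exp (w.im * Complex.I)
      rw [Complex.ofReal_exp, ← Complex.exp_add, Complex.re_add_im]
  rw [e]
  refine ((isOpenMap_add_left x).comp Complex.isOpenMap_exp) _ ?_
  have c1 : Continuous fun w : ℂ => Real.exp w.re := by fun_prop
  exact (isOpen_lt continuous_const c1).inter ((isOpen_lt c1 continuous_const).inter
    ((isOpen_lt continuous_const Complex.continuous_im).inter
      (isOpen_lt Complex.continuous_im continuous_const)))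

theorem isPreconnected_sect (x : ℂ) (a b α β : ℝ) : IsPreconnected (Sect x a b α β) := by
  have e : Sect x a b α β = (fun q : ℝ × ℝ => x + q.1 * ex q.2) '' (Ioo a b ×ˢ Ioo α β) := by
    ext z
    constructor
    · rintro ⟨t, φ, h1, h2, h3, h4, rfl⟩
      exact ⟨(t, φ), ⟨⟨h1, h2⟩, h3, h4⟩, rfl⟩
    · rintro ⟨q, ⟨⟨h1, h2⟩, h3, h4⟩, rfl⟩
      exact ⟨q.1, q.2, h1, h2, h3, h4, rfl⟩
  rw [e]
  exact (isPreconnected_Ioo.prod isPreconnected_Ioo).image _ (Continuous.continuousOn (by fun_prop))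

theorem sect_mono (x : ℂ) {a b α β a' b' α' β' : ℝ} (h1 : a ≤ a') (h2 : b' ≤ b) (h3 : α ≤ α')
    (h4 : β' ≤ β) : Sect x a' b' α' β' ⊆ Sect x a b α β := by
  rintro z ⟨t, φ, a1, a2, a3, a4, rfl⟩
  exact ⟨t, φ, h1.trans_lt a1, a2.trans_le h2, h3.trans_lt a3, a4.trans_le h4, rfl⟩

theorem norm_sect {a b α β : ℝ} (ha : 0 ≤ a) {z : ℂ} (hz : z ∈ Sect x a b α β) :
    a < ‖z - x‖ ∧ ‖z - x‖ < b := by
  obtain ⟨t, φ, a1, a2, -, -, rfl⟩ := hz
  rw [add_sub_cancel_left, norm_mul, norm_ex, mul_one, Complex.norm_real,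
    Real.norm_of_nonneg (ha.trans a1.le)]
  exact ⟨a1, a2⟩

theorem sect_near (x : ℂ) (θ : ℝ) {ρ : ℝ} (hρ : 0 < ρ) :
    ∃ η : ℝ, 0 < η ∧ η < 1 ∧
      Sect x (1 - η) (1 + η) (θ - η) (θ + η) ⊆ ball (x + ex θ) ρ := by
  have hc : Continuous fun q : ℝ × ℝ => x + q.1 * ex q.2 := by fun_prop
  obtain ⟨δ, hδ, h⟩ := Metric.continuousAt_iff.1 (hc.continuousAt (x := (1, θ))) ρ hρ
  refine ⟨min δ (1 / 2), lt_min hδ (by norm_num), (min_le_right _ _).trans_lt (by norm_num), ?_⟩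
  rintro z ⟨t, φ, a1, a2, a3, a4, rfl⟩
  have h1 := min_le_left δ (1 / 2)
  have h2 := h (x := (t, φ)) (by
    rw [Prod.dist_eq, max_lt_iff, Real.dist_eq, Real.dist_eq, abs_lt, abs_lt]
    refine ⟨⟨?_, ?_⟩, ?_, ?_⟩ <;> dsimp only <;> linarith)
  simpa using h2

theorem mem_closure_sect (x : ℂ) {a b α β t φ : ℝ} (hab : a < b) (h1 : a ≤ t) (h2 : t ≤ b)
    (h3 : α < φ) (h4 : φ < β) : x + t * ex φ ∈ closure (Sect x a b α β) := by
  refine map_mem_closure (f := fun t : ℝ => x + t * ex φ) (s := Ioo a b) (by fun_prop) ?_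
    fun s hs => ⟨s, φ, hs.1, hs.2, h3, h4, rfl⟩
  rw [closure_Ioo hab.ne]
  exact ⟨h1, h2⟩

theorem isOpen_dir (K : Fin 5 → Set ℂ) (x : ℂ) (c : Fin 5) : IsOpen (Dir K x c) := by
  refine Metric.isOpen_iff.2 ?_
  rintro ψ ⟨η, r, hη, hr, h⟩
  refine ⟨η / 2, half_pos hη, fun ψ' hψ' => ⟨η / 2, r, half_pos hη, hr, Subset.trans ?_ h⟩⟩
  rw [mem_ball, Real.dist_eq, abs_lt] at hψ'
  exact sect_mono x le_rfl le_rfl (by linarith [hψ'.1]) (by linarith [hψ'.2])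

theorem dir_add_int (K : Fin 5 → Set ℂ) (x : ℂ) (c : Fin 5) (ψ : ℝ) (k : ℤ) :
    ψ + k * (2 * π) ∈ Dir K x c ↔ ψ ∈ Dir K x c := by
  have key : ∀ (ψ : ℝ) (k : ℤ), ψ + k * (2 * π) ∈ Dir K x c → ψ ∈ Dir K x c := by
    rintro ψ k ⟨η, r, hη, hr, h⟩
    refine ⟨η, r, hη, hr, ?_⟩
    rintro z ⟨t, φ, a1, a2, a3, a4, rfl⟩
    exact h ⟨t, φ + k * (2 * π), a1, a2, by linarith, by linarith, by rw [ex_add_int]⟩
  refine ⟨key ψ k, fun h => key _ (-k) ?_⟩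
  rwa [show ψ + k * (2 * π) + ((-k : ℤ) : ℝ) * (2 * π) = ψ by push_cast; ring]

/-- A closed segment at `x` in a direction of colour `c`. -/
theorem Good.dir_seg (h : Good K) {c : Fin 5} {ψ : ℝ} (hψ : ψ ∈ Dir K x c) :
    ∃ r : ℝ, 0 < r ∧ ∀ t : ℝ, 0 ≤ t → t < r → x + t * ex ψ ∈ K c := by
  obtain ⟨η, r, hη, hr, hs⟩ := hψ
  exact ⟨r, hr, fun t h0 h1 => closure_minimal hs (h.closed c)
    (mem_closure_sect x hr h0 h1.le (by linarith) (by linarith))⟩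

end Crest.Agent.R40.Loc
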