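import Crest.Agent.R40.LocA
import Crest.Agent.R40.LocC
import Crest.Agent.R40.LocG0

/-! Row 40, B2/local: cones at the centre. -/

set_option autoImplicit false
open Set Metric

namespace Crest.Agent.R40.Loc

local notation "π" => Real.pi

variable {K : Fin 5 → Set ℂ} {x : ℂ}

namespace LocG

theorem dist_sq (x : ℂ) (a φ t : ℝ) :
    ‖x + ex a - (x + t * ex φ)‖ ^ 2 = 1 - 2 * t * Real.cos (a - φ) + t ^ 2 := by
  rw [norm_sub_sq, Real.cos_sub]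
  simp only [Complex.add_re, Complex.add_im, Complex.re_ofReal_mul, Complex.im_ofReal_mul, ex_re,
    ex_im]
  linear_combination Real.sin_sq_add_cos_sq a + t ^ 2 * Real.sin_sq_add_cos_sq φ

theorem not_mem (h : Good K) {c : Fin 5} {a φ t : ℝ} (ha : a ∈ P K x c) (h0 : 0 < t) (h1 : t < 1)
    (hc : Real.cos (a - φ) = t / 2) : x + t * ex φ ∉ K c := by
  have hn : ‖(t : ℂ) * ex φ‖ = t := by simp [h0.le]
  refine h.ruleR ha ?_ (fun e => ?_) fun e => ?_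
  · rw [norm_sub_rev, ← sq_eq_sq₀ (norm_nonneg _) zero_le_one, dist_sq, hc]
    ring
  · rw [add_eq_left.1 e, norm_zero] at hn
    exact h0.ne hn
  · rw [add_left_cancel e] at hn
    simp at hn
    linarith

theorem seg (h : Good K) {c : Fin 5} {ψ : ℝ} (hψ : ψ ∈ Dir K x c) :
    ∃ (r : ℝ) (Q : Set ℂ), 0 < r ∧ IsPreconnected Q ∧ Q ⊆ K c ∧ x ∈ Q ∧
      ∀ t : ℝ, 0 < t → t < r → x + t * ex ψ ∈ Q := by
  obtain ⟨r, hr, H⟩ := h.dir_seg hψ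
  refine ⟨r, (fun t : ℝ => x + t * ex ψ) '' Ico 0 r, hr,
    isPreconnected_Ico.image _ (Continuous.continuousOn (by fun_prop)), ?_,
    ⟨0, ⟨le_rfl, hr⟩, by simp⟩, fun t h0 h1 => ⟨t, ⟨h0.le, h1⟩, rfl⟩⟩
  rintro _ ⟨t, ht, rfl⟩
  exact H t ht.1 ht.2

theorem seg_lt (h : Good K) {c : Fin 5} {ψ θ : ℝ} (hψ : ψ ∈ Dir K x c)
    (hcos : 0 < Real.cos (θ - ψ)) :
    ∃ Q : Set ℂ, IsPreconnected Q ∧ Q ⊆ K c ∧ x ∈ Q ∧ ∃ q ∈ Q, ‖x + ex θ - q‖ < 1 := by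
  obtain ⟨r, Q, hr, h1, h2, h3, h4⟩ := seg h hψ
  obtain ⟨t, h0, ht⟩ := exists_between (lt_min hr hcos)
  refine ⟨Q, h1, h2, h3, _, h4 t h0 (ht.trans_le (min_le_left _ _)), ?_⟩
  rw [← sq_lt_sq₀ (norm_nonneg _) zero_le_one, dist_sq]
  nlinarith [ht.trans_le (min_le_right _ _)]

theorem seg_gt (h : Good K) {c : Fin 5} {ψ θ : ℝ} (hψ : ψ ∈ Dir K x c)
    (hcos : Real.cos (θ - ψ) ≤ 0) :
    ∃ Q : Set ℂ, IsPreconnected Q ∧ Q ⊆ K c ∧ x ∈ Q ∧ ∃ q ∈ Q, 1 < ‖x + ex θ - q‖ := by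
  obtain ⟨r, Q, hr, h1, h2, h3, h4⟩ := seg h hψ
  refine ⟨Q, h1, h2, h3, _, h4 (r / 2) (by linarith) (by linarith), ?_⟩
  rw [← sq_lt_sq₀ zero_le_one (norm_nonneg _), dist_sq]
  nlinarith

theorem sect_shift (x : ℂ) (a b α β : ℝ) :
    Sect x a b α β ⊆ Sect x a b (α + 2 * π) (β + 2 * π) := by
  rintro _ ⟨t, φ, h1, h2, h3, h4, rfl⟩
  refine ⟨t, φ + (1 : ℤ) * (2 * π), h1, h2, ?_, ?_, by rw [ex_add_int]⟩ <;> push_cast <;> linarith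

end LocG

theorem Good.cone (h : Good K) {c : Fin 5} {θ : ℝ} (hθ : θ ∈ P K x c) :
    ∃ η r : ℝ, 0 < η ∧ 0 < r ∧
      Disjoint (Sect x 0 r (θ + π / 2 - η) (θ + π / 2 + η)) (K c) ∧
      Disjoint (Sect x 0 r (θ - π / 2 - η) (θ - π / 2 + η)) (K c) := by
  obtain ⟨ε, hε, hb⟩ := Metric.isOpen_iff.1 isOpen_interior θ hθ
  have hc : ContinuousAt (fun t : ℝ => Real.arccos (t / 2)) 0 :=
    (Real.continuous_arccos.comp (continuous_id.div_const 2)).continuousAt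
  obtain ⟨δ, hδ, H⟩ := Metric.continuousAt_iff.1 hc (ε / 2) (half_pos hε)
  have key : ∀ t : ℝ, 0 < t → t < min δ 1 → t < 1 ∧ |Real.arccos (t / 2) - π / 2| < ε / 2 ∧
      Real.cos (Real.arccos (t / 2)) = t / 2 := by
    intro t h0 h1
    have h2 := h1.trans_le (min_le_right _ _)
    refine ⟨h2, ?_, Real.cos_arccos (by linarith) (by linarith)⟩
    have := @H t (by simpa [abs_of_pos h0] using h1.trans_le (min_le_left _ _))
    simpa [Real.dist_eq] using this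
  refine ⟨ε / 2, min δ 1, half_pos hε, lt_min hδ one_pos, disjoint_left.2 ?_, disjoint_left.2 ?_⟩
  · rintro _ ⟨t, φ, h1, h2, h3, h4, rfl⟩
    obtain ⟨k1, k2, k3⟩ := key t h1 h2
    rw [abs_lt] at k2
    refine LocG.not_mem h (a := φ - Real.arccos (t / 2)) (hb ?_) h1 k1 ?_
    · rw [mem_ball, Real.dist_eq, abs_lt]
      constructor <;> linarith
    · rwa [sub_sub_cancel_left, Real.cos_neg]
  · rintro _ ⟨t, φ, h1, h2, h3, h4, rfl⟩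
    obtain ⟨k1, k2, k3⟩ := key t h1 h2
    rw [abs_lt] at k2
    refine LocG.not_mem h (a := φ + Real.arccos (t / 2)) (hb ?_) h1 k1 ?_
    · rw [mem_ball, Real.dist_eq, abs_lt]
      constructor <;> linarith
    · rwa [add_sub_cancel_left]

theorem Good.dir_out (h : Good K) {c : Fin 5} {ψ θ : ℝ} (hψ : ψ ∈ Dir K x c)
    (hcos : 0 < Real.cos (θ - ψ)) :
    ∃ ρ : ℝ, 0 < ρ ∧ ∀ y ∈ ball (x + ex θ) ρ, 1 < ‖y - x‖ → y ∉ K c := by
  obtain ⟨Q, h1, h2, h3, q, h4, h5⟩ := LocG.seg_lt h hψ hcos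
  exact h.out_side h1 h2 h3 h4 h5

theorem Good.dir_in (h : Good K) {c : Fin 5} {ψ θ : ℝ} (hψ : ψ ∈ Dir K x c)
    (hcos : Real.cos (θ - ψ) ≤ 0) :
    ∃ ρ : ℝ, 0 < ρ ∧ ∀ y ∈ ball (x + ex θ) ρ, ‖y - x‖ < 1 → y ∉ K c := by
  obtain ⟨Q, h1, h2, h3, q, h4, h5⟩ := LocG.seg_gt h hψ hcos
  exact h.in_side h1 h2 h3 h4 h5

theorem Good.dir_sep (h : Good K) {c : Fin 5} {ψ ψ' θ : ℝ} (hψ : ψ ∈ Dir K x c)
    (hψ' : ψ' ∈ Dir K x c) (h1 : 0 < Real.cos (θ - ψ)) (h2 : Real.cos (θ - ψ') ≤ 0) :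
    θ ∉ F K x c := by
  obtain ⟨Q, a1, a2, a3, q, a4, a5⟩ := LocG.seg_lt h hψ h1
  obtain ⟨Q', b1, b2, b3, q', b4, b5⟩ := LocG.seg_gt h hψ' h2
  exact h.sweep (a1.union x a3 b3 b1) (union_subset a2 b2) (Or.inl a4) (Or.inr b4) a5 b5

theorem Good.dir_opp (h : Good K) {c : Fin 5} {ψ : ℝ} (hψ : ψ ∈ Dir K x c)
    (hψ' : ψ + π ∈ Dir K x c) (θ : ℝ) : θ ∉ F K x c := by
  have e : ∀ u : ℝ, Real.cos (θ - (u + π)) = -Real.cos (θ - u) := fun u => by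
    rw [← sub_sub, Real.cos_sub_pi]
  have pos : ∀ u ∈ Dir K x c, u + π ∈ Dir K x c → 0 < Real.cos (θ - u) → θ ∉ F K x c :=
    fun u h1 h2 h3 => h.dir_sep h1 h2 h3 (by rw [e]; linarith)
  rcases lt_trichotomy (Real.cos (θ - ψ)) 0 with h0 | h0 | h0
  · exact h.dir_sep hψ' hψ (by rw [e]; linarith) h0.le
  · obtain ⟨u, hu, h1⟩ := exists_cos_pos (U := Dir K x c ∩ (fun u => u + π) ⁻¹' Dir K x c)
      ((isOpen_dir K x c).inter ((isOpen_dir K x c).preimage (continuous_add_const π)))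
      ⟨hψ, hψ'⟩ h0
    exact pos u hu.1 hu.2 h1
  · exact pos ψ hψ hψ' h0

theorem Good.antipodal (h : Good K) {a b c d e : Fin 5} (hn : [a, b, c, d, e].Nodup) {θ : ℝ}
    (ha : θ ∈ P K x a) (hb : θ ∈ P K x b) (hc : θ + π ∈ P K x c) (hd : θ + π ∈ P K x d)
    (φ : ℝ) : φ ∉ F K x e := by
  obtain ⟨η₁, r₁, a1, a2, a3, a4⟩ := h.cone ha
  obtain ⟨η₂, r₂, b1, b2, b3, b4⟩ := h.cone hb
  obtain ⟨η₃, r₃, c1, c2, c3, c4⟩ := h.cone hc
  obtain ⟨η₄, r₄, d1, d2, d3, d4⟩ := h.cone hd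
  obtain ⟨η, h0, e1, e2, e3, e4⟩ : ∃ η, 0 < η ∧ η ≤ η₁ ∧ η ≤ η₂ ∧ η ≤ η₃ ∧ η ≤ η₄ :=
    ⟨min (min η₁ η₂) (min η₃ η₄), by positivity, by simp, by simp, by simp, by simp⟩
  obtain ⟨r, h1, f1, f2, f3, f4⟩ : ∃ r, 0 < r ∧ r ≤ r₁ ∧ r ≤ r₂ ∧ r ≤ r₃ ∧ r ≤ r₄ :=
    ⟨min (min r₁ r₂) (min r₃ r₄), by positivity, by simp, by simp, by simp, by simp⟩
  have key : ∀ z, z ∉ K a → z ∉ K b → z ∉ K c → z ∉ K d → z ∈ K e := by
    intro z g1 g2 g3 g4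
    obtain ⟨i, hi⟩ := h.cover z
    rcases all_of_nodup hn i with rfl | rfl | rfl | rfl | rfl
    exacts [absurd hi g1, absurd hi g2, absurd hi g3, absurd hi g4, hi]
  refine h.dir_opp (ψ := θ - π / 2) ⟨η, r, h0, h1, fun z hz => key z ?_ ?_ ?_ ?_⟩
    ⟨η, r, h0, h1, fun z hz => key z ?_ ?_ ?_ ?_⟩ φ
  · exact disjoint_left.1 a4 (sect_mono x le_rfl f1 (by linarith) (by linarith) hz)
  · exact disjoint_left.1 b4 (sect_mono x le_rfl f2 (by linarith) (by linarith) hz)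
  · exact disjoint_left.1 c3
      (sect_mono x le_rfl f3 (by linarith) (by linarith) (LocG.sect_shift x _ _ _ _ hz))
  · exact disjoint_left.1 d3
      (sect_mono x le_rfl f4 (by linarith) (by linarith) (LocG.sect_shift x _ _ _ _ hz))
  · exact disjoint_left.1 a3 (sect_mono x le_rfl f1 (by linarith) (by linarith) hz)
  · exact disjoint_left.1 b3 (sect_mono x le_rfl f2 (by linarith) (by linarith) hz)
  · exact disjoint_left.1 c4 (sect_mono x le_rfl f3 (by linarith) (by linarith) hz)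
  · exact disjoint_left.1 d4 (sect_mono x le_rfl f4 (by linarith) (by linarith) hz)

end Crest.Agent.R40.Loc
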