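import Crest.Agent.R40.LocE
import Crest.Agent.R40.LocG

/-! Row 40, B2/local: no 5-cycle, no 4-cycle with a pendant edge. -/

set_option autoImplicit false
open Set Metric

namespace Crest.Agent.R40.Loc

local notation "π" => Real.pi

variable {K : Fin 5 → Set ℂ} {x : ℂ}

namespace LocH

/-- Two types (pairs of colours) are disjoint. -/
abbrev D (u v : Fin 5 → Fin 5) (s t : Fin 5) : Prop :=
  u s ≠ u t ∧ u s ≠ v t ∧ v s ≠ u t ∧ v s ≠ v t

/-- On a hexagon of types two opposite types are disjoint. -/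
abbrev HA (u v : Fin 5 → Fin 5) : Prop :=
  ∀ t0 t1, D u v t0 t1 → ∀ t2, D u v t1 t2 → ∀ t3, D u v t2 t3 → ∀ t4, D u v t3 t4 →
    ∀ t5, D u v t4 t5 → D u v t5 t0 → D u v t0 t3 ∨ D u v t1 t4 ∨ D u v t2 t5

/-- The colour missing from two disjoint types leaves one matching. -/
abbrev HB (u v : Fin 5 → Fin 5) : Prop :=
  ∀ i j, D u v i j → ∃ f, [u i, v i, u j, v j, f].Nodup ∧
    ∃ i' j', [u i', v i', u j', v j', f].Nodup ∧ ∀ s t, D u v s t → u s ≠ f → v s ≠ f →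
      u t ≠ f → v t ≠ f → s = i' ∨ s = j'

set_option synthInstance.maxSize 4096 in
theorem hA_c5 : HA ![0, 0, 1, 1, 2] ![2, 3, 3, 4, 4] := by decide

set_option synthInstance.maxSize 4096 in
theorem hB_c5 : HB ![0, 0, 1, 1, 2] ![2, 3, 3, 4, 4] := by decide

set_option synthInstance.maxSize 4096 in
theorem hA_pend : HA ![0, 1, 1, 2, 3] ![2, 3, 4, 4, 4] := by decide

set_option synthInstance.maxSize 4096 in
theorem hB_pend : HB ![0, 1, 1, 2, 3] ![2, 3, 4, 4, 4] := by decide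

theorem good_comp (h : Good K) {a b c d e : Fin 5} (hn : [a, b, c, d, e].Nodup) :
    Good (fun i => K (![a, b, c, d, e] i)) where
  closed := fun _ => h.closed _
  reg := fun _ => h.reg _
  cover := fun y => by
    obtain ⟨i, hi⟩ := h.cover y
    rcases all_of_nodup hn i with rfl | rfl | rfl | rfl | rfl
    · exact ⟨0, hi⟩
    · exact ⟨1, hi⟩
    · exact ⟨2, hi⟩
    · exact ⟨3, hi⟩
    · exact ⟨4, hi⟩
  sep := fun _ => h.sep _

theorem adj_types (h : Good K) {u v : Fin 5 → Fin 5} {θ θ' : ℝ} (hθ : θ ∈ Gen K x)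
    (he : θ' = θ + π / 3) {s t : Fin 5} (hs : θ ∈ F K x (u s) ∧ θ ∈ F K x (v s))
    (ht : θ' ∈ F K x (u t) ∧ θ' ∈ F K x (v t)) : D u v s t := by
  subst he
  have h1 := (h.adj (Gen.mem hθ hs.1)).1
  have h2 := (h.adj (Gen.mem hθ hs.2)).1
  refine ⟨fun e => h1 ?_, fun e => h1 ?_, fun e => h2 ?_, fun e => h2 ?_⟩
  · rw [e]; exact ht.1
  · rw [e]; exact ht.2
  · rw [e]; exact ht.1
  · rw [e]; exact ht.2

theorem core (h : Good K) (u v : Fin 5 → Fin 5)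
    (hty : ∀ θ ∈ Gen K x, ∃ i, θ ∈ F K x (u i) ∧ θ ∈ F K x (v i))
    (hA : HA u v) (hB : HB u v) : False := by
  obtain ⟨θ, hθ⟩ := (h.dense_gen x).nonempty
  have g : ∀ k : ℤ, θ + k * (π / 3) ∈ Gen K x := fun k => Gen.add hθ k
  obtain ⟨t0, h0⟩ := hty _ (g 0)
  obtain ⟨t1, h1⟩ := hty _ (g 1)
  obtain ⟨t2, h2⟩ := hty _ (g 2)
  obtain ⟨t3, h3⟩ := hty _ (g 3)
  obtain ⟨t4, h4⟩ := hty _ (g 4)
  obtain ⟨t5, h5⟩ := hty _ (g 5)
  have h6 : θ + ((0 : ℤ) : ℝ) * (π / 3) + ((1 : ℤ) : ℝ) * (2 * π) ∈ F K x (u t0) ∧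
      θ + ((0 : ℤ) : ℝ) * (π / 3) + ((1 : ℤ) : ℝ) * (2 * π) ∈ F K x (v t0) :=
    ⟨(F_add_int K x _ _ 1).2 h0.1, (F_add_int K x _ _ 1).2 h0.2⟩
  have key : ∀ (φ ψ : ℝ) (i j : Fin 5), φ ∈ Gen K x → ψ ∈ Gen K x → ψ = φ + π →
      (φ ∈ F K x (u i) ∧ φ ∈ F K x (v i)) → (ψ ∈ F K x (u j) ∧ ψ ∈ F K x (v j)) →
      D u v i j → False := by
    intro φ ψ i j hφ hψ he hi hj hd
    obtain ⟨f, hf, i', j', hf', hs⟩ := hB i j hd
    have hj1 := Gen.mem hψ hj.1
    have hj2 := Gen.mem hψ hj.2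
    rw [he] at hj1 hj2
    have hno : ∀ ω, ω ∉ F K x f :=
      h.antipodal hf (Gen.mem hφ hi.1) (Gen.mem hφ hi.2) hj1 hj2
    refine h.pair_case (x := x) hf' fun ω hω => ?_
    obtain ⟨s, hs1⟩ := hty ω hω
    obtain ⟨t, ht1⟩ := hty _ (Gen.add hω 1)
    have hd' : D u v s t := adj_types h hω (by push_cast; ring) hs1 ht1
    rcases hs s t hd' (fun e => hno _ (e ▸ hs1.1)) (fun e => hno _ (e ▸ hs1.2))
      (fun e => hno _ (e ▸ ht1.1)) (fun e => hno _ (e ▸ ht1.2)) with rfl | rfl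
    · exact Or.inl hs1
    · exact Or.inr hs1
  rcases hA t0 t1 (adj_types h (g 0) (by push_cast; ring) h0 h1)
    t2 (adj_types h (g 1) (by push_cast; ring) h1 h2)
    t3 (adj_types h (g 2) (by push_cast; ring) h2 h3)
    t4 (adj_types h (g 3) (by push_cast; ring) h3 h4)
    t5 (adj_types h (g 4) (by push_cast; ring) h4 h5)
    (adj_types h (g 5) (by push_cast; ring) h5 h6) with hd | hd | hd
  · exact key _ _ _ _ (g 0) (g 3) (by push_cast; ring) h0 h3 hd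
  · exact key _ _ _ _ (g 1) (g 4) (by push_cast; ring) h1 h4 hd
  · exact key _ _ _ _ (g 2) (g 5) (by push_cast; ring) h2 h5 hd

theorem no_three (h : Good K) {θ : ℝ} (hθ : θ ∈ Gen K x) (i j k : Fin 5) (hij : i ≠ j)
    (hik : i ≠ k) (hjk : j ≠ k) (hi : θ ∈ F K x i) (hj : θ ∈ F K x j) (hk : θ ∈ F K x k) :
    False :=
  h.three_P hij hik hjk (Gen.mem hθ hi) (Gen.mem hθ hj) (Gen.mem hθ hk)

set_option synthInstance.maxSize 4096 in
theorem ty_c5 : ∀ S : Fin 5 → Bool,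
    (∀ i j k : Fin 5, i ≠ j → i ≠ k → j ≠ k → S i = true → S j = true → S k = true → False) →
    (∃ k, k ≠ 0 ∧ k ≠ 1 ∧ S k = true) → (∃ k, k ≠ 1 ∧ k ≠ 2 ∧ S k = true) →
    (∃ k, k ≠ 2 ∧ k ≠ 3 ∧ S k = true) → (∃ k, k ≠ 3 ∧ k ≠ 4 ∧ S k = true) →
    (∃ k, k ≠ 4 ∧ k ≠ 0 ∧ S k = true) →
    ∃ i : Fin 5, S (![0, 0, 1, 1, 2] i) = true ∧ S (![2, 3, 3, 4, 4] i) = true := by
  decide

set_option synthInstance.maxSize 4096 in
theorem ty_pend : ∀ S : Fin 5 → Bool,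
    (∀ i j k : Fin 5, i ≠ j → i ≠ k → j ≠ k → S i = true → S j = true → S k = true → False) →
    (∃ k, k ≠ 0 ∧ k ≠ 1 ∧ S k = true) → (∃ k, k ≠ 1 ∧ k ≠ 2 ∧ S k = true) →
    (∃ k, k ≠ 2 ∧ k ≠ 3 ∧ S k = true) → (∃ k, k ≠ 3 ∧ k ≠ 0 ∧ S k = true) →
    (∃ k, k ≠ 4 ∧ k ≠ 0 ∧ S k = true) →
    ∃ i : Fin 5, S (![0, 1, 1, 2, 3] i) = true ∧ S (![2, 3, 4, 4, 4] i) = true := by
  decide

theorem c5_std (h : Good K) (hab : Gam K x 0 1) (hbc : Gam K x 1 2) (hcd : Gam K x 2 3)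
    (hde : Gam K x 3 4) (hea : Gam K x 4 0) : False := by
  classical
  refine core (x := x) h ![0, 0, 1, 1, 2] ![2, 3, 3, 4, 4] (fun θ hθ => ?_) hA_c5 hB_c5
  have := ty_c5 (fun c => decide (θ ∈ F K x c))
    (by simpa only [decide_eq_true_eq] using no_three h hθ)
    (by simpa only [decide_eq_true_eq] using h.r2 hab θ)
    (by simpa only [decide_eq_true_eq] using h.r2 hbc θ)
    (by simpa only [decide_eq_true_eq] using h.r2 hcd θ)
    (by simpa only [decide_eq_true_eq] using h.r2 hde θ)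
    (by simpa only [decide_eq_true_eq] using h.r2 hea θ)
  simpa only [decide_eq_true_eq] using this

theorem pend_std (h : Good K) (hab : Gam K x 0 1) (hbc : Gam K x 1 2) (hcd : Gam K x 2 3)
    (hda : Gam K x 3 0) (hea : Gam K x 4 0) : False := by
  classical
  refine core (x := x) h ![0, 1, 1, 2, 3] ![2, 3, 4, 4, 4] (fun θ hθ => ?_) hA_pend hB_pend
  have := ty_pend (fun c => decide (θ ∈ F K x c))
    (by simpa only [decide_eq_true_eq] using no_three h hθ)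
    (by simpa only [decide_eq_true_eq] using h.r2 hab θ)
    (by simpa only [decide_eq_true_eq] using h.r2 hbc θ)
    (by simpa only [decide_eq_true_eq] using h.r2 hcd θ)
    (by simpa only [decide_eq_true_eq] using h.r2 hda θ)
    (by simpa only [decide_eq_true_eq] using h.r2 hea θ)
  simpa only [decide_eq_true_eq] using this

end LocH

theorem Good.no_c5 (h : Good K) {a b c d e : Fin 5} (hn : [a, b, c, d, e].Nodup)
    (hab : Gam K x a b) (hbc : Gam K x b c) (hcd : Gam K x c d) (hde : Gam K x d e)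
    (hea : Gam K x e a) : False :=
  LocH.c5_std (x := x) (LocH.good_comp h hn) hab hbc hcd hde hea

theorem Good.no_pendant (h : Good K) {a b c d e : Fin 5} (hn : [a, b, c, d, e].Nodup)
    (hab : Gam K x a b) (hbc : Gam K x b c) (hcd : Gam K x c d) (hda : Gam K x d a)
    (hea : Gam K x e a) : False :=
  LocH.pend_std (x := x) (LocH.good_comp h hn) hab hbc hcd hda hea

end Crest.Agent.R40.Loc
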