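import Crest.Agent.R40.TopA
import Crest.Agent.R332.Brouwer

/-! Row 40, B2/TOP: Poincaré–Miranda and its consequences. -/

set_option autoImplicit false
open Set Metric

namespace Crest.Agent.R40

namespace TopB

/-- Clamp to `[0,1]`. -/
def cl (s : ℝ) : ℝ := max 0 (min 1 s)

theorem cl_cont : Continuous cl := continuous_const.max (continuous_const.min continuous_id)

theorem cl_mem (s : ℝ) : cl s ∈ Icc (0 : ℝ) 1 :=
  ⟨le_max_left _ _, max_le zero_le_one (min_le_left _ _)⟩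

theorem cl_eq {s : ℝ} (h : s ∈ Icc (0 : ℝ) 1) : cl s = s := by
  rw [cl, min_eq_right h.2, max_eq_right h.1]

theorem cl_fix {s a : ℝ} (h : cl (s - a) = s) (h0 : s = 0 → a ≤ 0) (h1 : s = 1 → 0 ≤ a) :
    a = 0 := by
  unfold cl at h
  rcases le_total 1 (s - a) with h2 | h2
  · rw [min_eq_left h2, max_eq_right zero_le_one] at h
    have := h1 h.symm
    linarith
  · rw [min_eq_right h2] at h
    rcases le_total 0 (s - a) with h3 | h3
    · rw [max_eq_right h3] at h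
      linarith
    · rw [max_eq_left h3] at h
      have := h0 h.symm
      linarith

theorem both {U V : Set (ℝ × ℝ)} (hU : IsClosed U) (hV : IsClosed V) (hU' : U.Nonempty)
    (hV' : V.Nonempty) {z : ℝ × ℝ} (h : infDist z U - infDist z V = 0) (hz : z ∈ U ∨ z ∈ V) :
    z ∈ U ∧ z ∈ V := by
  rw [hU.mem_iff_infDist_zero hU', hV.mem_iff_infDist_zero hV'] at hz ⊢
  rcases hz with hz | hz <;> constructor <;> linarith

theorem cont_closedBall (x : ℂ) {r : ℝ} (hr : 0 < r) : Cont (closedBall x r) := by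
  refine ⟨isCompact_closedBall x r, (convex_closedBall x r).isPreconnected, x,
    mem_closedBall_self hr.le, x + r, by simp [abs_of_pos hr], ?_⟩
  simp [hr.ne']

end TopB

open TopB

/-- Poincaré–Miranda on the unit square. -/
theorem poincare_miranda (f g : ℝ × ℝ → ℝ) (hf : Continuous f) (hg : Continuous g)
    (hl : ∀ t ∈ Icc (0 : ℝ) 1, f (0, t) ≤ 0) (hr : ∀ t ∈ Icc (0 : ℝ) 1, 0 ≤ f (1, t))
    (hb : ∀ s ∈ Icc (0 : ℝ) 1, g (s, 0) ≤ 0) (ht : ∀ s ∈ Icc (0 : ℝ) 1, 0 ≤ g (s, 1)) :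
    ∃ s ∈ Icc (0 : ℝ) 1, ∃ t ∈ Icc (0 : ℝ) 1, f (s, t) = 0 ∧ g (s, t) = 0 := by
  have hc : Continuous fun z : ℝ × ℝ => (cl z.1, cl z.2) :=
    (cl_cont.comp continuous_fst).prodMk (cl_cont.comp continuous_snd)
  obtain ⟨⟨s, t⟩, hz⟩ := R332.exists_fixed_of_bounded
    (fun z : ℝ × ℝ => (cl (cl z.1 - f (cl z.1, cl z.2)), cl (cl z.2 - g (cl z.1, cl z.2))))
    ((cl_cont.comp ((cl_cont.comp continuous_fst).sub (hf.comp hc))).prodMk
      (cl_cont.comp ((cl_cont.comp continuous_snd).sub (hg.comp hc)))) 1 (fun z => by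
      rw [Prod.norm_def]
      exact max_le (by rw [Real.norm_of_nonneg (cl_mem _).1]; exact (cl_mem _).2)
        (by rw [Real.norm_of_nonneg (cl_mem _).1]; exact (cl_mem _).2))
  have h1 : cl (cl s - f (cl s, cl t)) = s := congrArg Prod.fst hz
  have h2 : cl (cl t - g (cl s, cl t)) = t := congrArg Prod.snd hz
  have hs : s ∈ Icc (0 : ℝ) 1 := h1 ▸ cl_mem _
  have ht' : t ∈ Icc (0 : ℝ) 1 := h2 ▸ cl_mem _
  rw [cl_eq hs, cl_eq ht'] at h1 h2
  exact ⟨s, hs, t, ht', cl_fix h1 (fun e => e ▸ hl t ht') fun e => e ▸ hr t ht',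
    cl_fix h2 (fun e => e ▸ hb s hs) fun e => e ▸ ht s hs⟩

/-- A parametrised square covered by `A` (missing the right side) and `B` (missing the left
side), with `A ∩ B` covered by `P` (missing the top) and `R` (missing the bottom). -/
theorem four_sets (φ : ℝ × ℝ → ℂ) (hφ : Continuous φ) {A B P R : Set ℂ} (hA : IsClosed A)
    (hB : IsClosed B) (hP : IsClosed P) (hR : IsClosed R)
    (hcov : ∀ s ∈ Icc (0 : ℝ) 1, ∀ t ∈ Icc (0 : ℝ) 1, φ (s, t) ∈ A ∪ B)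
    (hAB : ∀ s ∈ Icc (0 : ℝ) 1, ∀ t ∈ Icc (0 : ℝ) 1, φ (s, t) ∈ A → φ (s, t) ∈ B →
      φ (s, t) ∈ P ∪ R)
    (hr : ∀ t ∈ Icc (0 : ℝ) 1, φ (1, t) ∉ A) (hl : ∀ t ∈ Icc (0 : ℝ) 1, φ (0, t) ∉ B)
    (ht : ∀ s ∈ Icc (0 : ℝ) 1, φ (s, 1) ∉ P) (hb : ∀ s ∈ Icc (0 : ℝ) 1, φ (s, 0) ∉ R) :
    ∃ s ∈ Icc (0 : ℝ) 1, ∃ t ∈ Icc (0 : ℝ) 1, φ (s, t) ∈ A ∩ B ∩ P ∩ R := by
  let S : Set (ℝ × ℝ) := Icc 0 1 ×ˢ Icc 0 1
  have hS : IsClosed S := isClosed_Icc.prod isClosed_Icc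
  have c1 : ∀ {U : Set ℂ} (a : ℝ), IsClosed U → IsClosed (S ∩ (φ ⁻¹' U ∪ {z | z.1 = a})) :=
    fun a hU => hS.inter ((hU.preimage hφ).union (isClosed_eq continuous_fst continuous_const))
  have c2 : ∀ {U : Set ℂ} (a : ℝ), IsClosed U → IsClosed (S ∩ (φ ⁻¹' U ∪ {z | z.2 = a})) :=
    fun a hU => hS.inter ((hU.preimage hφ).union (isClosed_eq continuous_snd continuous_const))
  have m1 : ∀ (U : Set ℂ) {a t : ℝ}, a ∈ Icc (0 : ℝ) 1 → t ∈ Icc (0 : ℝ) 1 →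
      (a, t) ∈ S ∩ (φ ⁻¹' U ∪ {z | z.1 = a}) := fun U a t ha ht => ⟨⟨ha, ht⟩, Or.inr rfl⟩
  have m2 : ∀ (U : Set ℂ) {a t : ℝ}, a ∈ Icc (0 : ℝ) 1 → t ∈ Icc (0 : ℝ) 1 →
      (t, a) ∈ S ∩ (φ ⁻¹' U ∪ {z | z.2 = a}) := fun U a t ha ht => ⟨⟨ht, ha⟩, Or.inr rfl⟩
  have z0 : (0 : ℝ) ∈ Icc (0 : ℝ) 1 := left_mem_Icc.2 zero_le_one
  have z1 : (1 : ℝ) ∈ Icc (0 : ℝ) 1 := right_mem_Icc.2 zero_le_one
  obtain ⟨s, hs, t, ht', h1, h2⟩ := poincare_miranda
    (fun z => infDist z (S ∩ (φ ⁻¹' A ∪ {z | z.1 = 0})) - infDist z (S ∩ (φ ⁻¹' B ∪ {z | z.1 = 1})))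
    (fun z => infDist z (S ∩ (φ ⁻¹' P ∪ {z | z.2 = 0})) - infDist z (S ∩ (φ ⁻¹' R ∪ {z | z.2 = 1})))
    ((continuous_infDist_pt _).sub (continuous_infDist_pt _))
    ((continuous_infDist_pt _).sub (continuous_infDist_pt _))
    (fun t ht => by
      rw [infDist_zero_of_mem (m1 A z0 ht), zero_sub, neg_nonpos]
      exact infDist_nonneg)
    (fun t ht => by
      rw [infDist_zero_of_mem (m1 B z1 ht), sub_zero]
      exact infDist_nonneg)
    (fun t ht => by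
      rw [infDist_zero_of_mem (m2 P z0 ht), zero_sub, neg_nonpos]
      exact infDist_nonneg)
    (fun t ht => by
      rw [infDist_zero_of_mem (m2 R z1 ht), sub_zero]
      exact infDist_nonneg)
  have hz : (s, t) ∈ S := ⟨hs, ht'⟩
  obtain ⟨⟨-, h3⟩, -, h4⟩ := both (c1 0 hA) (c1 1 hB) ⟨_, m1 A z0 z0⟩ ⟨_, m1 B z1 z0⟩ h1
    ((hcov s hs t ht').imp (fun h => ⟨hz, Or.inl h⟩) fun h => ⟨hz, Or.inl h⟩)
  have h5 : φ (s, t) ∈ A ∧ φ (s, t) ∈ B := by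
    rcases h3 with h3 | h3 <;> rcases h4 with h4 | h4
    · exact ⟨h3, h4⟩
    · obtain rfl : s = 1 := h4
      exact absurd h3 (hr t ht')
    · obtain rfl : s = 0 := h3
      exact absurd h4 (hl t ht')
    · exact absurd ((show s = 0 from h3).symm.trans h4) zero_ne_one
  obtain ⟨⟨-, h6⟩, -, h7⟩ := both (c2 0 hP) (c2 1 hR) ⟨_, m2 P z0 z0⟩ ⟨_, m2 R z1 z0⟩ h2
    ((hAB s hs t ht' h5.1 h5.2).imp (fun h => ⟨hz, Or.inl h⟩) fun h => ⟨hz, Or.inl h⟩)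
  refine ⟨s, hs, t, ht', ?_⟩
  rcases h6 with h6 | h6 <;> rcases h7 with h7 | h7
  · exact ⟨⟨h5, h6⟩, h7⟩
  · obtain rfl : t = 1 := h7
    exact absurd h6 (ht s hs)
  · obtain rfl : t = 0 := h6
    exact absurd h7 (hb s hs)
  · exact absurd ((show t = 0 from h6).symm.trans h7) zero_ne_one

/-- TL1 for a ball. -/
theorem tl1_ball {A B : Set ℂ} (hA : IsClosed A) (hB : IsClosed B) {x : ℂ} {r : ℝ}
    (hcov : ball x r ⊆ A ∪ B) (h1 : ¬ ball x r ⊆ A) (h2 : ¬ ball x r ⊆ B) :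
    ∃ Q, Cont Q ∧ Q ⊆ A ∩ B ∩ ball x r := by
  by_contra hno
  obtain ⟨b, hb, hbA⟩ := not_subset.1 h1
  obtain ⟨a, ha, haB⟩ := not_subset.1 h2
  have hab : b - a ≠ 0 := fun e => by
    rw [sub_eq_zero.1 e] at hbA
    exact (hcov ha).elim hbA haB
  obtain ⟨ρ₁, hρ₁, hb₁⟩ := Metric.isOpen_iff.1 hA.isOpen_compl b hbA
  obtain ⟨ρ₂, hρ₂, ha₂⟩ := Metric.isOpen_iff.1 hB.isOpen_compl a haB
  set m := max (dist a x) (dist b x) with hm
  have hmr : m < r := max_lt ha hb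
  set ρ := min (min ρ₁ ρ₂) (r - m) with hρ
  have hρ0 : 0 < ρ := lt_min (lt_min hρ₁ hρ₂) (by linarith)
  set δ := ρ / (‖b - a‖ + 1) with hδ
  have hδ0 : 0 < δ := by positivity
  have hv : ∀ t ∈ Icc (0 : ℝ) 1, ‖((δ * t : ℝ) : ℂ) * Complex.I * (b - a)‖ < ρ := by
    intro t ht
    rw [norm_mul, norm_mul, Complex.norm_I, mul_one, Complex.norm_real,
      Real.norm_of_nonneg (mul_nonneg hδ0.le ht.1)]
    have e : δ * (‖b - a‖ + 1) = ρ := div_mul_cancel₀ _ (by positivity)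
    have : δ * t * ‖b - a‖ ≤ δ * ‖b - a‖ :=
      mul_le_mul_of_nonneg_right (mul_le_of_le_one_right hδ0.le ht.2) (norm_nonneg _)
    nlinarith
  let φ : ℝ × ℝ → ℂ := fun z => a + z.1 • (b - a) + ((δ * z.2 : ℝ) : ℂ) * Complex.I * (b - a)
  have hφ : Continuous φ := by fun_prop
  have hin : ∀ s ∈ Icc (0 : ℝ) 1, ∀ t ∈ Icc (0 : ℝ) 1, φ (s, t) ∈ ball x r := by
    intro s hs t ht
    have e1 : a + s • (b - a) ∈ closedBall x m :=
      (convex_closedBall x m).add_smul_sub_mem (mem_closedBall.2 (le_max_left _ _))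
        (mem_closedBall.2 (le_max_right _ _)) hs
    have e2 : dist (φ (s, t)) (a + s • (b - a)) < ρ := by
      rw [dist_eq_norm]
      simpa only [φ, add_sub_cancel_left] using hv t ht
    have e3 := dist_triangle (φ (s, t)) (a + s • (b - a)) x
    have e4 : ρ ≤ r - m := min_le_right _ _
    rw [mem_closedBall] at e1
    rw [mem_ball]
    linarith
  have cI : IsCompact (Icc (0 : ℝ) 1) := isCompact_Icc
  have hZ : IsCompact (A ∩ B ∩ φ '' (Icc 0 1 ×ˢ Icc 0 1)) :=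
    ((cI.prod cI).image hφ).inter_left (hA.inter hB)
  have hd : Disjoint (φ '' (Icc 0 1 ×ˢ {0})) (φ '' (Icc 0 1 ×ˢ {1})) := by
    rw [Set.disjoint_left]
    rintro _ ⟨⟨s, t⟩, ⟨-, rfl : t = 0⟩, rfl⟩ ⟨⟨s', t'⟩, ⟨-, rfl : t' = 1⟩, e⟩
    have e1 : ((s' : ℂ) - s + δ * Complex.I) * (b - a) = 0 := by
      simp only [φ, Complex.real_smul] at e
      push_cast at e
      linear_combination e
    have e2 := congrArg Complex.im ((mul_eq_zero.1 e1).resolve_right hab)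
    simp at e2
    exact hδ0.ne' e2
  obtain ⟨P, R, hP, hR, hPR, hU, hPt, hRb⟩ := cut_wire' hZ
    ((cI.prod isCompact_singleton).image hφ).isClosed
    ((cI.prod isCompact_singleton).image hφ).isClosed hd fun Q hQ hQZ _ _ => hno ⟨Q, hQ, fun z hz => by
      obtain ⟨h3, ⟨s, t⟩, h4, rfl⟩ := hQZ hz
      exact ⟨h3, hin s h4.1 t h4.2⟩⟩
  obtain ⟨s, -, t, -, h⟩ := four_sets φ hφ hA hB hP.isClosed hR.isClosed
    (fun s hs t ht => hcov (hin s hs t ht))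
    (fun s hs t ht h3 h4 => hU ▸ ⟨⟨h3, h4⟩, (s, t), ⟨hs, ht⟩, rfl⟩)
    (fun t ht => hb₁ (by
      rw [mem_ball, dist_eq_norm]
      have := (hv t ht).trans_le ((min_le_left _ _).trans (min_le_left _ _))
      simpa [φ] using this))
    (fun t ht => ha₂ (by
      rw [mem_ball, dist_eq_norm]
      have := (hv t ht).trans_le ((min_le_left _ _).trans (min_le_right _ _))
      simpa [φ] using this))
    (fun s hs h => Set.disjoint_left.1 hPt h ⟨(s, 1), ⟨hs, rfl⟩, rfl⟩)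
    (fun s hs h => Set.disjoint_left.1 hRb h ⟨(s, 0), ⟨hs, rfl⟩, rfl⟩)
  exact Set.disjoint_left.1 hPR h.1.2 h.2

/-- TL1: a connected open set covered by two closed sets, neither of which suffices, contains a
nondegenerate continuum of their intersection. -/
theorem tl1 {A B N : Set ℂ} (hA : IsClosed A) (hB : IsClosed B) (hN : IsOpen N)
    (hNc : IsPreconnected N) (hcov : N ⊆ A ∪ B) (h1 : ¬ N ⊆ A) (h2 : ¬ N ⊆ B) :
    ∃ Q, Cont Q ∧ Q ⊆ A ∩ B ∩ N := by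
  by_cases h : N ⊆ interior A ∪ interior B
  · obtain ⟨b, hb, hbA⟩ := not_subset.1 h1
    obtain ⟨a, ha, haB⟩ := not_subset.1 h2
    obtain ⟨y, hy, hyA, hyB⟩ := hNc _ _ isOpen_interior isOpen_interior h
      ⟨a, ha, (h ha).resolve_right fun h' => haB (interior_subset h')⟩
      ⟨b, hb, (h hb).resolve_left fun h' => hbA (interior_subset h')⟩
    obtain ⟨ε, hε, hsub⟩ := Metric.nhds_basis_closedBall.mem_iff.1
      (((isOpen_interior.inter isOpen_interior).inter hN).mem_nhds ⟨⟨hyA, hyB⟩, hy⟩)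
    exact ⟨_, cont_closedBall y hε, fun z hz =>
      ⟨⟨interior_subset (hsub hz).1.1, interior_subset (hsub hz).1.2⟩, (hsub hz).2⟩⟩
  · obtain ⟨y, hy, hy'⟩ := not_subset.1 h
    obtain ⟨ε, hε, hsub⟩ := Metric.isOpen_iff.1 hN y hy
    obtain ⟨Q, hQ, hQ'⟩ := tl1_ball hA hB (hsub.trans hcov)
      (fun h' => hy' (Or.inl (interior_maximal h' isOpen_ball (mem_ball_self hε))))
      fun h' => hy' (Or.inr (interior_maximal h' isOpen_ball (mem_ball_self hε)))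
    exact ⟨Q, hQ, fun z hz => ⟨(hQ' hz).1, hsub (hQ' hz).2⟩⟩

end Crest.Agent.R40
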