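import Crest.Agent.R40.LocE
import Crest.Agent.R40.LocG0
import Crest.Agent.R40.TopB

/-! Row 40, B2/local: end points of two-coloured arcs. -/

set_option autoImplicit false
open Set Metric

namespace Crest.Agent.R40.Loc

local notation "π" => Real.pi

variable {K : Fin 5 → Set ℂ} {x : ℂ}

namespace LocI

theorem miss (h : Good K) {a c k : Fin 5} (hac : a ≠ c) (hak : a ≠ k) (hck : c ≠ k) {φ : ℝ}
    (hφ : φ ∈ Gen K x) (hF : φ ∈ F K x a ∩ F K x c) : φ ∉ F K x k := fun hk =>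
  h.three_P hac hak hck (Gen.mem hφ hF.1) (Gen.mem hφ hF.2) (Gen.mem hφ hk)

theorem side (h : Good K) {a c : Fin 5} (hac : a ≠ c) {φ : ℝ} (hφ : φ ∈ Gen K x)
    (hF : φ ∈ F K x a ∩ F K x c) {N : Set ℂ} (hN : x + ex φ ∈ closure N)
    (hs : ∀ y ∈ N, y ∉ K a ∧ y ∉ K c) : False := by
  have hZ : IsClosed (⋃ k : {k : Fin 5 // a ≠ k ∧ c ≠ k}, K k.1) :=
    isClosed_iUnion_of_finite fun k => h.closed k.1
  have hsub : N ⊆ ⋃ k : {k : Fin 5 // a ≠ k ∧ c ≠ k}, K k.1 := by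
    intro y hy
    obtain ⟨k, hk⟩ := h.cover y
    refine mem_iUnion.2 ⟨⟨k, ?_, ?_⟩, hk⟩
    · rintro rfl
      exact (hs y hy).1 hk
    · rintro rfl
      exact (hs y hy).2 hk
  obtain ⟨k, hk⟩ := mem_iUnion.1 (closure_minimal hsub hZ hN)
  exact miss h hac k.2.1 k.2.2 hφ hF hk

theorem clos_out (x : ℂ) {η α β φ : ℝ} (hη : 0 < η) (h1 : α < φ) (h2 : φ < β) :
    x + ex φ ∈ closure (Sect x 1 (1 + η) α β) := by
  have := mem_closure_sect x (a := 1) (b := 1 + η) (t := 1) (by linarith) le_rfl (by linarith) h1 h2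
  simpa using this

theorem clos_in (x : ℂ) {η α β φ : ℝ} (hη : 0 < η) (h1 : α < φ) (h2 : φ < β) :
    x + ex φ ∈ closure (Sect x (1 - η) 1 α β) := by
  have := mem_closure_sect x (a := 1 - η) (b := 1) (t := 1) (by linarith) (by linarith) le_rfl h1 h2
  simpa using this

theorem mem_mid (x : ℂ) {η α β φ : ℝ} (hη : 0 < η) (h1 : α < φ) (h2 : φ < β) :
    x + ex φ ∈ Sect x (1 - η) (1 + η) α β :=
  ⟨1, φ, by linarith, by linarith, h1, h2, by simp⟩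

theorem core (h : Good K) {a c e : Fin 5} {O N M : Set ℂ} (hO : IsOpen O) (hN : IsOpen N)
    (hNc : IsPreconnected N) (hNO : N ⊆ O) (hNs : N ⊆ K c ∪ K e) (hMs : M ⊆ K a ∪ K e)
    {φ φ' : ℝ} (hφ : x + ex φ ∈ closure N) (hφe : φ ∉ F K x e) (hg : φ' ∈ Gen K x)
    (h1 : x + ex φ' ∈ closure N) (h2 : x + ex φ' ∈ closure M) (h3 : x + ex φ' ∈ O)
    (hn : ¬ (φ' ∈ F K x a ∧ φ' ∈ F K x c)) : ∃ Q, Cont Q ∧ Q ⊆ K c ∩ K e ∩ O := by
  by_cases hc : φ' ∈ F K x c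
  · have ha : φ' ∉ F K x a := fun ha => hn ⟨ha, hc⟩
    have he : φ' ∈ F K x e :=
      (closure_minimal hMs ((h.closed a).union (h.closed e)) h2).resolve_left ha
    obtain ⟨Q, hQ, -, hQO, hQS⟩ := cont_of_P (K := K) (x := x) {c, e} (θ := φ') (by
      intro i hi
      rcases Finset.mem_insert.1 hi with rfl | hi
      · exact Gen.mem hg hc
      · rw [Finset.mem_singleton.1 hi]
        exact Gen.mem hg he) hO h3
    exact ⟨Q, hQ, fun y hy => ⟨⟨hQS c (by simp) hy, hQS e (by simp) hy⟩, hQO hy⟩⟩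
  · obtain ⟨Q, hQ, hQs⟩ := tl1 (h.closed c) (h.closed e) hN hNc hNs
      (fun hs => hc (closure_minimal hs (h.closed c) h1))
      (fun hs => hφe (closure_minimal hs (h.closed e) hφ))
    exact ⟨Q, hQ, fun y hy => ⟨(hQs hy).1, hNO (hQs hy).2⟩⟩

end LocI

theorem Good.arc_gen (h : Good K) {X : Set ℝ} {θ l : ℝ} (hl : 0 < l)
    (harc : Icc (θ - l) θ ⊆ X ∨ Icc θ (θ + l) ⊆ X) {η : ℝ} (hη : 0 < η) :
    ∃ φ ∈ Gen K x, θ - η < φ ∧ φ < θ + η ∧ φ ∈ X := by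
  have hm : 0 < min l η := lt_min hl hη
  have h1 : min l η ≤ l := min_le_left _ _
  have h2 : min l η ≤ η := min_le_right _ _
  rcases harc with harc | harc
  · obtain ⟨φ, hφ, hG⟩ := (h.dense_gen x).inter_open_nonempty (Ioo (θ - min l η) θ) isOpen_Ioo
      (nonempty_Ioo.2 (by linarith))
    exact ⟨φ, hG, by linarith [hφ.1], by linarith [hφ.2],
      harc ⟨by linarith [hφ.1], hφ.2.le⟩⟩
  · obtain ⟨φ, hφ, hG⟩ := (h.dense_gen x).inter_open_nonempty (Ioo θ (θ + min l η)) isOpen_Ioo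
      (nonempty_Ioo.2 (by linarith))
    exact ⟨φ, hG, by linarith [hφ.1], by linarith [hφ.2],
      harc ⟨hφ.1.le, by linarith [hφ.2]⟩⟩

theorem Good.side_out (h : Good K) {a c : Fin 5} (hac : a ≠ c) {θ l : ℝ} (hl : 0 < l)
    (harc : Icc (θ - l) θ ⊆ F K x a ∩ F K x c ∨ Icc θ (θ + l) ⊆ F K x a ∩ F K x c)
    {ρ : ℝ} (hρ : 0 < ρ)
    (hs : ∀ y ∈ ball (x + ex θ) ρ, 1 < ‖y - x‖ → y ∉ K a ∧ y ∉ K c) : False := by
  obtain ⟨η, hη, -, hsub⟩ := sect_near x θ hρ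
  obtain ⟨φ, hG, h1, h2, hF⟩ := h.arc_gen (x := x) hl harc hη
  refine LocI.side h hac hG hF (LocI.clos_out x hη h1 h2) fun y hy => ?_
  exact hs y (hsub (sect_mono x (by linarith) le_rfl le_rfl le_rfl hy)) (norm_sect zero_le_one hy).1

theorem Good.side_in (h : Good K) {a c : Fin 5} (hac : a ≠ c) {θ l : ℝ} (hl : 0 < l)
    (harc : Icc (θ - l) θ ⊆ F K x a ∩ F K x c ∨ Icc θ (θ + l) ⊆ F K x a ∩ F K x c)
    {ρ : ℝ} (hρ : 0 < ρ)
    (hs : ∀ y ∈ ball (x + ex θ) ρ, ‖y - x‖ < 1 → y ∉ K a ∧ y ∉ K c) : False := by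
  obtain ⟨η, hη, hη1, hsub⟩ := sect_near x θ hρ
  obtain ⟨φ, hG, h1, h2, hF⟩ := h.arc_gen (x := x) hl harc hη
  refine LocI.side h hac hG hF (LocI.clos_in x hη h1 h2) fun y hy => ?_
  exact hs y (hsub (sect_mono x le_rfl (by linarith) le_rfl le_rfl hy))
    (norm_sect (by linarith) hy).2

/-- (EP) -/
theorem Good.ep (h : Good K) {a b c d e : Fin 5} (hn : [a, b, c, d, e].Nodup) {θ l : ℝ}
    (hl : 0 < l)
    (harc : Icc (θ - l) θ ⊆ F K x a ∩ F K x c ∨ Icc θ (θ + l) ⊆ F K x a ∩ F K x c)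
    (hend : ¬ (θ ∈ P K x a ∧ θ ∈ P K x c)) {ρ : ℝ} (hρ : 0 < ρ)
    (hout : ∀ y ∈ ball (x + ex θ) ρ, 1 < ‖y - x‖ → y ∈ K c ∪ K e)
    (hin : ∀ y ∈ ball (x + ex θ) ρ, ‖y - x‖ < 1 → y ∈ K a ∪ K e) : False := by
  obtain ⟨⟨hab, hac, had, hae⟩, ⟨hbc, hbd, hbe⟩, ⟨hcd, hce⟩, hde⟩ := ne_of_nodup hn
  have hn' : [a, c, e, b, d].Nodup := by
    simp [*, Ne.symm, eq_comm]
  have harm : Arm K (x + ex θ) a c := by
    rcases harc with harc | harc
    · refine ⟨_, cont_arc x (α := θ - l) (β := θ) (by linarith),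
        ⟨θ, ⟨by linarith, le_rfl⟩, rfl⟩, ?_⟩
      rintro _ ⟨φ, hφ, rfl⟩
      exact harc hφ
    · refine ⟨_, cont_arc x (α := θ) (β := θ + l) (by linarith),
        ⟨θ, ⟨le_rfl, by linarith⟩, rfl⟩, ?_⟩
      rintro _ ⟨φ, hφ, rfl⟩
      exact harc hφ
  have key : ∀ ε : ℝ, 0 < ε → (∃ Q, Cont Q ∧ Q ⊆ K c ∩ K e ∩ ball (x + ex θ) ε) ∧
      ∃ Q, Cont Q ∧ Q ⊆ K a ∩ K e ∩ ball (x + ex θ) ε := by
    intro ε hε
    obtain ⟨η, hη, hη1, hsub⟩ := sect_near x θ (lt_min hρ hε)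
    have hρ' : ball (x + ex θ) (min ρ ε) ⊆ ball (x + ex θ) ρ := ball_subset_ball (min_le_left _ _)
    have hε' : ball (x + ex θ) (min ρ ε) ⊆ ball (x + ex θ) ε := ball_subset_ball (min_le_right _ _)
    have so : Sect x 1 (1 + η) (θ - η) (θ + η) ⊆ ball (x + ex θ) (min ρ ε) :=
      (sect_mono x (by linarith) le_rfl le_rfl le_rfl).trans hsub
    have si : Sect x (1 - η) 1 (θ - η) (θ + η) ⊆ ball (x + ex θ) (min ρ ε) :=
      (sect_mono x le_rfl (by linarith) le_rfl le_rfl).trans hsub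
    have co : Sect x 1 (1 + η) (θ - η) (θ + η) ⊆ K c ∪ K e := fun y hy =>
      hout y (hρ' (so hy)) (norm_sect zero_le_one hy).1
    have ci : Sect x (1 - η) 1 (θ - η) (θ + η) ⊆ K a ∪ K e := fun y hy =>
      hin y (hρ' (si hy)) (norm_sect (by linarith) hy).2
    obtain ⟨φ, hG, h1, h2, hF⟩ := h.arc_gen (x := x) hl harc hη
    have hφe : φ ∉ F K x e := LocI.miss h hac hae hce hG hF
    obtain ⟨φ', hφ', hG', hn'⟩ : ∃ φ' ∈ Ioo (θ - η) (θ + η), φ' ∈ Gen K x ∧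
        ¬ (φ' ∈ F K x a ∧ φ' ∈ F K x c) := by
      by_contra hcon
      have hs : Ioo (θ - η) (θ + η) ⊆ F K x a ∩ F K x c :=
        h.of_gen (x := x) ((h.isClosed_F x a).inter (h.isClosed_F x c)) isOpen_Ioo
          fun φ' h1 h2 => by
            by_contra h3
            exact hcon ⟨φ', h1, h2, h3⟩
      have hθ : θ ∈ Ioo (θ - η) (θ + η) := ⟨by linarith, by linarith⟩
      exact hend ⟨interior_maximal (fun t ht => (hs ht).1) isOpen_Ioo hθ,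
        interior_maximal (fun t ht => (hs ht).2) isOpen_Ioo hθ⟩
    have hm : x + ex φ' ∈ ball (x + ex θ) ε := hε' (hsub (LocI.mem_mid x hη hφ'.1 hφ'.2))
    exact ⟨LocI.core h isOpen_ball (isOpen_sect x zero_le_one _ _ _) (isPreconnected_sect x _ _ _ _)
        (so.trans hε') co ci (LocI.clos_out x hη h1 h2) hφe hG' (LocI.clos_out x hη hφ'.1 hφ'.2)
        (LocI.clos_in x hη hφ'.1 hφ'.2) hm hn',
      LocI.core h isOpen_ball (isOpen_sect x (by linarith) _ _ _) (isPreconnected_sect x _ _ _ _)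
        (si.trans hε') ci co (LocI.clos_in x hη h1 h2) hφe hG' (LocI.clos_in x hη hφ'.1 hφ'.2)
        (LocI.clos_out x hη hφ'.1 hφ'.2) hm fun hh => hn' hh.symm⟩
  have hce' : Gam K (x + ex θ) c e := fun ε hε => (key ε hε).1
  have hae' : Gam K (x + ex θ) a e := fun ε hε => (key ε hε).2
  exact h.ta hn' (h.tri hn' (arm_gam harm) hce' (gam_symm hae')) harm

end Crest.Agent.R40.Loc
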