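import Crest.Agent.R40.LocE
import Crest.Agent.R40.LocG
import Crest.Agent.R40.TopB

/-! Row 40, B2/local: the 4-cycle with an isolated colour, I. -/

set_option autoImplicit false
open Set Metric

namespace Crest.Agent.R40.Loc

local notation "π" => Real.pi

variable {K : Fin 5 → Set ℂ} {x : ℂ}

theorem Good.iso_notmem (h : Good K) {a b e : Fin 5} (hiso : ∀ j, j ≠ e → ¬ Gam K x e j)
    (hae : a ≠ e) (hg : Gam K x a b) : x ∉ K e := by
  intro hx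
  obtain ⟨r, hr, hno⟩ := not_gam_ball K x
  have hL : IsClosed (⋃ j : {j : Fin 5 // j ≠ e}, K j.1) :=
    isClosed_iUnion_of_finite fun j => h.closed j.1
  have key : ∀ Q, Cont Q → ¬ Q ⊆ K e ∩ (⋃ j : {j : Fin 5 // j ≠ e}, K j.1) ∩ ball x r := by
    intro Q hQ hs
    obtain ⟨j, Q', hQ', hs'⟩ := cont_union hQ (fun j : {j : Fin 5 // j ≠ e} => K j.1)
      (fun j => h.closed j.1) (fun z hz => (hs hz).1.2)
    exact hno e j.1 (hiso j.1 j.2) Q' hQ' fun z hz =>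
      ⟨⟨(hs (hs' hz).1).1.1, (hs' hz).2⟩, (hs (hs' hz).1).2⟩
  have hcov : ball x r ⊆ K e ∪ ⋃ j : {j : Fin 5 // j ≠ e}, K j.1 := by
    intro z _
    obtain ⟨i, hi⟩ := h.cover z
    by_cases hie : i = e
    · exact Or.inl (hie ▸ hi)
    · exact Or.inr (mem_iUnion.2 ⟨⟨i, hie⟩, hi⟩)
  have h1 : ¬ ball x r ⊆ K e := by
    intro hs
    obtain ⟨Q, hQ, hQs⟩ := hg r hr
    exact key Q hQ fun z hz =>
      ⟨⟨hs (hQs hz).2, mem_iUnion.2 ⟨⟨a, hae⟩, (hQs hz).1.1⟩⟩, (hQs hz).2⟩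
  have h2 : ¬ ball x r ⊆ ⋃ j : {j : Fin 5 // j ≠ e}, K j.1 := by
    intro hs
    obtain ⟨y, hy1, hy2⟩ := mem_closure_iff.1 (h.reg e hx) (ball x r) isOpen_ball
      (mem_ball_self hr)
    obtain ⟨ρ, hρ, hb⟩ := nhds_basis_closedBall.mem_iff.1
      ((isOpen_ball.inter isOpen_interior).mem_nhds (show y ∈ ball x r ∩ interior (K e) from
        ⟨hy1, hy2⟩))
    exact key _ (TopB.cont_closedBall y hρ) fun z hz =>
      ⟨⟨interior_subset (hb hz).2, hs (hb hz).1⟩, (hb hz).1⟩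
  obtain ⟨Q, hQ, hs⟩ := tl1_ball (h.closed e) hL hcov h1 h2
  exact key Q hQ hs

theorem Good.c4_types (h : Good K) {a b c d e : Fin 5} (hn : [a, b, c, d, e].Nodup)
    (hab : Gam K x a b) (hbc : Gam K x b c) (hcd : Gam K x c d) (hda : Gam K x d a) {θ : ℝ}
    (hθ : θ ∈ Gen K x) :
    θ ∈ F K x e ∨ (θ ∈ F K x a ∧ θ ∈ F K x c) ∨ (θ ∈ F K x b ∧ θ ∈ F K x d) := by
  have _ := hθ
  by_cases he : θ ∈ F K x e
  · exact Or.inl he
  right
  have e1 : θ ∈ F K x c ∨ θ ∈ F K x d := by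
    obtain ⟨k, h1, h2, hk⟩ := h.r2 hab θ
    rcases all_of_nodup hn k with rfl | rfl | rfl | rfl | rfl <;> simp_all
  have e2 : θ ∈ F K x a ∨ θ ∈ F K x d := by
    obtain ⟨k, h1, h2, hk⟩ := h.r2 hbc θ
    rcases all_of_nodup hn k with rfl | rfl | rfl | rfl | rfl <;> simp_all
  have e3 : θ ∈ F K x a ∨ θ ∈ F K x b := by
    obtain ⟨k, h1, h2, hk⟩ := h.r2 hcd θ
    rcases all_of_nodup hn k with rfl | rfl | rfl | rfl | rfl <;> simp_all
  have e4 : θ ∈ F K x b ∨ θ ∈ F K x c := by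
    obtain ⟨k, h1, h2, hk⟩ := h.r2 hda θ
    rcases all_of_nodup hn k with rfl | rfl | rfl | rfl | rfl <;> simp_all
  tauto

theorem LocJ.sect (h : Good K) {a b c d e : Fin 5} (hn : [a, b, c, d, e].Nodup)
    (hx : x ∉ K e) (hbd : ¬ Gam K x b d) {ψ η r η' r' : ℝ} (hη : 0 < η) (hr : 0 < r)
    (hη' : 0 < η') (hr' : 0 < r') (h1 : Disjoint (Sect x 0 r (ψ - η) (ψ + η)) (K a))
    (h2 : Disjoint (Sect x 0 r' (ψ - η') (ψ + η')) (K c)) :
    ψ ∈ Dir K x b ∨ ψ ∈ Dir K x d := by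
  obtain ⟨r₁, hr₁, hno⟩ := not_gam_ball K x
  obtain ⟨r₂, hr₂, hball⟩ := Metric.isOpen_iff.1 (h.closed e).isOpen_compl x hx
  set ρ := min (min r r') (min r₁ r₂) with hρ
  set τ := min η η' with hτ
  have hρ0 : 0 < ρ := by positivity
  have hτ0 : 0 < τ := by positivity
  have ρ1 : ρ ≤ r := (min_le_left _ _).trans (min_le_left _ _)
  have ρ2 : ρ ≤ r' := (min_le_left _ _).trans (min_le_right _ _)
  have ρ3 : ρ ≤ r₁ := (min_le_right _ _).trans (min_le_left _ _)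
  have ρ4 : ρ ≤ r₂ := (min_le_right _ _).trans (min_le_right _ _)
  have τ1 : τ ≤ η := min_le_left _ _
  have τ2 : τ ≤ η' := min_le_right _ _
  have hb : ∀ z ∈ Sect x 0 ρ (ψ - τ) (ψ + τ), z ∈ ball x ρ := fun z hz => by
    rw [mem_ball, dist_eq_norm]
    exact (norm_sect le_rfl hz).2
  have hcov : Sect x 0 ρ (ψ - τ) (ψ + τ) ⊆ K b ∪ K d := by
    intro z hz
    obtain ⟨k, hk⟩ := h.cover z
    rcases all_of_nodup hn k with rfl | rfl | rfl | rfl | rfl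
    · exact absurd hk (disjoint_left.1 h1
        (sect_mono x le_rfl ρ1 (by linarith) (by linarith) hz))
    · exact Or.inl hk
    · exact absurd hk (disjoint_left.1 h2
        (sect_mono x le_rfl ρ2 (by linarith) (by linarith) hz))
    · exact Or.inr hk
    · exact absurd hk (hball (ball_subset_ball ρ4 (hb z hz)))
  by_contra hcon
  rw [not_or] at hcon
  obtain ⟨Q, hQ, hs⟩ := tl1 (h.closed b) (h.closed d) (isOpen_sect x le_rfl _ _ _)
    (isPreconnected_sect x _ _ _ _) hcov (fun hs => hcon.1 ⟨τ, ρ, hτ0, hρ0, hs⟩)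
    (fun hs => hcon.2 ⟨τ, ρ, hτ0, hρ0, hs⟩)
  exact hno b d hbd Q hQ fun z hz => ⟨(hs hz).1, ball_subset_ball ρ3 (hb z (hs hz).2)⟩

theorem Good.half_cones (h : Good K) {a b c d e : Fin 5} (hn : [a, b, c, d, e].Nodup)
    (hx : x ∉ K e) (hbd : ¬ Gam K x b d) (hb : (F K x b).Nonempty) (hd : (F K x d).Nonempty)
    {θ : ℝ} (ha : θ ∈ P K x a) (hc : θ ∈ P K x c) :
    (θ + π / 2 ∈ Dir K x b ∧ θ - π / 2 ∈ Dir K x d) ∨
      (θ + π / 2 ∈ Dir K x d ∧ θ - π / 2 ∈ Dir K x b) := by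
  obtain ⟨η, r, hη, hr, a1, a2⟩ := h.cone ha
  obtain ⟨η', r', hη', hr', c1, c2⟩ := h.cone hc
  have e : θ + π / 2 = θ - π / 2 + π := by ring
  rcases LocJ.sect h hn hx hbd hη hr hη' hr' a1 c1 with p | p <;>
    rcases LocJ.sect h hn hx hbd hη hr hη' hr' a2 c2 with q | q
  · obtain ⟨φ, hφ⟩ := hb
    exact absurd hφ (h.dir_opp q (e ▸ p) φ)
  · exact Or.inl ⟨p, q⟩
  · exact Or.inr ⟨p, q⟩
  · obtain ⟨φ, hφ⟩ := hd
    exact absurd hφ (h.dir_opp q (e ▸ p) φ)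

theorem Good.c4_alt (h : Good K) {a b c d e : Fin 5} (hn : [a, b, c, d, e].Nodup)
    (hab : Gam K x a b) (hbc : Gam K x b c) (hcd : Gam K x c d) (hda : Gam K x d a)
    (hno : ∀ θ, ¬ (θ ∈ P K x b ∧ θ ∈ P K x d)) : Alt K e x := by
  have hC : IsClosed {θ : ℝ | θ ∈ F K x e ∨ θ + π / 3 ∈ F K x e} :=
    (h.isClosed_F x e).union
      ((h.isClosed_F x e).preimage (f := fun θ : ℝ => θ + π / 3) (by fun_prop))
  intro θ
  refine h.of_gen (x := x) hC isOpen_univ (fun θ _ hθ => ?_) (mem_univ θ)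
  have hθ' : θ + π / 3 ∈ Gen K x := by simpa using Gen.add hθ 1
  rcases h.c4_types hn hab hbc hcd hda hθ with p | p | p
  · exact Or.inl p
  · rcases h.c4_types hn hab hbc hcd hda hθ' with q | q | q
    · exact Or.inr q
    · exact absurd q.1 (h.adj (Gen.mem hθ p.1)).1
    · exact absurd ⟨Gen.mem hθ' q.1, Gen.mem hθ' q.2⟩ (hno _)
  · exact absurd ⟨Gen.mem hθ p.1, Gen.mem hθ p.2⟩ (hno _)

end Crest.Agent.R40.Loc
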