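import Crest.Agent.R40.LocI
import Crest.Agent.R40.LocJ

/-! Row 40, B2/local: the 4-cycle with an isolated colour, II. -/

set_option autoImplicit false
open Set Metric

namespace Crest.Agent.R40.Loc

local notation "π" => Real.pi

variable {K : Fin 5 → Set ℂ} {x : ℂ}

namespace LocJ2

theorem sign (h : Good K) {b : Fin 5} {θ : ℝ} (hθ : θ ∈ F K x b) :
    (∀ ψ ∈ Dir K x b, 0 < Real.cos (θ - ψ)) ∨ ∀ ψ ∈ Dir K x b, Real.cos (θ - ψ) < 0 := by
  by_cases hp : ∃ ψ ∈ Dir K x b, 0 < Real.cos (θ - ψ)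
  · obtain ⟨ψ, hψ, hc⟩ := hp
    left
    intro ψ' hψ'
    by_contra hle
    exact h.dir_sep hψ hψ' hc (not_lt.1 hle) hθ
  · right
    intro ψ hψ
    rcases lt_trichotomy (Real.cos (θ - ψ)) 0 with h1 | h1 | h1
    · exact h1
    · exact absurd (exists_cos_pos (isOpen_dir K x b) hψ h1) hp
    · exact absurd ⟨ψ, hψ, h1⟩ hp

theorem cos_add_half (z u : ℝ) : Real.cos (z - (u + π / 2)) = Real.sin (z - u) := by
  rw [show z - (u + π / 2) = (z - u) - π / 2 by ring, Real.cos_sub_pi_div_two]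

theorem cos_sub_half (z u : ℝ) : Real.cos (z - (u - π / 2)) = -Real.sin (z - u) := by
  rw [show z - (u - π / 2) = (z - u) + π / 2 by ring, Real.cos_add_pi_div_two]

theorem miss (h : Good K) {b : Fin 5} {θ : ℝ} (hθ : θ ∉ F K x b) :
    ∃ ρ : ℝ, 0 < ρ ∧ ∀ y ∈ ball (x + ex θ) ρ, y ∉ K b := by
  obtain ⟨ρ, hρ, hb⟩ := Metric.isOpen_iff.1 (h.closed b).isOpen_compl (x + ex θ) hθ
  exact ⟨ρ, hρ, fun y hy => hb hy⟩

/-- The end point of an arc of `P a ∩ P c` is in `F b ∪ F d` when `a`, `c` have opposite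
directions. -/
theorem endpoint (h : Good K) {a b c d e : Fin 5} (hn : [a, b, c, d, e].Nodup) {θ l ψ : ℝ}
    (hl : 0 < l)
    (harc : Icc (θ - l) θ ⊆ F K x a ∩ F K x c ∨ Icc θ (θ + l) ⊆ F K x a ∩ F K x c)
    (hend : ¬ (θ ∈ P K x a ∧ θ ∈ P K x c)) (hb : θ ∉ F K x b) (hd : θ ∉ F K x d)
    (hψ : ψ ∈ Dir K x a) (hψ' : ψ + π ∈ Dir K x c) (hcos : 0 < Real.cos (θ - ψ)) : False := by
  obtain ⟨ρ₁, h1, H1⟩ := miss h hb
  obtain ⟨ρ₂, h2, H2⟩ := miss h hd
  obtain ⟨ρ₃, h3, H3⟩ := h.dir_out hψ hcos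
  obtain ⟨ρ₄, h4, H4⟩ := h.dir_in (θ := θ) hψ' (by
    rw [show θ - (ψ + π) = θ - ψ - π by ring, Real.cos_sub_pi]
    linarith)
  have hρ : 0 < min (min ρ₁ ρ₂) (min ρ₃ ρ₄) := lt_min (lt_min h1 h2) (lt_min h3 h4)
  have s1 : ball (x + ex θ) (min (min ρ₁ ρ₂) (min ρ₃ ρ₄)) ⊆ ball (x + ex θ) ρ₁ :=
    ball_subset_ball ((min_le_left _ _).trans (min_le_left _ _))
  have s2 : ball (x + ex θ) (min (min ρ₁ ρ₂) (min ρ₃ ρ₄)) ⊆ ball (x + ex θ) ρ₂ :=
    ball_subset_ball ((min_le_left _ _).trans (min_le_right _ _))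
  have s3 : ball (x + ex θ) (min (min ρ₁ ρ₂) (min ρ₃ ρ₄)) ⊆ ball (x + ex θ) ρ₃ :=
    ball_subset_ball ((min_le_right _ _).trans (min_le_left _ _))
  have s4 : ball (x + ex θ) (min (min ρ₁ ρ₂) (min ρ₃ ρ₄)) ⊆ ball (x + ex θ) ρ₄ :=
    ball_subset_ball ((min_le_right _ _).trans (min_le_right _ _))
  refine h.ep hn hl harc hend hρ ?_ ?_
  · intro y hy hy1
    obtain ⟨i, hi⟩ := h.cover y
    rcases all_of_nodup hn i with rfl | rfl | rfl | rfl | rfl
    · exact absurd hi (H3 y (s3 hy) hy1)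
    · exact absurd hi (H1 y (s1 hy))
    · exact Or.inl hi
    · exact absurd hi (H2 y (s2 hy))
    · exact Or.inr hi
  · intro y hy hy1
    obtain ⟨i, hi⟩ := h.cover y
    rcases all_of_nodup hn i with rfl | rfl | rfl | rfl | rfl
    · exact Or.inl hi
    · exact absurd hi (H1 y (s1 hy))
    · exact absurd hi (H4 y (s4 hy) hy1)
    · exact absurd hi (H2 y (s2 hy))
    · exact Or.inr hi

theorem endpoint' (h : Good K) {a b c d e : Fin 5} (hn : [a, b, c, d, e].Nodup) {θ l ψ : ℝ}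
    (hl : 0 < l)
    (harc : Icc (θ - l) θ ⊆ F K x a ∩ F K x c ∨ Icc θ (θ + l) ⊆ F K x a ∩ F K x c)
    (hend : ¬ (θ ∈ P K x a ∧ θ ∈ P K x c)) (hb : θ ∉ F K x b) (hd : θ ∉ F K x d)
    (hψ : ψ ∈ Dir K x a) (hψ' : ψ + π ∈ Dir K x c) : False := by
  rcases lt_trichotomy (Real.cos (θ - ψ)) 0 with h1 | h1 | h1
  · have hn' : [c, b, a, d, e].Nodup := by
      obtain ⟨⟨_, _, _, _⟩, ⟨_, _, _⟩, ⟨_, _⟩, _⟩ := ne_of_nodup hn
      simp only [List.nodup_cons, List.mem_cons, List.not_mem_nil, or_false, not_or,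
        not_false_eq_true, List.nodup_nil, and_true]
      omega
    refine endpoint h hn' (ψ := ψ + π) hl ?_ (fun hh => hend ⟨hh.2, hh.1⟩) hb hd hψ' ?_ ?_
    · rwa [inter_comm (F K x c)]
    · have := (dir_add_int K x a ψ 1).2 hψ
      rwa [show ψ + ((1 : ℤ) : ℝ) * (2 * π) = ψ + π + π by push_cast; ring] at this
    · rw [show θ - (ψ + π) = θ - ψ - π by ring, Real.cos_sub_pi]
      linarith
  · have hU : IsOpen {u | u ∈ Dir K x a ∧ u + π ∈ Dir K x c} :=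
      (isOpen_dir K x a).inter ((isOpen_dir K x c).preimage (f := fun u => u + π) (by fun_prop))
    obtain ⟨ψ', hψ', hc⟩ := exists_cos_pos hU (ψ := ψ) ⟨hψ, hψ'⟩ h1
    exact endpoint h hn hl harc hend hb hd hψ'.1 hψ'.2 hc
  · exact endpoint h hn hl harc hend hb hd hψ hψ' h1

end LocJ2

theorem Good.c4_hull (h : Good K) {a b c d e : Fin 5} (hn : [a, b, c, d, e].Nodup)
    (hx : x ∉ K e) (hbd : ¬ Gam K x b d) {θ₁ θ₂ : ℝ} (h1 : θ₁ ∈ P K x a ∧ θ₁ ∈ P K x c)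
    (h2 : θ₂ ∈ P K x b ∧ θ₂ ∈ P K x d) :
    ∃ α β : ℝ, α < β ∧ (∀ u, u ∈ P K x a → u ∈ P K x c → ∃ k : ℤ, u + k * π ∈ Ioo α β) ∧
      ∀ y ∈ Ioo α β, ∀ k : ℤ, y + k * π ∉ F K x b ∧ y + k * π ∉ F K x d := by
  have hb : (F K x b).Nonempty := ⟨θ₂, P_subset K x b h2.1⟩
  have hd : (F K x d).Nonempty := ⟨θ₂, P_subset K x d h2.2⟩
  set U : Set ℝ := {u | u + π / 2 ∈ Dir K x b ∧ u - π / 2 ∈ Dir K x d} with hUdef
  have hU : IsOpen U :=
    ((isOpen_dir K x b).preimage (f := fun u => u + π / 2) (by fun_prop)).inter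
      ((isOpen_dir K x d).preimage (f := fun u => u - π / 2) (by fun_prop))
  have hper : ∀ (u : ℝ) (k : ℤ), u + k * (2 * π) ∈ U ↔ u ∈ U := by
    intro u k
    simp only [hUdef, mem_ofPred_eq]
    rw [show u + k * (2 * π) + π / 2 = u + π / 2 + k * (2 * π) by ring,
      show u + k * (2 * π) - π / 2 = u - π / 2 + k * (2 * π) by ring, dir_add_int, dir_add_int]
  have hmem : ∀ u, u ∈ P K x a → u ∈ P K x c → u ∈ U ∨ u + π ∈ U := by
    intro u ha hc
    rcases h.half_cones hn hx hbd hb hd ha hc with h3 | h3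
    · exact Or.inl h3
    · right
      constructor
      · have := (dir_add_int K x b _ 1).2 h3.2
        rwa [show u - π / 2 + ((1 : ℤ) : ℝ) * (2 * π) = u + π + π / 2 by push_cast; ring] at this
      · rw [show u + π - π / 2 = u + π / 2 by ring]
        exact h3.1
  have hne : U.Nonempty := by
    rcases hmem θ₁ h1.1 h1.2 with h3 | h3
    · exact ⟨_, h3⟩
    · exact ⟨_, h3⟩
  obtain ⟨m, hm⟩ : ∃ m : ℝ, ∀ u ∈ U, 0 < Real.sin (u - m) := by
    rcases LocJ2.sign h (P_subset K x b h2.1) with h3 | h3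
    · refine ⟨θ₂ - π, fun u hu => ?_⟩
      have := h3 _ hu.1
      rw [LocJ2.cos_add_half] at this
      rw [show u - (θ₂ - π) = π - (θ₂ - u) by ring, Real.sin_pi_sub]
      exact this
    · refine ⟨θ₂, fun u hu => ?_⟩
      have := h3 _ hu.1
      rw [LocJ2.cos_add_half] at this
      rw [show u - θ₂ = -(θ₂ - u) by ring, Real.sin_neg]
      linarith
  obtain ⟨α, β, hαβ, H1, H2⟩ := hull hU hne hper m hm
  refine ⟨α, β, hαβ, fun u ha hc => ?_, fun y hy k => ?_⟩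
  · rcases hmem u ha hc with h3 | h3
    · obtain ⟨k, hk⟩ := H1 u h3
      refine ⟨2 * k, ?_⟩
      rwa [show u + ((2 * k : ℤ) : ℝ) * π = u + k * (2 * π) by push_cast; ring]
    · obtain ⟨k, hk⟩ := H1 _ h3
      refine ⟨2 * k + 1, ?_⟩
      rwa [show u + ((2 * k + 1 : ℤ) : ℝ) * π = u + π + k * (2 * π) by push_cast; ring]
  · obtain ⟨u, hu, u', hu', p1, p2⟩ := H2 y hy
    obtain ⟨v, hv, v', hv', q1, q2⟩ : ∃ v ∈ U, ∃ v' ∈ U, 0 < Real.sin (y + k * π - v) ∧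
        Real.sin (y + k * π - v') < 0 := by
      have e : ∀ w : ℝ, Real.sin (y + k * π - w) = (-1) ^ k * Real.sin (y - w) := by
        intro w
        rw [show y + k * π - w = y - w + k * π by ring, Real.sin_add_int_mul_pi]
      rcases Int.even_or_odd k with hk | hk
      · refine ⟨u, hu, u', hu', ?_, ?_⟩
        · rw [e, hk.neg_one_zpow]
          linarith
        · rw [e, hk.neg_one_zpow]
          linarith
      · refine ⟨u', hu', u, hu, ?_, ?_⟩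
        · rw [e, hk.neg_one_zpow]
          linarith
        · rw [e, hk.neg_one_zpow]
          linarith
    constructor
    · refine h.dir_sep hv.1 hv'.1 ?_ ?_
      · rw [LocJ2.cos_add_half]
        exact q1
      · rw [LocJ2.cos_add_half]
        exact q2.le
    · refine h.dir_sep hv'.2 hv.2 ?_ ?_
      · rw [LocJ2.cos_sub_half]
        linarith
      · rw [LocJ2.cos_sub_half]
        linarith

theorem Good.c4_arc (h : Good K) {a b c d e : Fin 5} (hn : [a, b, c, d, e].Nodup)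
    (hab : Gam K x a b) (hbc : Gam K x b c) (hcd : Gam K x c d) (hda : Gam K x d a)
    (hx : x ∉ K e) (hac : ¬ Gam K x a c) {θ₂ : ℝ} (h2 : θ₂ ∈ P K x b ∧ θ₂ ∈ P K x d)
    {α β : ℝ} (hJ : ∀ y ∈ Ioo α β, y ∉ F K x b ∧ y ∉ F K x d) :
    Ioo α β ⊆ P K x a ∩ P K x c ∨ Ioo α β ⊆ F K x e := by
  have hW : IsOpen (P K x a ∩ P K x c) := isOpen_interior.inter isOpen_interior
  have hWF : P K x a ∩ P K x c ⊆ F K x a ∩ F K x c :=
    inter_subset_inter (P_subset K x a) (P_subset K x c)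
  have hcl : IsClosed (F K x a ∩ F K x c) := (h.isClosed_F x a).inter (h.isClosed_F x c)
  by_cases h0 : ∃ y₀ ∈ Ioo α β, y₀ ∈ P K x a ∩ P K x c
  · obtain ⟨y₀, hy₀, hw⟩ := h0
    left
    intro y₁ hy₁
    by_contra hy
    have hn' : [b, c, d, a, e].Nodup := by
      obtain ⟨⟨_, _, _, _⟩, ⟨_, _, _⟩, ⟨_, _⟩, _⟩ := ne_of_nodup hn
      simp only [List.nodup_cons, List.mem_cons, List.not_mem_nil, or_false, not_or,
        not_false_eq_true, List.nodup_nil, and_true]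
      omega
    obtain ⟨ψ, hψ, hψ'⟩ : ∃ ψ, ψ ∈ Dir K x a ∧ ψ + π ∈ Dir K x c := by
      rcases h.half_cones hn' hx (fun hh => hac (gam_symm hh)) ⟨y₀, (hWF hw).2⟩ ⟨y₀, (hWF hw).1⟩
        h2.1 h2.2 with h3 | h3
      · refine ⟨θ₂ - π / 2, h3.2, ?_⟩
        rw [show θ₂ - π / 2 + π = θ₂ + π / 2 by ring]
        exact h3.1
      · refine ⟨θ₂ + π / 2, h3.1, ?_⟩
        have := (dir_add_int K x c _ 1).2 h3.2
        rwa [show θ₂ - π / 2 + ((1 : ℤ) : ℝ) * (2 * π) = θ₂ + π / 2 + π by push_cast; ring] at this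
    rcases lt_trichotomy y₀ y₁ with hlt | heq | hlt
    · obtain ⟨θ, t1, t2, t3, t4⟩ := endpoint_right hW hw hy hlt
      have hθ : θ ∈ Ioo α β := ⟨hy₀.1.trans t1, t2.trans_lt hy₁.2⟩
      refine LocJ2.endpoint' h hn (l := θ - y₀) (by linarith) (Or.inl ?_) t3 (hJ θ hθ).1
        (hJ θ hθ).2 hψ hψ'
      rw [show θ - (θ - y₀) = y₀ by ring, ← closure_Ico t1.ne]
      exact closure_minimal (t4.trans hWF) hcl
    · exact hy (heq ▸ hw)
    · obtain ⟨θ, t1, t2, t3, t4⟩ := endpoint_left hW hw hy hlt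
      have hθ : θ ∈ Ioo α β := ⟨hy₁.1.trans_le t1, t2.trans hy₀.2⟩
      refine LocJ2.endpoint' h hn (l := y₀ - θ) (by linarith) (Or.inr ?_) t3 (hJ θ hθ).1
        (hJ θ hθ).2 hψ hψ'
      rw [show θ + (y₀ - θ) = y₀ by ring, ← closure_Ioc t2.ne]
      exact closure_minimal (t4.trans hWF) hcl
  · right
    refine h.of_gen (x := x) (h.isClosed_F x e) isOpen_Ioo fun θ hθ hg => ?_
    rcases h.c4_types hn hab hbc hcd hda hg with h3 | h3 | h3
    · exact h3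
    · exact absurd ⟨θ, hθ, Gen.mem hg h3.1, Gen.mem hg h3.2⟩ h0
    · exact absurd h3.1 (hJ θ hθ).1

end Crest.Agent.R40.Loc
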