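import Crest.Agent.R40.TopDefs

/-! Row 40, B2: forests and cycles on five vertices. -/

set_option autoImplicit false
open Set Metric

namespace Crest.Agent.R40

theorem Forest.mono {G G' : Fin 5 → Fin 5 → Prop} (hG : Forest G)
    (h : ∀ i j, i ≠ j → G' i j → G i j) : Forest G' := by
  intro S hS
  obtain ⟨l, hl, p, hp⟩ := hG S hS
  exact ⟨l, hl, p, fun j hj hjl hG' => hp j hj hjl (h l j (Ne.symm hjl) hG')⟩

/-- A symmetric graph on five vertices that is not a forest has a 3-, 4- or 5-cycle. -/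
theorem not_forest_cases {G : Fin 5 → Fin 5 → Prop} (hs : ∀ i j, G i j → G j i)
    (hG : ¬ Forest G) :
    (∃ a b c : Fin 5, [a, b, c].Nodup ∧ G a b ∧ G b c ∧ G c a) ∨
    (∃ a b c d : Fin 5, [a, b, c, d].Nodup ∧ G a b ∧ G b c ∧ G c d ∧ G d a) ∨
    (∃ a b c d e : Fin 5, [a, b, c, d, e].Nodup ∧ G a b ∧ G b c ∧ G c d ∧ G d e ∧ G e a) := by
  unfold Forest at hG
  push Not at hG
  obtain ⟨S, ⟨a0, h0⟩, h⟩ := hG
  obtain ⟨a1, h1, n10, g01, -⟩ := h a0 h0 a0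
  obtain ⟨a2, h2, n21, g12, n20⟩ := h a1 h1 a0
  obtain ⟨a3, h3, n32, g23, n31⟩ := h a2 h2 a1
  by_cases e30 : a3 = a0
  · subst e30
    exact Or.inl ⟨a3, a1, a2, by simp [n10.symm, n20.symm, n21.symm], g01, g12, g23⟩
  have n30 : a3 ≠ a0 := e30
  obtain ⟨a4, h4, n43, g34, n42⟩ := h a3 h3 a2
  by_cases e41 : a4 = a1
  · subst e41
    exact Or.inl ⟨a4, a2, a3, by simp [n21.symm, n31.symm, n32.symm], g12, g23, g34⟩
  have n41 : a4 ≠ a1 := e41
  by_cases e40 : a4 = a0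
  · subst e40
    exact Or.inr (Or.inl ⟨a4, a1, a2, a3,
      by simp [n10.symm, n20.symm, n21.symm, n30.symm, n31.symm, n32.symm], g01, g12, g23, g34⟩)
  have n40 : a4 ≠ a0 := e40
  obtain ⟨a5, h5, n54, g45, n53⟩ := h a4 h4 a3
  have key : a5 = a0 ∨ a5 = a1 ∨ a5 = a2 := by
    revert n10 n21 n20 n32 n31 n30 n43 n42 n41 n40 n54 n53
    clear g01 g12 g23 g34 g45 h0 h1 h2 h3 h4 h5 h e30 e41 e40
    omega
  rcases key with rfl | rfl | rfl
  · exact Or.inr (Or.inr ⟨a5, a1, a2, a3, a4, by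
      simp [n10.symm, n20.symm, n21.symm, n30.symm, n31.symm, n32.symm, n40.symm, n41.symm,
        n42.symm, n43.symm], g01, g12, g23, g34, g45⟩)
  · exact Or.inr (Or.inl ⟨a5, a2, a3, a4, by
      simp [n21.symm, n31.symm, n32.symm, n41.symm, n42.symm, n43.symm], g12, g23, g34, g45⟩)
  · exact Or.inl ⟨a5, a3, a4, by simp [n32.symm, n42.symm, n43.symm], g23, g34, g45⟩

end Crest.Agent.R40
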