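import Crest.Agent.R40.LocH
import Crest.Agent.R40.LocJ2
import Crest.Agent.R40.TopG

/-! Row 40, B2/local: (CYC). -/

set_option autoImplicit false
open Set Metric

namespace Crest.Agent.R40.Loc

local notation "π" => Real.pi

variable {K : Fin 5 → Set ℂ} {x : ℂ}

namespace LocK

theorem rot {a b c d e : Fin 5} (hn : [a, b, c, d, e].Nodup) : [b, c, d, a, e].Nodup := by
  obtain ⟨⟨_, _, _, _⟩, ⟨_, _, _⟩, ⟨_, _⟩, _⟩ := ne_of_nodup hn
  simp [*, Ne.symm, eq_comm]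

theorem norm_step (α : ℝ) : ‖ex (α + π / 3) - ex α‖ = 1 := by
  have h1 : ‖ex (π / 3) - 1‖ ^ 2 = 1 := by
    rw [norm_sub_sq]
    simp only [ex_re, ex_im, Real.cos_pi_div_three, Complex.one_re, Complex.one_im, sub_zero,
      Real.sq_sin_pi_div_three]
    norm_num
  rw [ex_add, ← mul_sub_one, norm_mul, norm_ex, one_mul]
  exact (sq_eq_sq₀ (norm_nonneg _) zero_le_one).1 (by rw [h1, one_pow])

/-- the hull interval has length at most `π/3` -/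
theorem len (h : Good K) {a c e : Fin 5} {α β : ℝ}
    (hs : Ioo α β ⊆ P K x a ∩ P K x c ∨ Ioo α β ⊆ F K x e) : β - α ≤ π / 3 :=
  hs.elim (fun h1 => h.arc_len fun _ hy => P_subset K x a (h1 hy).1) h.arc_len

/-- the translate of the hull interval that contains `θ₁` has the colours `a`, `c` -/
theorem arc (h : Good K) {a b c d e : Fin 5} (hn : [a, b, c, d, e].Nodup)
    (hab : Gam K x a b) (hbc : Gam K x b c) (hcd : Gam K x c d) (hda : Gam K x d a)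
    (hx : x ∉ K e) (hac : ¬ Gam K x a c) {θ₁ θ₂ : ℝ}
    (h1 : θ₁ ∈ P K x a ∧ θ₁ ∈ P K x c) (h2 : θ₂ ∈ P K x b ∧ θ₂ ∈ P K x d) {α β : ℝ}
    (hlen : β - α = π / 3) {k : ℤ} (hk : θ₁ + k * π ∈ Ioo α β)
    (hJ : ∀ y ∈ Ioo α β, ∀ k : ℤ, y + k * π ∉ F K x b ∧ y + k * π ∉ F K x d) :
    ∃ γ : ℝ, Ioo γ (γ + π / 3) ⊆ P K x a ∩ P K x c ∧ ∀ u ∈ Ioo γ (γ + π / 3),
      (u ∉ F K x b ∧ u ∉ F K x d) ∧ u + π ∉ F K x b ∧ u + π ∉ F K x d := by
  have hm : ∀ u ∈ Ioo (α - k * π) (α - k * π + π / 3), u + k * π ∈ Ioo α β := fun u hu =>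
    ⟨by linarith [hu.1], by linarith [hu.2]⟩
  have h3 : ∀ u ∈ Ioo (α - k * π) (α - k * π + π / 3),
      (u ∉ F K x b ∧ u ∉ F K x d) ∧ u + π ∉ F K x b ∧ u + π ∉ F K x d := fun u hu => by
    have a1 := hJ _ (hm u hu) (-k)
    have a2 := hJ _ (hm u hu) (1 - k)
    rw [show u + k * π + ((-k : ℤ) : ℝ) * π = u by push_cast; ring] at a1
    rw [show u + k * π + ((1 - k : ℤ) : ℝ) * π = u + π by push_cast; ring] at a2
    exact ⟨a1, a2⟩
  refine ⟨α - k * π, ?_, h3⟩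
  refine (h.c4_arc hn hab hbc hcd hda hx hac h2 fun y hy => (h3 y hy).1).resolve_right fun h4 => ?_
  obtain ⟨⟨_, hac', _, hae⟩, _, ⟨_, hce⟩, _⟩ := ne_of_nodup hn
  exact h.three_P hac' hae hce h1.1 h1.2 (interior_maximal h4 isOpen_Ioo
    ⟨by linarith [hk.1], by linarith [hk.2]⟩)

theorem hex (h : Good K) {a b c d e : Fin 5} (hn : [a, b, c, d, e].Nodup)
    (hab : Gam K x a b) (hbc : Gam K x b c) (hcd : Gam K x c d) (hda : Gam K x d a)
    {θ : ℝ} (hθ : θ ∈ Gen K x) :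
    θ ∈ P K x a ∩ P K x c ∪ P K x b ∩ P K x d ∨
      θ + π / 3 ∈ P K x a ∩ P K x c ∪ P K x b ∩ P K x d := by
  have key : ∀ φ ∈ Gen K x, φ ∉ F K x e → φ ∈ P K x a ∩ P K x c ∪ P K x b ∩ P K x d :=
    fun φ hφ he => ((h.c4_types hn hab hbc hcd hda hφ).resolve_left he).imp
      (fun h1 => ⟨Gen.mem hφ h1.1, Gen.mem hφ h1.2⟩) fun h1 => ⟨Gen.mem hφ h1.1, Gen.mem hφ h1.2⟩
  by_cases he : θ ∈ F K x e
  · exact Or.inr (key _ (by simpa using Gen.add hθ 1) (h.adj (Gen.mem hθ he)).1)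
  · exact Or.inl (key _ hθ he)

theorem tri (h : Good K) {a b c : Fin 5} (hn : [a, b, c].Nodup) (hab : Gam K x a b)
    (hbc : Gam K x b c) (hca : Gam K x c a) : ∃ c, Alt K c x := by
  obtain ⟨d, e, hn'⟩ := exists_fourth hn
  exact ⟨d, h.alt_of_two (h.tri hn' hab hbc hca)⟩

end LocK

theorem Good.two_arcs (h : Good K) {a b c d e : Fin 5} (hn : [a, b, c, d, e].Nodup) {α α' : ℝ}
    (h1 : Ioo α (α + π / 3) ⊆ P K x a ∩ P K x c) (h2 : Ioo α' (α' + π / 3) ⊆ P K x b ∩ P K x d)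
    (hne : ∀ u ∈ Ioo α (α + π / 3), ∀ v ∈ Ioo α' (α' + π / 3), ex u ≠ ex v ∧ ex u ≠ -ex v) :
    False := by
  have hπ : 0 < π / 3 := by positivity
  have hf : Continuous fun z : ℝ × ℝ => x + ex z.1 + ex z.2 := by fun_prop
  have h3 : Ioo α (α + π / 3) ×ˢ Ioo α' (α' + π / 3) ⊆
      (fun z : ℝ × ℝ => x + ex z.1 + ex z.2) ⁻¹' K e := by
    rintro ⟨u, v⟩ ⟨hu, hv⟩
    obtain ⟨n1, n2⟩ := hne u hu v hv
    have n3 : ex v ≠ -ex u := fun e => n2 (by rw [e, neg_neg])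
    obtain ⟨i, hi⟩ := h.cover (x + ex u + ex v)
    rcases all_of_nodup hn i with rfl | rfl | rfl | rfl | rfl
    · exact absurd hi (h.prod (h1 hu).1 n1.symm n3)
    · exact absurd (add_right_comm x _ _ ▸ hi) (h.prod (h2 hv).1 n1 n2)
    · exact absurd hi (h.prod (h1 hu).2 n1.symm n3)
    · exact absurd (add_right_comm x _ _ ▸ hi) (h.prod (h2 hv).2 n1 n2)
    · exact hi
  have h4 := closure_minimal h3 ((h.closed e).preimage hf)
  rw [closure_prod_eq, closure_Ioo (by linarith), closure_Ioo (by linarith)] at h4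
  have h5 : IsPreconnected ((fun z : ℝ × ℝ => x + ex z.1 + ex z.2) ''
      Icc α (α + π / 3) ×ˢ Icc α' (α' + π / 3)) :=
    (isPreconnected_Icc.prod isPreconnected_Icc).image _ hf.continuousOn
  have l1 : α ∈ Icc α (α + π / 3) := left_mem_Icc.2 (by linarith)
  have r1 : α + π / 3 ∈ Icc α (α + π / 3) := right_mem_Icc.2 (by linarith)
  have l2 : α' ∈ Icc α' (α' + π / 3) := left_mem_Icc.2 (by linarith)
  have r2 : α' + π / 3 ∈ Icc α' (α' + π / 3) := right_mem_Icc.2 (by linarith)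
  have d1 := h.diam h5 (image_subset_iff.2 h4) ⟨(_, _), ⟨r1, r2⟩, rfl⟩ ⟨(_, _), ⟨l1, l2⟩, rfl⟩
  have d2 := h.diam h5 (image_subset_iff.2 h4) ⟨(_, _), ⟨r1, l2⟩, rfl⟩ ⟨(_, _), ⟨l1, r2⟩, rfl⟩
  have h6 := parallelogram_law_with_norm ℝ (ex (α + π / 3) - ex α) (ex (α' + π / 3) - ex α')
  rw [LocK.norm_step, LocK.norm_step] at h6
  simp only at d1 d2
  rw [show x + ex (α + π / 3) + ex (α' + π / 3) - (x + ex α + ex α') =
    ex (α + π / 3) - ex α + (ex (α' + π / 3) - ex α') by ring] at d1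
  rw [show x + ex (α + π / 3) + ex α' - (x + ex α + ex (α' + π / 3)) =
    ex (α + π / 3) - ex α - (ex (α' + π / 3) - ex α') by ring] at d2
  nlinarith [norm_nonneg (ex (α + π / 3) - ex α + (ex (α' + π / 3) - ex α')),
    norm_nonneg (ex (α + π / 3) - ex α - (ex (α' + π / 3) - ex α'))]

theorem Good.c4_both (h : Good K) {a b c d e : Fin 5} (hn : [a, b, c, d, e].Nodup)
    (hab : Gam K x a b) (hbc : Gam K x b c) (hcd : Gam K x c d) (hda : Gam K x d a)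
    (hx : x ∉ K e) (hac : ¬ Gam K x a c) (hbd : ¬ Gam K x b d) {θ₁ θ₂ : ℝ}
    (h1 : θ₁ ∈ P K x a ∧ θ₁ ∈ P K x c) (h2 : θ₂ ∈ P K x b ∧ θ₂ ∈ P K x d) : False := by
  have hn' := LocK.rot hn
  obtain ⟨α, β, -, hB, hJ⟩ := h.c4_hull hn hx hbd h1 h2
  obtain ⟨α', β', -, hC, hJ'⟩ := h.c4_hull hn' hx (fun g => hac (gam_symm g)) h2 h1.symm
  have l1 := LocK.len h (h.c4_arc hn hab hbc hcd hda hx hac h2 fun y hy => by
    simpa using hJ y hy 0)
  have l2 := LocK.len h (h.c4_arc hn' hbc hcd hda hab hx hbd h1.symm fun y hy => by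
    simpa using hJ' y hy 0)
  have g1 := hex_len (B := P K x a ∩ P K x c) (C := P K x b ∩ P K x d) (h.dense_gen x)
    (fun u hu => hB u hu.1 hu.2) (fun u hu => hC u hu.1 hu.2) l2
    fun θ hθ k => LocK.hex h hn hab hbc hcd hda (Gen.add hθ k)
  have g2 := hex_len (B := P K x b ∩ P K x d) (C := P K x a ∩ P K x c) (h.dense_gen x)
    (fun u hu => hC u hu.1 hu.2) (fun u hu => hB u hu.1 hu.2) l1
    fun θ hθ k => by rw [union_comm]; exact LocK.hex h hn hab hbc hcd hda (Gen.add hθ k)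
  obtain ⟨k, hk⟩ := hB θ₁ h1.1 h1.2
  obtain ⟨k', hk'⟩ := hC θ₂ h2.1 h2.2
  obtain ⟨γ, a1, -⟩ := LocK.arc h hn hab hbc hcd hda hx hac h1 h2 (le_antisymm l1 g1) hk hJ
  obtain ⟨γ', a2, a3⟩ :=
    LocK.arc h hn' hbc hcd hda hab hx hbd h2 h1.symm (le_antisymm l2 g2) hk' hJ'
  refine h.two_arcs hn a1 a2 fun u hu v hv => ?_
  have a4 : x + ex u ∈ K a := P_subset K x a (a1 hu).1
  refine ⟨fun e => (a3 v hv).1.2 ?_, fun e => (a3 v hv).2.2 ?_⟩
  · show x + ex v ∈ K a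
    rwa [← e]
  · show x + ex (v + π) ∈ K a
    rwa [ex_add_pi, ← e]

/-- A 4-cycle without chords: one of the two diagonal types is absent. -/
theorem Good.c4_one (h : Good K) {a b c d e : Fin 5} (hn : [a, b, c, d, e].Nodup)
    (hab : Gam K x a b) (hbc : Gam K x b c) (hcd : Gam K x c d) (hda : Gam K x d a)
    (hac : ¬ Gam K x a c) (hbd : ¬ Gam K x b d) :
    (∀ θ, ¬ (θ ∈ P K x b ∧ θ ∈ P K x d)) ∨ (∀ θ, ¬ (θ ∈ P K x a ∧ θ ∈ P K x c)) := by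
  by_contra hc
  obtain ⟨h2, h1⟩ := not_or.1 hc
  obtain ⟨θ₂, h2⟩ := not_forall_not.1 h2
  obtain ⟨θ₁, h1⟩ := not_forall_not.1 h1
  refine h.c4_both hn hab hbc hcd hda
    (h.iso_notmem (fun j hj hg => ?_) (ne_of_nodup hn).1.2.2.2 hab) hac hbd h1 h2
  rcases all_of_nodup hn j with rfl | rfl | rfl | rfl | rfl
  · exact h.no_pendant hn hab hbc hcd hda hg
  · exact h.no_pendant (LocK.rot hn) hbc hcd hda hab hg
  · exact h.no_pendant (LocK.rot (LocK.rot hn)) hcd hda hab hbc hg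
  · exact h.no_pendant (LocK.rot (LocK.rot (LocK.rot hn))) hda hab hbc hcd hg
  · exact hj rfl

/-- (CYC) -/
theorem Good.cyc (h : Good K) (hF : ¬ Forest (Gam K x)) : ∃ c, Alt K c x := by
  rcases not_forest_cases (fun _ _ => gam_symm) hF with ⟨a, b, c, hn, hab, hbc, hca⟩ |
    ⟨a, b, c, d, hn, hab, hbc, hcd, hda⟩ | ⟨a, b, c, d, e, hn, hab, hbc, hcd, hde, hea⟩
  · exact LocK.tri h hn hab hbc hca
  · obtain ⟨e, hn'⟩ := exists_fifth hn
    obtain ⟨⟨_, _, _, _⟩, ⟨_, _, _⟩, ⟨_, _⟩, _⟩ := ne_of_nodup hn'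
    by_cases hac : Gam K x a c
    · exact LocK.tri h (by simp [*]) hab hbc (gam_symm hac)
    by_cases hbd : Gam K x b d
    · exact LocK.tri h (by simp [*]) hbc hcd (gam_symm hbd)
    rcases h.c4_one hn' hab hbc hcd hda hac hbd with h1 | h1
    · exact ⟨e, h.c4_alt hn' hab hbc hcd hda h1⟩
    · exact ⟨e, h.c4_alt (LocK.rot hn') hbc hcd hda hab fun θ hθ => h1 θ hθ.symm⟩
  · exact (h.no_c5 hn hab hbc hcd hde hea).elim

end Crest.Agent.R40.Loc
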