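import Crest.Agent.R40.LocI

/-! Row 40, B2/local: four arms at an end point. -/

set_option autoImplicit false
open Set Metric

namespace Crest.Agent.R40.Loc

local notation "π" => Real.pi

variable {K : Fin 5 → Set ℂ} {x : ℂ}

theorem arm_side {Q : Set ℂ} (hQ : Cont Q) (hx : x ∈ Q) :
    {u : ℂ | ‖u‖ = 1 ∧ ∀ q ∈ Q, ‖x + u - q‖ = 1}.Subsingleton := by
  rintro u ⟨-, hu⟩ u' ⟨-, hu'⟩
  by_contra hne
  obtain ⟨p₁, h₁, p₂, h₂, hp⟩ := hQ.2.2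
  have d : ∀ {v : ℂ}, (∀ q ∈ Q, ‖x + v - q‖ = 1) → ∀ q ∈ Q, dist q (x + v) = 1 :=
    fun hv q hq => by rw [dist_comm, dist_eq_norm, hv q hq]
  have hsub : Q ⊆ {p₁, p₂} := fun q hq =>
    EuclideanGeometry.eq_of_dist_eq_of_dist_eq_of_finrank_eq_two Complex.finrank_real_complex
      (c₁ := x + u) (c₂ := x + u') (fun h => hne (add_left_cancel h)) hp
      (d hu _ h₁) (d hu _ h₂) (d hu _ hq) (d hu' _ h₁) (d hu' _ h₂) (d hu' _ hq)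
  exact hQ.2.1.infinite_of_nontrivial hQ.2.2 ((toFinite _).subset hsub)

/-- Both colours of an arm are missing on one side of the circle near a non-exceptional point. -/
theorem Good.arm_sides (h : Good K) {i j : Fin 5} {Q : Set ℂ} (hQ : Cont Q) (hx : x ∈ Q)
    (hs : Q ⊆ K i ∩ K j) {θ : ℝ} (hθ : ¬ ∀ q ∈ Q, ‖x + ex θ - q‖ = 1) :
    ∃ ρ : ℝ, 0 < ρ ∧ ((∀ y ∈ ball (x + ex θ) ρ, 1 < ‖y - x‖ → y ∉ K i ∧ y ∉ K j) ∨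
      (∀ y ∈ ball (x + ex θ) ρ, ‖y - x‖ < 1 → y ∉ K i ∧ y ∉ K j)) := by
  push Not at hθ
  obtain ⟨q, hq, hne⟩ := hθ
  have si : Q ⊆ K i := fun y hy => (hs hy).1
  have sj : Q ⊆ K j := fun y hy => (hs hy).2
  rcases lt_or_gt_of_ne hne with h1 | h1
  · obtain ⟨ρ, hρ, a⟩ := h.out_side hQ.2.1 si hx hq h1
    obtain ⟨ρ', hρ', b⟩ := h.out_side hQ.2.1 sj hx hq h1
    exact ⟨min ρ ρ', lt_min hρ hρ', Or.inl fun y hy hy' =>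
      ⟨a y (ball_subset_ball (min_le_left _ _) hy) hy',
        b y (ball_subset_ball (min_le_right _ _) hy) hy'⟩⟩
  · obtain ⟨ρ, hρ, a⟩ := h.in_side hQ.2.1 si hx hq h1
    obtain ⟨ρ', hρ', b⟩ := h.in_side hQ.2.1 sj hx hq h1
    exact ⟨min ρ ρ', lt_min hρ hρ', Or.inr fun y hy hy' =>
      ⟨a y (ball_subset_ball (min_le_left _ _) hy) hy',
        b y (ball_subset_ball (min_le_right _ _) hy) hy'⟩⟩

theorem Good.arm_end (h : Good K) {a b c d e : Fin 5} (hn : [a, b, c, d, e].Nodup)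
    {Q₁ Q₂ Q₃ Q₄ : Set ℂ} (c₁ : Cont Q₁) (c₂ : Cont Q₂) (c₃ : Cont Q₃) (c₄ : Cont Q₄)
    (x₁ : x ∈ Q₁) (x₂ : x ∈ Q₂) (x₃ : x ∈ Q₃) (x₄ : x ∈ Q₄) (s₁ : Q₁ ⊆ K a ∩ K b)
    (s₂ : Q₂ ⊆ K b ∩ K c) (s₃ : Q₃ ⊆ K c ∩ K d) (s₄ : Q₄ ⊆ K d ∩ K a) {θ l : ℝ} (hl : 0 < l)
    (harc : Icc (θ - l) θ ⊆ F K x a ∩ F K x c ∨ Icc θ (θ + l) ⊆ F K x a ∩ F K x c)
    (hend : ¬ (θ ∈ P K x a ∧ θ ∈ P K x c))
    (n₁ : ¬ ∀ q ∈ Q₁, ‖x + ex θ - q‖ = 1) (n₂ : ¬ ∀ q ∈ Q₂, ‖x + ex θ - q‖ = 1)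
    (n₃ : ¬ ∀ q ∈ Q₃, ‖x + ex θ - q‖ = 1) (n₄ : ¬ ∀ q ∈ Q₄, ‖x + ex θ - q‖ = 1) : False := by
  obtain ⟨ρ₁, p₁, t₁⟩ := h.arm_sides c₁ x₁ s₁ n₁
  obtain ⟨ρ₂, p₂, t₂⟩ := h.arm_sides c₂ x₂ s₂ n₂
  obtain ⟨ρ₃, p₃, t₃⟩ := h.arm_sides c₃ x₃ s₃ n₃
  obtain ⟨ρ₄, p₄, t₄⟩ := h.arm_sides c₄ x₄ s₄ n₄
  set ρ := min (min ρ₁ ρ₂) (min ρ₃ ρ₄) with hρ
  have p : 0 < ρ := lt_min (lt_min p₁ p₂) (lt_min p₃ p₄)
  have b₁ : ball (x + ex θ) ρ ⊆ ball (x + ex θ) ρ₁ :=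
    ball_subset_ball ((min_le_left _ _).trans (min_le_left _ _))
  have b₂ : ball (x + ex θ) ρ ⊆ ball (x + ex θ) ρ₂ :=
    ball_subset_ball ((min_le_left _ _).trans (min_le_right _ _))
  have b₃ : ball (x + ex θ) ρ ⊆ ball (x + ex θ) ρ₃ :=
    ball_subset_ball ((min_le_right _ _).trans (min_le_left _ _))
  have b₄ : ball (x + ex θ) ρ ⊆ ball (x + ex θ) ρ₄ :=
    ball_subset_ball ((min_le_right _ _).trans (min_le_right _ _))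
  obtain ⟨⟨hab, hac, had, hae⟩, ⟨hbc, hbd, hbe⟩, ⟨hcd, hce⟩, hde⟩ := ne_of_nodup hn
  have so : (∀ y ∈ ball (x + ex θ) ρ, 1 < ‖y - x‖ → y ∉ K a ∧ y ∉ K c) → False :=
    h.side_out hac hl harc p
  have si : (∀ y ∈ ball (x + ex θ) ρ, ‖y - x‖ < 1 → y ∉ K a ∧ y ∉ K c) → False :=
    h.side_in hac hl harc p
  have cov : ∀ y, y ∈ K a ∨ y ∈ K b ∨ y ∈ K c ∨ y ∈ K d ∨ y ∈ K e := fun y => by
    obtain ⟨k, hk⟩ := h.cover y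
    rcases all_of_nodup hn k with rfl | rfl | rfl | rfl | rfl <;> simp [hk]
  rcases t₁ with t₁ | t₁
  · rcases t₂ with t₂ | t₂
    · exact so fun y hy h1 => ⟨(t₁ y (b₁ hy) h1).1, (t₂ y (b₂ hy) h1).2⟩
    rcases t₃ with t₃ | t₃
    · exact so fun y hy h1 => ⟨(t₁ y (b₁ hy) h1).1, (t₃ y (b₃ hy) h1).1⟩
    rcases t₄ with t₄ | t₄
    swap
    · exact si fun y hy h1 => ⟨(t₄ y (b₄ hy) h1).2, (t₃ y (b₃ hy) h1).1⟩
    refine h.ep hn hl harc hend p (fun y hy h1 => ?_) (fun y hy h1 => ?_)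
    · have := t₁ y (b₁ hy) h1
      have := t₄ y (b₄ hy) h1
      have := cov y
      simp only [mem_union]; tauto
    · have := t₂ y (b₂ hy) h1
      have := t₃ y (b₃ hy) h1
      have := cov y
      simp only [mem_union]; tauto
  · rcases t₂ with t₂ | t₂
    swap
    · exact si fun y hy h1 => ⟨(t₁ y (b₁ hy) h1).1, (t₂ y (b₂ hy) h1).2⟩
    rcases t₃ with t₃ | t₃
    swap
    · exact si fun y hy h1 => ⟨(t₁ y (b₁ hy) h1).1, (t₃ y (b₃ hy) h1).1⟩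
    rcases t₄ with t₄ | t₄
    · exact so fun y hy h1 => ⟨(t₄ y (b₄ hy) h1).2, (t₃ y (b₃ hy) h1).1⟩
    have hn' : [c, b, a, d, e].Nodup := by
      simp [hab.symm, hac.symm, hbc.symm, had, hae, hbd, hbe, hcd, hce, hde]
    refine h.ep hn' hl (by rwa [inter_comm (F K x c)]) (fun t => hend t.symm) p
      (fun y hy h1 => ?_) (fun y hy h1 => ?_)
    · have := t₂ y (b₂ hy) h1
      have := t₃ y (b₃ hy) h1
      have := cov y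
      simp only [mem_union]; tauto
    · have := t₁ y (b₁ hy) h1
      have := t₄ y (b₄ hy) h1
      have := cov y
      simp only [mem_union]; tauto

end Crest.Agent.R40.Loc
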