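import Crest.Agent.R40.LocF
import Crest.Agent.R40.LocK
import Crest.Agent.R40.LocL0

/-! Row 40, B2/local: (ARM). -/

set_option autoImplicit false
open Set Metric

namespace Crest.Agent.R40.Loc

local notation "π" => Real.pi

variable {K : Fin 5 → Set ℂ} {x : ℂ}

theorem Good.c4_iff (h : Good K) {a b c d e : Fin 5} (hn : [a, b, c, d, e].Nodup)
    (hab : Gam K x a b) (hbc : Gam K x b c) (hcd : Gam K x c d) (hda : Gam K x d a)
    (hno : ∀ θ, ¬ (θ ∈ P K x b ∧ θ ∈ P K x d)) (θ : ℝ) :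
    (θ ∈ P K x a ∧ θ ∈ P K x c) ↔ θ ∉ F K x e := by
  have hbd : ∀ φ ∈ Gen K x, ¬ (φ ∈ F K x b ∧ φ ∈ F K x d) := fun φ hφ hF =>
    hno φ ⟨Gen.mem hφ hF.1, Gen.mem hφ hF.2⟩
  constructor
  · intro hθ
    have hU : IsOpen ((fun φ : ℝ => φ - π / 3) ⁻¹' P K x a) :=
      isOpen_interior.preimage (by fun_prop)
    have h1 : (fun φ : ℝ => φ - π / 3) ⁻¹' P K x a ⊆ F K x e :=
      h.of_gen (h.isClosed_F x e) hU fun φ hφ hg => by
        have h2 := (h.adj (show φ - π / 3 ∈ P K x a from hφ)).1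
        rw [sub_add_cancel] at h2
        rcases h.c4_types hn hab hbc hcd hda hg with h3 | h3 | h3
        · exact h3
        · exact absurd h3.1 h2
        · exact absurd h3 (hbd φ hg)
    have h2 : θ + π / 3 ∈ P K x e := interior_maximal h1 hU (by
      show θ + π / 3 - π / 3 ∈ P K x a
      rw [add_sub_cancel_right]
      exact hθ.1)
    have h3 := (h.adj h2).2
    rwa [add_sub_cancel_right] at h3
  · intro hθ
    have hU : IsOpen (F K x e)ᶜ := (h.isClosed_F x e).isOpen_compl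
    have h1 : (F K x e)ᶜ ⊆ F K x a ∩ F K x c :=
      h.of_gen ((h.isClosed_F x a).inter (h.isClosed_F x c)) hU fun φ hφ hg => by
        rcases h.c4_types hn hab hbc hcd hda hg with h3 | h3 | h3
        · exact absurd h3 hφ
        · exact h3
        · exact absurd h3 (hbd φ hg)
    exact ⟨interior_maximal (h1.trans inter_subset_left) hU hθ,
      interior_maximal (h1.trans inter_subset_right) hU hθ⟩

theorem Good.arm_c4 (h : Good K) {a b c d e : Fin 5} (hn : [a, b, c, d, e].Nodup)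
    (hab : Arm K x a b) (hbc : Arm K x b c) (hcd : Arm K x c d) (hda : Arm K x d a)
    (hno : ∀ θ, ¬ (θ ∈ P K x b ∧ θ ∈ P K x d)) : False := by
  have gab := arm_gam hab
  have gbc := arm_gam hbc
  have gcd := arm_gam hcd
  have gda := arm_gam hda
  have hA : Alt K e x := h.c4_alt hn gab gbc gcd gda hno
  have hW : ∀ θ, θ ∈ P K x a ∩ P K x c ↔ θ - π / 3 ∈ P K x e := fun θ => by
    rw [(h.alt_iff hA (θ - π / 3)).1, sub_add_cancel]
    exact h.c4_iff hn gab gbc gcd gda hno θ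
  have hper : ∀ (θ : ℝ) (k : ℤ),
      θ + k * (2 * π / 3) ∈ P K x a ∩ P K x c ↔ θ ∈ P K x a ∩ P K x c := fun θ k => by
    rw [hW, hW, ← h.alt_per hA (θ - π / 3) k, add_sub_right_comm]
  have hWo : IsOpen (P K x a ∩ P K x c) := isOpen_interior.inter isOpen_interior
  obtain ⟨q, l, hl, hq, -⟩ := h.alt_edge hA
  have h0 : q - l / 2 + π / 3 ∈ P K x a ∩ P K x c := by
    rw [hW, add_sub_cancel_right]
    exact hq ⟨by linarith, by linarith⟩
  have hpi : 0 < π / 3 := by positivity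
  obtain ⟨R, hR1, -, hR2, hR3⟩ := endpoint_right hWo h0
    (fun h1 => (h.adj h0.1).1 (P_subset K x a h1.1)) (by linarith)
  obtain ⟨L, -, hL1, hL2, hL3⟩ := endpoint_left hWo h0
    (fun h1 => (h.adj h0.1).2 (P_subset K x a h1.1)) (by linarith)
  have hLR : L < R := hL1.trans hR1
  have hI : Ioo L R ⊆ P K x a ∩ P K x c := fun θ hθ => by
    rcases le_total θ (q - l / 2 + π / 3) with h1 | h1
    · exact hL3 ⟨hθ.1, h1⟩
    · exact hR3 ⟨h1, hθ.2⟩
  have hlen : R - L ≤ π / 3 := h.arc_len fun θ hθ => P_subset K x a (hI hθ).1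
  obtain ⟨Q₁, c₁, x₁, s₁⟩ := hab
  obtain ⟨Q₂, c₂, x₂, s₂⟩ := hbc
  obtain ⟨Q₃, c₃, x₃, s₃⟩ := hcd
  obtain ⟨Q₄, c₄, x₄, s₄⟩ := hda
  obtain ⟨k, hk⟩ := six_points hLR hlen (arm_side c₁ x₁) (arm_side c₂ x₂) (arm_side c₃ x₃)
    (arm_side c₄ x₄)
  have hI' : Icc (L + k * (2 * π / 3)) (R + k * (2 * π / 3)) ⊆ F K x a ∩ F K x c := by
    rw [← closure_Ioo (by linarith)]
    refine closure_minimal (fun θ hθ => ?_) ((h.isClosed_F x a).inter (h.isClosed_F x c))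
    have h1 := (hper (θ - k * (2 * π / 3)) k).2 (hI ⟨by linarith [hθ.1], by linarith [hθ.2]⟩)
    rw [sub_add_cancel] at h1
    exact ⟨P_subset K x a h1.1, P_subset K x c h1.2⟩
  rcases hk with hk | hk
  · refine h.arm_end hn c₁ c₂ c₃ c₄ x₁ x₂ x₃ x₄ s₁ s₂ s₃ s₄ (θ := L + k * (2 * π / 3))
      (sub_pos.2 hLR) (Or.inr fun θ hθ => hI' ⟨hθ.1, by linarith [hθ.2]⟩)
      (fun h1 => hL2 ((hper L k).1 h1)) (fun h1 => hk ?_) (fun h1 => hk ?_) (fun h1 => hk ?_)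
      fun h1 => hk ?_
    · exact Or.inl (Or.inl (Or.inl ⟨norm_ex _, h1⟩))
    · exact Or.inl (Or.inl (Or.inr ⟨norm_ex _, h1⟩))
    · exact Or.inl (Or.inr ⟨norm_ex _, h1⟩)
    · exact Or.inr ⟨norm_ex _, h1⟩
  · refine h.arm_end hn c₁ c₂ c₃ c₄ x₁ x₂ x₃ x₄ s₁ s₂ s₃ s₄ (θ := R + k * (2 * π / 3))
      (sub_pos.2 hLR) (Or.inl fun θ hθ => hI' ⟨by linarith [hθ.1], hθ.2⟩)
      (fun h1 => hR2 ((hper R k).1 h1)) (fun h1 => hk ?_) (fun h1 => hk ?_) (fun h1 => hk ?_)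
      fun h1 => hk ?_
    · exact Or.inl (Or.inl (Or.inl ⟨norm_ex _, h1⟩))
    · exact Or.inl (Or.inl (Or.inr ⟨norm_ex _, h1⟩))
    · exact Or.inl (Or.inr ⟨norm_ex _, h1⟩)
    · exact Or.inr ⟨norm_ex _, h1⟩

/-- (ARM) -/
theorem Good.arm_forest (h : Good K) (x : ℂ) : Forest (Arm K x) := by
  have htri : ∀ a b c : Fin 5, [a, b, c].Nodup → Arm K x a b → Gam K x b c → Gam K x c a →
      False := fun a b c hn hab hbc hca => by
    obtain ⟨d, e, hn'⟩ := exists_fourth hn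
    exact h.ta hn' (h.tri hn' (arm_gam hab) hbc hca) hab
  by_contra hF
  rcases not_forest_cases (fun _ _ => arm_symm) hF with ⟨a, b, c, hn, hab, hbc, hca⟩ |
    ⟨a, b, c, d, hn, hab, hbc, hcd, hda⟩ | ⟨a, b, c, d, e, hn, hab, hbc, hcd, hde, hea⟩
  · exact htri a b c hn hab (arm_gam hbc) (arm_gam hca)
  · obtain ⟨e, hn'⟩ := exists_fifth hn
    obtain ⟨⟨n1, n2, n3, n4⟩, ⟨n5, n6, n7⟩, ⟨n8, n9⟩, n10⟩ := ne_of_nodup hn'
    by_cases hac : Gam K x a c
    · exact htri a b c (by simp [n1, n2, n5]) hab (arm_gam hbc) (gam_symm hac)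
    by_cases hbd : Gam K x b d
    · exact htri b c d (by simp [n5, n6, n8]) hbc (arm_gam hcd) (gam_symm hbd)
    rcases h.c4_one hn' (arm_gam hab) (arm_gam hbc) (arm_gam hcd) (arm_gam hda) hac hbd with
      h1 | h1
    · exact h.arm_c4 hn' hab hbc hcd hda h1
    · have hn'' : [b, c, d, a, e].Nodup := by
        simp [n1.symm, n2.symm, n3.symm, n4, n5, n6, n7, n8, n9, n10]
      exact h.arm_c4 hn'' hbc hcd hda hab fun θ hθ => h1 θ ⟨hθ.2, hθ.1⟩
  · exact h.no_c5 hn (arm_gam hab) (arm_gam hbc) (arm_gam hcd) (arm_gam hde) (arm_gam hea)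

end Crest.Agent.R40.Loc
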