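import Crest.Agent.R40.MInter

/-! Row 40, part B1: assembly. -/

set_option autoImplicit false
open MeasureTheory Filter Topology
open scoped ComplexConjugate

noncomputable section
namespace Crest.Agent.R40.M

/-- points all of whose neighbourhoods meet `A` in positive measure -/
def MAll_E (A : Set ℂ) : Set ℂ := {x | ∀ r > 0, 0 < volume (A ∩ Metric.ball x r)}

/-- the open part of a colour -/
def MAll_U (A : Set ℂ) : Set ℂ := interior (MAll_E A) \ closure (Nb A)

theorem MAll_open (A : Set ℂ) : IsOpen (MAll_U A) := isOpen_interior.sdiff isClosed_closure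

theorem MAll_avoid {A : Set ℂ} (hA : MeasurableSet A) {x y : ℂ} (hx : x ∈ MAll_U A)
    (hy : y ∈ MAll_U A) : ‖x - y‖ ≠ 1 := by
  intro h
  apply hy.2
  rw [Metric.mem_closure_iff]
  intro r hr
  have h1 : 0 < volume (A ∩ Metric.ball x r) := interior_subset hx.1 r hr
  obtain ⟨w, hw, hd⟩ := Measure.exists_mem_of_measure_ne_zero_of_ae h1.ne'
    (ae_restrict_of_ae (ae_dn hA))
  refine ⟨y + (w - x), ⟨w, hd hw.1, ?_⟩, ?_⟩
  · rw [← h]
    congr 1
    ring
  · rw [dist_self_add_right, ← dist_eq_norm]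
    exact hw.2

theorem MAll_avoid' {A : Set ℂ} (hA : MeasurableSet A) {x y : ℂ} (hx : x ∈ closure (MAll_U A))
    (hy : y ∈ interior (closure (MAll_U A))) : ‖x - y‖ ≠ 1 := by
  intro h
  have hW : IsOpen ((fun z : ℂ => z + (y - x)) ⁻¹' interior (closure (MAll_U A))) :=
    isOpen_interior.preimage (by fun_prop)
  obtain ⟨x₁, hx₁, hx₁'⟩ := mem_closure_iff.1 hx _ hW (by simpa using hy)
  have hV : IsOpen (interior (closure (MAll_U A)) ∩ (fun z : ℂ => z - (y - x)) ⁻¹' MAll_U A) :=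
    isOpen_interior.inter ((MAll_open A).preimage (by fun_prop))
  obtain ⟨y₁, hy₁, hy₁'⟩ := mem_closure_iff.1 (interior_subset hx₁) _ hV
    ⟨hx₁, by simpa using hx₁'⟩
  refine MAll_avoid hA hy₁.2 hy₁' ?_
  rw [← h]
  congr 1
  ring

theorem MAll_zr_of_null {A B : Set ℂ} (hB : IsOpen B) (h0 : volume (A ∩ B) = 0) {y : ℂ}
    (hy : y ∈ B) : Zr A y := by
  intro δ hδ
  obtain ⟨ρ, hρ, hb⟩ := Metric.isOpen_iff.1 hB y hy
  refine ⟨ρ, hρ, fun r _ hr => ?_⟩
  have : volume (A ∩ Metric.closedBall y r) = 0 :=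
    measure_mono_null (Set.inter_subset_inter_right _
      ((Metric.closedBall_subset_ball hr).trans hb)) h0
  rw [Measure.real, this, ENNReal.toReal_zero]
  positivity

theorem MAll_not_zr {A : Fin 5 → Set ℂ} (h0 : volume (⋃ i, A i)ᶜ = 0) {y : ℂ}
    (h : ∀ i, Zr (A i) y) : False := by
  choose ρ hρ hb using fun i => h i (1 / 10) (by norm_num)
  obtain ⟨r, hr, hr'⟩ : ∃ r : ℝ, 0 < r ∧ ∀ i, r < ρ i := by
    have : ∀ᶠ r in 𝓝[>] (0 : ℝ), ∀ i, r < ρ i :=
      eventually_all.2 fun i => nhdsWithin_le_nhds (Iio_mem_nhds (hρ i))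
    obtain ⟨r, h1, h2⟩ := (this.and self_mem_nhdsWithin).exists
    exact ⟨r, h2, h1⟩
  have h1 : volume.real (Metric.closedBall y r) = volume.real (⋃ i, A i ∩ Metric.closedBall y r) := by
    rw [← Set.iUnion_inter]
    refine measureReal_congr ?_
    have : ∀ᵐ x, x ∈ ⋃ i, A i := h0
    filter_upwards [this] with x hx
    exact propext ⟨fun h => ⟨hx, h⟩, fun h => h.2⟩
  have h2 := measureReal_iUnion_fintype_le (μ := volume) fun i => A i ∩ Metric.closedBall y r
  have h3 : ∑ i, volume.real (A i ∩ Metric.closedBall y r) ≤ ∑ _i : Fin 5, 1 / 10 * r ^ 2 :=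
    Finset.sum_le_sum fun i _ => hb i r hr (hr' i)
  have h4 : volume.real (Metric.closedBall y r) = r ^ 2 * Real.pi := by
    rw [Measure.real, Complex.volume_closedBall, ENNReal.toReal_mul, ENNReal.toReal_pow,
      ENNReal.toReal_ofReal hr.le]
    rfl
  simp only [Finset.sum_const, Finset.card_univ, Fintype.card_fin, nsmul_eq_mul] at h3
  have h5 : 0 < r ^ 2 := by positivity
  have h6 := Real.pi_gt_three
  push_cast at h3
  nlinarith

theorem MAll_dense {A : Fin 5 → Set ℂ} (hA : ∀ i, MeasurableSet (A i))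
    (h0 : volume (⋃ i, A i)ᶜ = 0) {S : Set ℂ} (hS : ∀ u : ℂ, ‖u‖ = 1 → u ∈ closure S)
    (h1 : ∀ u ∈ S, ∀ i, volume (A i ∩ {x | x + u ∈ A i}) = 0) : Dense (⋃ i, MAll_U (A i)) := by
  classical
  rw [dense_iff_inter_open]
  intro V hV hne
  let T : Set ℂ → Finset (Fin 5) := fun B => Finset.univ.filter fun i => 0 < volume (A i ∩ B)
  have hT : ∀ B i, i ∈ T B ↔ 0 < volume (A i ∩ B) := fun B i => by simp [T]
  have hex : ∃ n, ∃ B, IsOpen B ∧ B.Nonempty ∧ B ⊆ V ∧ (T B).card = n :=
    ⟨_, V, hV, hne, le_rfl, rfl⟩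
  obtain ⟨B, hB, hBne, hBV, hBn⟩ := Nat.find_spec hex
  have hmin : ∀ B', IsOpen B' → B'.Nonempty → B' ⊆ B → T B' = T B := by
    intro B' h1 h2 h3
    refine Finset.eq_of_subset_of_card_le (fun i hi => ?_) ?_
    · rw [hT] at hi ⊢
      exact hi.trans_le (measure_mono (Set.inter_subset_inter_right _ h3))
    · rw [hBn]
      exact Nat.find_min' hex ⟨B', h1, h2, h3.trans hBV, rfl⟩
  by_contra hcon
  have hcl : ∀ i ∈ T B, B ⊆ closure (Nb (A i)) := by
    intro i hi x hx
    by_contra hx'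
    refine hcon ⟨x, hBV hx, Set.mem_iUnion.2 ⟨i, interior_maximal ?_ hB hx, hx'⟩⟩
    intro z hz r hr
    have := hmin (B ∩ Metric.ball z r) (hB.inter Metric.isOpen_ball)
      ⟨z, hz, Metric.mem_ball_self hr⟩ Set.inter_subset_left
    rw [← this, hT] at hi
    exact hi.trans_le (measure_mono (Set.inter_subset_inter_right _ Set.inter_subset_right))
  obtain ⟨y, hy, htwo⟩ := inter hA hB hBne (T B) hcl
  refine MAll_not_zr h0 (y := y) fun i => ?_
  by_cases hi : i ∈ T B
  · obtain ⟨w, -, hw, -, hw', -⟩ := htwo i hi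
    exact zr_of_nb (hA i) hS (fun u hu => h1 u hu i) ⟨w, hw, hw'⟩
  · rw [hT, not_lt, nonpos_iff_eq_zero] at hi
    exact MAll_zr_of_null hB hi hy

/-- `U i = interior {x | ∀ r > 0, 0 < volume (A i ∩ ball x r)} \ closure (Nb (A i))`,
`K i = closure (U i)`. `⋃ U i` is dense: in a ball take a sub-ball `B'` minimising
`S = {i | 0 < volume (A i ∩ B')}`; if every `Nb (A i)`, `i ∈ S`, were dense in `B'`, `inter` and
`zr_of_nb` give a point of `B'` where all colours have density zero. `U i` is 1-avoiding by `ae_dn`;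
an open translate argument passes to `K i` and its interior. -/
theorem closed_of_meas (h : MeasStmt) : ClosedStmt := by
  obtain ⟨A, hA, h0, S, hS, h1⟩ := h
  refine ⟨fun i => closure (MAll_U (A i)), fun _ => isClosed_closure,
    fun i => closure_mono (interior_maximal subset_closure (MAll_open _)), fun x => ?_,
    fun i x hx y hy => MAll_avoid' (hA i) hx hy⟩
  have := MAll_dense hA h0 hS h1 x
  rw [closure_iUnion_of_finite] at this
  exact Set.mem_iUnion.1 this

end Crest.Agent.R40.M
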