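import Crest.Agent.R40.Defs

/-! Row 40, part B1 (measurable → closed): definitions. -/

set_option autoImplicit false
open MeasureTheory Filter Topology
open scoped ComplexConjugate

noncomputable section
namespace Crest.Agent.R40.M

/-- `x` is a density point of `A` -/
def Dn (A : Set ℂ) (x : ℂ) : Prop :=
  ∀ δ > 0, ∃ ρ > 0, ∀ r : ℝ, 0 < r → r < ρ → volume.real (Metric.closedBall x r \ A) ≤ δ * r ^ 2

/-- `A` has density zero at `x` -/
def Zr (A : Set ℂ) (x : ℂ) : Prop :=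
  ∀ δ > 0, ∃ ρ > 0, ∀ r : ℝ, 0 < r → r < ρ → volume.real (A ∩ Metric.closedBall x r) ≤ δ * r ^ 2

/-- points at distance one from a density point -/
def Nb (A : Set ℂ) : Set ℂ := {y | ∃ w, Dn A w ∧ ‖w - y‖ = 1}

/-- two density points at distance one, in non-parallel directions -/
def Two (A : Set ℂ) (y : ℂ) : Prop :=
  ∃ w w', Dn A w ∧ Dn A w' ∧ ‖w - y‖ = 1 ∧ ‖w' - y‖ = 1 ∧ ((w - y) * conj (w' - y)).im ≠ 0

end Crest.Agent.R40.M
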