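import Crest.Agent.R40.MDefs

/-! Row 40, part B1: density points. -/

set_option autoImplicit false
open MeasureTheory Filter Topology
open scoped ComplexConjugate

noncomputable section
namespace Crest.Agent.R40.M

/-- Lebesgue density theorem (`Besicovitch.ae_tendsto_measure_inter_div_of_measurableSet`) -/
theorem ae_dn {A : Set ℂ} (hA : MeasurableSet A) : ∀ᵐ x, x ∈ A → Dn A x := by
  filter_upwards [Besicovitch.ae_tendsto_measure_inter_div_of_measurableSet volume hA.compl]
    with x hx hxA δ hδ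
  rw [Set.indicator_of_notMem (by simpa using hxA)] at hx
  have hpos : (0 : ENNReal) < ENNReal.ofReal (δ / Real.pi) :=
    ENNReal.ofReal_pos.2 (div_pos hδ Real.pi_pos)
  have h1 := hx.eventually (gt_mem_nhds hpos)
  obtain ⟨ρ, hρ, h2⟩ := (nhdsGT_basis (0 : ℝ)).eventually_iff.1 h1
  refine ⟨ρ, hρ, fun r hr hrρ => ?_⟩
  have h3 := (h2 (x := r) ⟨hr, hrρ⟩).le
  have hvol : volume (Metric.closedBall x r) = ENNReal.ofReal (r ^ 2 * Real.pi) := by
    rw [Complex.volume_closedBall, ENNReal.ofReal_mul (by positivity), ENNReal.ofReal_pow hr.le]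
    congr 1
    exact (ENNReal.ofReal_coe_nnreal (p := NNReal.pi)).symm
  have h4 : volume (Aᶜ ∩ Metric.closedBall x r) ≤ ENNReal.ofReal (δ * r ^ 2) := by
    have hne : volume (Metric.closedBall x r) ≠ 0 := (Metric.measure_closedBall_pos _ _ hr).ne'
    rw [ENNReal.div_le_iff hne measure_closedBall_lt_top.ne, hvol,
      ← ENNReal.ofReal_mul (by positivity)] at h3
    refine h3.trans (le_of_eq ?_)
    congr 1
    field_simp
  have h5 : Metric.closedBall x r \ A = Aᶜ ∩ Metric.closedBall x r := by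
    ext z; simp [and_comm]
  rw [h5]
  exact ENNReal.toReal_le_of_le_ofReal (by positivity) h4

/-- pick `u ∈ S` with `‖(w - y) - u‖ < r`; a.e. `x ∈ A ∩ B(y,r)` has `x + u ∈ B(w,2r) \ A` -/
theorem zr_of_nb {A S : Set ℂ} (hA : MeasurableSet A) (hS : ∀ u : ℂ, ‖u‖ = 1 → u ∈ closure S)
    (h0 : ∀ u ∈ S, volume (A ∩ {x | x + u ∈ A}) = 0) {y : ℂ} (hy : y ∈ Nb A) : Zr A y := by
  obtain ⟨w, hw, hwy⟩ := hy
  intro δ hδ
  obtain ⟨ρ, hρ, h1⟩ := hw (δ / 4) (by positivity)
  refine ⟨ρ / 2, by positivity, fun r hr hrρ => ?_⟩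
  obtain ⟨u, huS, hu⟩ := Metric.mem_closure_iff.1 (hS _ hwy) r hr
  have hsub : A ∩ Metric.closedBall y r ⊆ (A ∩ {x | x + u ∈ A}) ∪
      (fun x => x + u) ⁻¹' (Metric.closedBall w (2 * r) \ A) := by
    rintro x ⟨hxA, hx⟩
    by_cases h : x + u ∈ A
    · exact Or.inl ⟨hxA, h⟩
    · refine Or.inr ⟨?_, h⟩
      rw [Metric.mem_closedBall, dist_eq_norm] at hx ⊢
      rw [dist_eq_norm] at hu
      have : x + u - w = (x - y) - (w - y - u) := by ring
      rw [this]
      linarith [norm_sub_le (x - y) (w - y - u)]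
  have h2 : volume (A ∩ Metric.closedBall y r) ≤ volume (Metric.closedBall w (2 * r) \ A) := by
    refine (measure_mono hsub).trans ((measure_union_le _ _).trans ?_)
    rw [h0 u huS, zero_add, measure_preimage_add_right]
  have h3 := h1 (2 * r) (by positivity) (by linarith)
  have h4 : volume (Metric.closedBall w (2 * r) \ A) ≠ ⊤ :=
    ne_top_of_le_ne_top measure_closedBall_lt_top.ne (measure_mono Set.sdiff_subset)
  calc volume.real (A ∩ Metric.closedBall y r)
      ≤ volume.real (Metric.closedBall w (2 * r) \ A) := ENNReal.toReal_mono h4 h2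
    _ ≤ δ / 4 * (2 * r) ^ 2 := h3
    _ = δ * r ^ 2 := by ring

end Crest.Agent.R40.M
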