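import Crest.Agent.R40.MSweep

/-! Row 40, part B1: all the sets `Nb (A i)` meet. -/

set_option autoImplicit false
open MeasureTheory Filter Topology
open scoped ComplexConjugate

noncomputable section
namespace Crest.Agent.R40.M

/-- the exceptional set of a sweep is small -/
def Sm (A : Set ℂ) (c : ℂ) (t₀ ρ : ℝ) : Prop :=
  volume {t : ℝ | t ∈ Set.Ioo (t₀ - ρ) (t₀ + ρ) ∧ ¬ Two A (c + Complex.exp (t * Complex.I))}
    ≤ ENNReal.ofReal (1 / 5 * ρ)

theorem inter_ev {A : Set ℂ} (hA : MeasurableSet A) {w y : ℂ} (hw : Dn A w) (hwy : ‖w - y‖ = 1)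
    {η : ℝ} (hη : 0 < η) : ∀ᶠ ρ in 𝓝[>] (0 : ℝ), ∀ (c : ℂ) (t₀ : ℝ),
      ‖c + Complex.exp (t₀ * Complex.I) - y‖ ≤ ρ →
      η ≤ |((w - y) * conj (Complex.exp (t₀ * Complex.I))).im| → Sm A c t₀ ρ := by
  obtain ⟨ρ₀, h0, h⟩ := sweep hA hw hwy hη (show (0 : ℝ) < 1 / 5 by norm_num)
  filter_upwards [Ioo_mem_nhdsGT h0] with ρ hρ using h ρ hρ.1 hρ.2

theorem inter_im {d d' e : ℂ} (hd : ‖d‖ = 1) (hd' : ‖d'‖ = 1) (he : ‖e‖ = 1) :
    |(d * conj d').im| ≤ |(d * conj e).im| + |(d' * conj e).im| := by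
  have h1 : d * conj d' = (d * conj e) * conj (d' * conj e) := by
    have : conj e * e = 1 := by rw [Complex.conj_mul', he]; norm_num
    rw [map_mul, Complex.conj_conj]
    linear_combination (-(d * conj d')) * this
  have a1 : |(d * conj e).re| ≤ 1 :=
    (Complex.abs_re_le_norm _).trans (by rw [norm_mul, Complex.norm_conj, hd, he, one_mul])
  have a2 : |(d' * conj e).re| ≤ 1 :=
    (Complex.abs_re_le_norm _).trans (by rw [norm_mul, Complex.norm_conj, hd', he, one_mul])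
  rw [h1]
  generalize d * conj e = a at *
  generalize d' * conj e = b at *
  rw [Complex.mul_im, Complex.conj_re, Complex.conj_im]
  refine (abs_add_le _ _).trans ?_
  rw [abs_mul, abs_mul, abs_neg]
  nlinarith [abs_nonneg a.im, abs_nonneg b.im]

theorem inter_two {A : Set ℂ} (hA : MeasurableSet A) {y : ℂ} (h : Two A y) :
    ∀ᶠ ρ in 𝓝[>] (0 : ℝ), ∀ (c : ℂ) (t₀ : ℝ),
      ‖c + Complex.exp (t₀ * Complex.I) - y‖ ≤ ρ → Sm A c t₀ ρ := by
  obtain ⟨w, w', h1, h2, h3, h4, h5⟩ := h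
  have hη : 0 < |((w - y) * conj (w' - y)).im| / 2 := half_pos (abs_pos.2 h5)
  filter_upwards [inter_ev hA h1 h3 hη, inter_ev hA h2 h4 hη] with ρ a b c t₀ hc
  have := inter_im h3 h4 (Complex.norm_exp_ofReal_mul_I t₀)
  by_cases h : |((w - y) * conj (w' - y)).im| / 2 ≤
      |((w - y) * conj (Complex.exp (t₀ * Complex.I))).im|
  · exact a c t₀ hc h
  · exact b c t₀ hc (by linarith [not_le.1 h])

theorem inter_pick {A : Fin 5 → Set ℂ} (T : Finset (Fin 5)) {c : ℂ} {t₀ ρ : ℝ} (hρ : 0 < ρ)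
    (h : ∀ i ∈ T, Sm (A i) c t₀ ρ) :
    ∃ t : ℝ, ‖c + Complex.exp (t * Complex.I) - (c + Complex.exp (t₀ * Complex.I))‖ < ρ ∧
      ∀ i ∈ T, Two (A i) (c + Complex.exp (t * Complex.I)) := by
  have key : ∃ t ∈ Set.Ioo (t₀ - ρ) (t₀ + ρ), ∀ i ∈ T,
      Two (A i) (c + Complex.exp (t * Complex.I)) := by
    by_contra hc
    push Not at hc
    have h1 : Set.Ioo (t₀ - ρ) (t₀ + ρ) ⊆ ⋃ i ∈ T, {t : ℝ | t ∈ Set.Ioo (t₀ - ρ) (t₀ + ρ) ∧
        ¬ Two (A i) (c + Complex.exp (t * Complex.I))} := by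
      intro t ht
      obtain ⟨i, hi, h'⟩ := hc t ht
      exact Set.mem_biUnion hi ⟨ht, h'⟩
    have h2 := (measure_mono (μ := volume) h1).trans ((measure_biUnion_finset_le T _).trans
      (Finset.sum_le_card_nsmul _ _ _ h))
    have h3 : (T.card : ℝ) ≤ 5 := by exact_mod_cast T.card_le_univ
    rw [Real.volume_Ioo, ← ENNReal.ofReal_nsmul, ENNReal.ofReal_le_ofReal_iff (by positivity),
      nsmul_eq_mul] at h2
    nlinarith
  obtain ⟨t, ht, h'⟩ := key
  refine ⟨t, ?_, h'⟩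
  have e : c + Complex.exp (t * Complex.I) - (c + Complex.exp (t₀ * Complex.I)) =
      Complex.exp (t₀ * Complex.I) * (Complex.exp (Complex.I * (t - t₀ : ℝ)) - 1) := by
    rw [mul_sub, ← Complex.exp_add, mul_one, add_sub_add_left_eq_sub]
    congr 2
    push_cast
    ring
  rw [e, norm_mul, Complex.norm_exp_ofReal_mul_I, one_mul]
  refine Real.norm_exp_I_mul_ofReal_sub_one_le.trans_lt ?_
  rw [Real.norm_eq_abs, abs_lt]
  constructor <;> linarith [ht.1, ht.2]

theorem inter_arg {u : ℂ} (hu : ‖u‖ = 1) : ∃ t : ℝ, Complex.exp (t * Complex.I) = u :=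
  ⟨u.arg, by simpa [hu] using Complex.norm_mul_exp_arg_mul_I u⟩

/-- Induction on `S`. Given `y ∈ B` with `Two (A i) y` for `i ∈ S'`: every unit vector `e` has
`|im (d conj e)| ≥ |im (d conj d')|/2` for one of the two directions `d, d'` of colour `i`. Take
`y' = w_k + e^{it₀} ∈ Nb (A k)` within `ρ` of `y`, `sweep` with `c = w_k`, `θ = 1/5` gives `z` on the
circle about `w_k` with `Two (A i) z` for `i ∈ S'`. Sweep once more from `z` along the circle with
`e^{it₀} = i (w_k - z)`, `c = z - e^{it₀}` to get `Two (A k)` as well. -/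
theorem inter {A : Fin 5 → Set ℂ} (hA : ∀ i, MeasurableSet (A i)) {B : Set ℂ} (hB : IsOpen B)
    (hne : B.Nonempty) (S : Finset (Fin 5)) (hS : ∀ i ∈ S, B ⊆ closure (Nb (A i))) :
    ∃ y ∈ B, ∀ i ∈ S, Two (A i) y := by
  induction S using Finset.induction_on with
  | empty => obtain ⟨y, hy⟩ := hne; exact ⟨y, hy, by simp⟩
  | insert k S hk ih =>
    obtain ⟨y, hy, h⟩ := ih fun i hi => hS i (Finset.mem_insert_of_mem hi)
    obtain ⟨ε, hε, hb⟩ := Metric.isOpen_iff.1 hB y hy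
    obtain ⟨ρ, h1, h2⟩ := (((eventually_all_finset S).2 fun i hi => inter_two (hA i) (h i hi)).and
      (Ioo_mem_nhdsGT (half_pos hε))).exists
    obtain ⟨y', ⟨w, hw, hwy⟩, hd⟩ :=
      Metric.mem_closure_iff.1 (hS k (Finset.mem_insert_self _ _) hy) ρ h2.1
    obtain ⟨t₀, ht₀⟩ := inter_arg (u := y' - w) (by rw [norm_sub_rev, hwy])
    have e1 : w + Complex.exp (t₀ * Complex.I) = y' := by rw [ht₀]; ring
    rw [dist_comm, dist_eq_norm] at hd
    obtain ⟨t, h3, h4⟩ := inter_pick S h2.1 fun i hi => h1 i hi w t₀ (by rw [e1]; exact hd.le)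
    rw [e1] at h3
    have hwz : ‖w - (w + Complex.exp (t * Complex.I))‖ = 1 := by
      rw [sub_add_cancel_left, norm_neg, Complex.norm_exp_ofReal_mul_I]
    generalize w + Complex.exp (t * Complex.I) = z at h3 h4 hwz
    have hz : z ∈ B := by
      refine hb ?_
      rw [Metric.mem_ball, dist_eq_norm]
      linarith [norm_sub_le_norm_sub_add_norm_sub z y' y, h2.2]
    obtain ⟨ε', hε', hb'⟩ := Metric.isOpen_iff.1 hB z hz
    obtain ⟨ρ', ⟨g1, g2⟩, g3⟩ := ((((eventually_all_finset S).2 fun i hi =>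
      inter_two (hA i) (h4 i hi)).and (inter_ev (hA k) hw hwz one_pos)).and
        (Ioo_mem_nhdsGT hε')).exists
    obtain ⟨s₀, hs₀⟩ := inter_arg (u := Complex.I * (w - z))
      (by rw [norm_mul, Complex.norm_I, hwz, one_mul])
    have e2 : z - Complex.exp (s₀ * Complex.I) + Complex.exp (s₀ * Complex.I) = z := by ring
    have e3 : ‖z - Complex.exp (s₀ * Complex.I) + Complex.exp (s₀ * Complex.I) - z‖ ≤ ρ' := by
      rw [e2, sub_self, norm_zero]; exact g3.1.le
    obtain ⟨s, g4, g5⟩ := inter_pick (A := A) (insert k S) (c := z - Complex.exp (s₀ * Complex.I))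
      (t₀ := s₀) g3.1 (by
        intro i hi
        rcases Finset.mem_insert.1 hi with rfl | hi
        · refine g2 _ _ e3 ?_
          have : (w - z) * conj (Complex.I * (w - z)) = -Complex.I := by
            rw [map_mul, Complex.conj_I, mul_left_comm, Complex.mul_conj', hwz]; norm_num
          rw [hs₀, this]; norm_num
        · exact g1 i hi _ _ e3)
    rw [e2] at g4
    refine ⟨_, hb' ?_, g5⟩
    rw [Metric.mem_ball, dist_eq_norm]
    exact g4.trans g3.2

end Crest.Agent.R40.M
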