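import Crest.Agent.R40.MDens

/-! Row 40, part B1: the sweep lemma. -/

set_option autoImplicit false
open MeasureTheory Filter Topology
open scoped ComplexConjugate

noncomputable section
namespace Crest.Agent.R40.M

/-- the point of the unit circle with argument `t` -/
def swE (t : ℝ) : ℂ := Complex.exp (t * Complex.I)

theorem swE_norm (t : ℝ) : ‖swE t‖ = 1 := Complex.norm_exp_ofReal_mul_I t

theorem swE_im (s t : ℝ) : (swE s * conj (swE t)).im = Real.sin (s - t) := by
  simp [swE, Complex.exp_ofReal_mul_I_re, Complex.exp_ofReal_mul_I_im, Real.sin_sub]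
  ring

theorem swE_conj (t : ℝ) : swE t * conj (swE t) = 1 := by
  rw [Complex.mul_conj, Complex.normSq_eq_norm_sq, swE_norm]; simp

theorem swE_lip (s t : ℝ) : ‖swE s - swE t‖ ≤ |s - t| := by
  have e : swE s - swE t = swE t * (Complex.exp (Complex.I * ((s - t : ℝ) : ℂ)) - 1) := by
    rw [mul_sub, swE, swE, ← Complex.exp_add, mul_one]
    congr 2
    push_cast
    ring
  rw [e, norm_mul, swE_norm, one_mul]
  exact Real.norm_exp_I_mul_ofReal_sub_one_le

theorem swE_deriv (t : ℝ) : HasDerivAt swE (swE t * Complex.I) t := by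
  have h := ((hasDerivAt_id (t : ℂ)).mul_const Complex.I).cexp.comp_ofReal
  rw [one_mul] at h
  exact h

theorem swE_cont : Continuous swE := continuous_iff_continuousAt.2 fun t => (swE_deriv t).continuousAt

theorem swE_close {s t : ℝ} (h : |s - t| < 2) (h0 : Real.sin (s - t) = 0) : s = t := by
  have := abs_lt.1 h
  exact sub_eq_zero.1 ((Real.sin_eq_zero_iff_of_lt_of_lt (by linarith [Real.pi_gt_three])
    (by linarith [Real.pi_gt_three])).1 h0)

theorem swE_sin {s t : ℝ} (h : swE s = swE t) : Real.sin (s - t) = 0 := by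
  rw [← swE_im, h, swE_conj]; simp

theorem sweep_inj {s t s' t' : ℝ} (h : swE t + swE s = swE t' + swE s') (h1 : Real.sin (s - t) ≠ 0)
    (h2 : Real.sin (s - t') ≠ 0) : swE s = swE s' ∧ swE t = swE t' := by
  have hc := congrArg conj h
  simp only [map_add] at hc
  have h3 : conj (swE t) + conj (swE s) ≠ 0 := fun e => h1 (by
    rw [← swE_im, eq_neg_of_add_eq_zero_left e, mul_neg, swE_conj]; simp)
  have h4 : swE s * swE t = swE s' * swE t' := by
    refine mul_right_cancel₀ h3 ?_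
    linear_combination swE s * swE_conj t + swE t * swE_conj s - swE s' * swE_conj t' -
      swE t' * swE_conj s' - swE s' * swE t' * hc + h
  have h5 : (swE s - swE s') * (swE s - swE t') = 0 := by linear_combination swE s * h - h4
  have h6 := sub_eq_zero.1 ((mul_eq_zero.1 h5).resolve_right fun e =>
    h2 (swE_sin (sub_eq_zero.1 e)))
  exact ⟨h6, by linear_combination h - h6⟩

theorem sweep_det (a b : ℂ) :
    (Complex.imCLM.smulRight b + Complex.reCLM.smulRight a : ℂ →L[ℝ] ℂ).det =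
      a.re * b.im - b.re * a.im := by
  rw [ContinuousLinearMap.det, ← LinearMap.det_toMatrix Complex.basisOneI, Matrix.det_fin_two]
  simp [LinearMap.toMatrix_apply]

/-- change of variables -/
theorem sweep_cov (c : ℂ) {D : Set (ℝ × ℝ)} (hD : MeasurableSet D) {κ : ℝ}
    (h1 : ∀ p ∈ D, ∀ q ∈ D, κ ≤ |Real.sin (p.1 - q.2)| ∧ |p.1 - q.1| < 2 ∧ |p.2 - q.2| < 2)
    (hκ : 0 < κ) {B : Set ℂ} (hB : ∀ p ∈ D, c + swE p.2 + swE p.1 ∈ B) :
    ENNReal.ofReal κ * volume D ≤ volume B := by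
  set D' := Complex.measurableEquivRealProd ⁻¹' D with hD'
  have mD' : MeasurableSet D' := Complex.measurableEquivRealProd.measurable hD
  have hd : ∀ z : ℂ, HasFDerivAt (fun z : ℂ => c + swE z.im + swE z.re)
      (Complex.imCLM.smulRight (swE z.im * Complex.I) +
        Complex.reCLM.smulRight (swE z.re * Complex.I)) z := fun z => by
    have a := (swE_deriv z.im).hasFDerivAt.comp z Complex.imCLM.hasFDerivAt
    have b := (swE_deriv z.re).hasFDerivAt.comp z Complex.reCLM.hasFDerivAt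
    refine ((a.const_add c).add b).congr_fderiv ?_
    ext w
    simp
  have h2 := lintegral_abs_det_fderiv_le_addHaar_image volume mD'
    (fun z _ => (hd z).hasFDerivWithinAt) fun z hz z' hz' e => by
      obtain ⟨a1, a2, a3⟩ := h1 _ hz _ hz'
      obtain ⟨b1, -, -⟩ := h1 _ hz _ hz
      simp only [Complex.measurableEquivRealProd_apply] at a1 a2 a3 b1
      obtain ⟨e1, e2⟩ := sweep_inj (s := z.re) (t := z.im) (s' := z'.re) (t' := z'.im)
        (by linear_combination e) (abs_pos.1 (hκ.trans_le b1)) (abs_pos.1 (hκ.trans_le a1))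
      exact Complex.ext (swE_close a2 (swE_sin e1)) (swE_close a3 (swE_sin e2))
  rw [← Complex.volume_preserving_equiv_real_prod.measure_preimage hD.nullMeasurableSet,
    ← setLIntegral_const]
  refine le_trans (setLIntegral_mono' mD' fun z hz => ENNReal.ofReal_le_ofReal ?_)
    (h2.trans (measure_mono ?_))
  · refine (h1 _ hz _ hz).1.trans (le_of_eq ?_)
    rw [sweep_det, ← abs_neg, ← swE_im]
    congr 1
    simp
    ring
  · rintro _ ⟨z, hz, rfl⟩
    exact hB _ hz

/-- Write `w = y + e^{i s₀}`. `Ψ(s,t) = c + e^{it} + e^{is}` maps the box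
`(s₀ ± ρ) × (t₀ ± ρ)` injectively into `B(w, 3ρ)` with Jacobian `|sin (s - t)| ≥ η/2`
(`lintegral_abs_det_fderiv_eq_addHaar_image` or `addHaar_image_le…` for the inverse), so the
preimage of `Aᶜ ∪ N'` (`N'` a measurable null set containing `A \ Dn`) has measure `≤ 18 δ ρ²/η`.
If `¬ Two A (c + e^{it})` the slice of `s` with `Dn A (Ψ(s,t))` has at most one point. Fubini. -/
theorem sweep {A : Set ℂ} (hA : MeasurableSet A) {w y : ℂ} (hw : Dn A w) (hwy : ‖w - y‖ = 1)
    {η θ : ℝ} (hη : 0 < η) (hθ : 0 < θ) :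
    ∃ ρ₀ > 0, ∀ ρ : ℝ, 0 < ρ → ρ < ρ₀ → ∀ (c : ℂ) (t₀ : ℝ),
      ‖c + Complex.exp (t₀ * Complex.I) - y‖ ≤ ρ →
      η ≤ |((w - y) * conj (Complex.exp (t₀ * Complex.I))).im| →
      volume {t : ℝ | t ∈ Set.Ioo (t₀ - ρ) (t₀ + ρ) ∧ ¬ Two A (c + Complex.exp (t * Complex.I))}
        ≤ ENNReal.ofReal (θ * ρ) := by
  obtain ⟨ρ₁, hρ₁, hDn⟩ := hw (θ * η / 9) (by positivity)
  obtain ⟨s₀, hs₀⟩ : ∃ s₀, swE s₀ = w - y :=
    ⟨(w - y).arg, by simpa [hwy, swE] using Complex.norm_mul_exp_arg_mul_I (w - y)⟩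
  obtain ⟨N, hN1, hN2, hN3⟩ := exists_measurable_superset_of_null (ae_iff.1 (ae_dn hA))
  refine ⟨min (η / 4) (min (ρ₁ / 3) 1), by positivity, fun ρ hρ hρ0 c t₀ hc hs => ?_⟩
  obtain ⟨r1, r2, r3⟩ : ρ < η / 4 ∧ ρ < ρ₁ / 3 ∧ ρ < 1 := by simpa only [lt_min_iff] using hρ0
  change ‖c + swE t₀ - y‖ ≤ ρ at hc
  change η ≤ |((w - y) * conj (swE t₀)).im| at hs
  rw [← hs₀, swE_im] at hs
  set B : Set ℂ := (Metric.closedBall w (3 * ρ) \ A) ∪ N with hB
  have mB : MeasurableSet B := (measurableSet_closedBall.diff hA).union hN2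
  set D : Set (ℝ × ℝ) := (Set.Ioo (s₀ - ρ) (s₀ + ρ) ×ˢ Set.Ioo (t₀ - ρ) (t₀ + ρ)) ∩
    (fun p => c + swE p.2 + swE p.1) ⁻¹' B with hD
  have cΨ : Continuous fun p : ℝ × ℝ => c + swE p.2 + swE p.1 :=
    (continuous_const.add (swE_cont.comp continuous_snd)).add (swE_cont.comp continuous_fst)
  have mD : MeasurableSet D := (measurableSet_Ioo.prod measurableSet_Ioo).inter (cΨ.measurable mB)
  have h1 := sweep_cov c mD (κ := η / 2) (fun p hp q hq => by
    obtain ⟨⟨⟨p1, p2⟩, p3, p4⟩, -⟩ := hp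
    obtain ⟨⟨⟨q1, q2⟩, q3, q4⟩, -⟩ := hq
    refine ⟨?_, abs_lt.2 ⟨by linarith, by linarith⟩, abs_lt.2 ⟨by linarith, by linarith⟩⟩
    have a := Real.abs_sin_sub_sin_le (s₀ - t₀) (p.1 - q.2)
    have b : |s₀ - t₀ - (p.1 - q.2)| ≤ η / 2 := abs_le.2 ⟨by linarith, by linarith⟩
    linarith [abs_sub_abs_le_abs_sub (Real.sin (s₀ - t₀)) (Real.sin (p.1 - q.2))])
    (by positivity) (B := B) fun p hp => hp.2
  have h2 : volume B ≤ ENNReal.ofReal (θ * η / 9 * (3 * ρ) ^ 2) := by
    refine (measure_union_le _ _).trans ?_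
    rw [hN3, add_zero, ← ofReal_measureReal
      ((measure_mono Set.sdiff_subset).trans_lt measure_closedBall_lt_top).ne]
    exact ENNReal.ofReal_le_ofReal (hDn (3 * ρ) (by positivity) (by linarith))
  have h3 := mul_meas_ge_le_lintegral₀
    (measurable_measure_prodMk_right (μ := volume) mD).aemeasurable (μ := volume)
    (ENNReal.ofReal (2 * ρ))
  rw [← Measure.prod_apply_symm mD, ← Measure.volume_eq_prod] at h3
  have h4 : {t : ℝ | t ∈ Set.Ioo (t₀ - ρ) (t₀ + ρ) ∧ ¬ Two A (c + Complex.exp (t * Complex.I))} ⊆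
      {t | ENNReal.ofReal (2 * ρ) ≤ volume ((fun s => (s, t)) ⁻¹' D)} := by
    rintro t ⟨ht, hT⟩
    change ¬ Two A (c + swE t) at hT
    have a1 : ∀ s ∈ Set.Ioo (s₀ - ρ) (s₀ + ρ) \ (fun s => (s, t)) ⁻¹' D,
        Dn A (c + swE t + swE s) := fun s hs => by
      have hb : c + swE t + swE s ∉ B := fun h => hs.2 ⟨⟨hs.1, ht⟩, h⟩
      by_contra hn
      refine hb ((em (c + swE t + swE s ∈ A)).elim (fun h => Or.inr (hN1 fun h' => hn (h' h)))
        fun h => Or.inl ⟨?_, h⟩)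
      rw [mem_closedBall_iff_norm, show c + swE t + swE s - w =
        c + swE t₀ - y + (swE t - swE t₀) + (swE s - swE s₀) by rw [hs₀]; ring]
      have b1 := (swE_lip t t₀).trans (abs_le.2 ⟨by linarith [ht.1], by linarith [ht.2]⟩ : _ ≤ ρ)
      have b2 := (swE_lip s s₀).trans
        (abs_le.2 ⟨by linarith [hs.1.1], by linarith [hs.1.2]⟩ : _ ≤ ρ)
      exact norm_add₃_le.trans (by linarith)
    have a2 : (Set.Ioo (s₀ - ρ) (s₀ + ρ) \ (fun s => (s, t)) ⁻¹' D).Subsingleton := by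
      intro s hs s' hs'
      by_contra hne
      refine hT ⟨_, _, a1 s hs, a1 s' hs', by simp [swE_norm], by simp [swE_norm], ?_⟩
      rw [add_sub_cancel_left, add_sub_cancel_left, swE_im]
      exact fun e => hne (swE_close (abs_lt.2 ⟨by linarith [hs.1.1, hs'.1.2],
        by linarith [hs.1.2, hs'.1.1]⟩) e)
    have a3 := measure_le_inter_add_sdiff volume (Set.Ioo (s₀ - ρ) (s₀ + ρ))
      ((fun s => (s, t)) ⁻¹' D)
    rw [a2.measure_zero, add_zero, Real.volume_Ioo, show s₀ + ρ - (s₀ - ρ) = 2 * ρ by ring] at a3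
    exact a3.trans (measure_mono Set.inter_subset_right)
  refine (measure_mono h4).trans ?_
  have h5 := (mul_le_mul_right h3 (ENNReal.ofReal (η / 2))).trans (h1.trans h2)
  rw [← mul_assoc, ← ENNReal.ofReal_mul (by positivity), show θ * η / 9 * (3 * ρ) ^ 2 =
    η / 2 * (2 * ρ) * (θ * ρ) by ring, ENNReal.ofReal_mul (q := θ * ρ) (by positivity)] at h5
  exact (ENNReal.mul_le_mul_iff_right (ENNReal.ofReal_pos.2 (by positivity)).ne'
    ENNReal.ofReal_ne_top).1 h5

end Crest.Agent.R40.M
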