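import Crest.Agent.R40.TopA

/-! Row 40, B2/TOP: blobs, robust splitting, triple points. -/

set_option autoImplicit false
open Set Metric

namespace Crest.Agent.R40

/-- A neighbourhood of the compact set `P` whose frontier avoids `Z`. -/
theorem blob {Z P O : Set ℂ} (hZ : IsClosed Z) (hP : IsCompact P) (hO : IsOpen O) (hPO : P ⊆ O)
    (h : ∀ Q, Cont Q → Q ⊆ Z ∩ O → (Q ∩ P).Nonempty → False) :
    ∃ U, IsOpen U ∧ P ⊆ U ∧ closure U ⊆ O ∧ Disjoint (frontier U) Z := by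
  obtain ⟨δ, hδ, hV⟩ := hP.exists_cthickening_subset_open hO hPO
  have hPB : Disjoint P (thickening δ P)ᶜ :=
    disjoint_compl_right_iff_subset.2 (self_subset_thickening hδ P)
  obtain ⟨P', R', hP', hR', hd, hu, hP'B, hR'P⟩ :=
    cut_wire' (Z := Z ∩ cthickening δ P) (hP.cthickening.inter_left hZ) hP.isClosed
      isOpen_thickening.isClosed_compl hPB
      fun Q hQ hQZ hQP _ => h Q hQ (hQZ.trans (inter_subset_inter_right _ hV)) hQP
  obtain ⟨U, hU, h1, h2⟩ := normal_exists_closure_subset (s := P ∪ P')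
    (t := (R' ∪ (thickening δ P)ᶜ)ᶜ) (hP.isClosed.union hP'.isClosed)
    (hR'.isClosed.union isOpen_thickening.isClosed_compl).isOpen_compl
    (subset_compl_iff_disjoint_right.2 (disjoint_union_left.2
      ⟨disjoint_union_right.2 ⟨hR'P.symm, hPB⟩, disjoint_union_right.2 ⟨hd, hP'B⟩⟩))
  have h3 : closure U ⊆ cthickening δ P := fun x hx => thickening_subset_cthickening δ P (by
    by_contra hn
    exact h2 hx (Or.inr hn))
  refine ⟨U, hU, subset_union_left.trans h1, h3.trans hV, disjoint_left.2 fun x hx hxZ => ?_⟩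
  rw [hU.frontier_eq] at hx
  have h4 : x ∈ P' ∪ R' := by rw [hu]; exact ⟨hxZ, h3 hx.1⟩
  rcases h4 with h4 | h4
  · exact hx.2 (h1 (Or.inr h4))
  · exact h2 hx.1 (Or.inl h4)

/-- Robust form of the cut-wire theorem. -/
theorem thick_split {Z A B : Set ℂ} (hZ : IsCompact Z) (hA : IsClosed A) (hB : IsClosed B)
    (hAB : Disjoint A B)
    (h : ∀ Q, Cont Q → Q ⊆ Z → (Q ∩ A).Nonempty → (Q ∩ B).Nonempty → False) :
    ∃ δ : ℝ, 0 < δ ∧ ∃ P R : Set ℂ, IsClosed P ∧ IsClosed R ∧ Disjoint P R ∧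
      thickening δ Z ⊆ P ∪ R ∧ Disjoint P B ∧ Disjoint R A := by
  obtain ⟨P, R, hP, hR, hd, hu, hPB, hRA⟩ := cut_wire' hZ hA hB hAB h
  obtain ⟨δ₁, h1, d1⟩ := hd.exists_cthickenings hP hR.isClosed
  obtain ⟨δ₂, h2, d2⟩ := hPB.exists_cthickenings hP hB
  obtain ⟨δ₃, h3, d3⟩ := hRA.exists_cthickenings hR hA
  refine ⟨min δ₁ (min δ₂ δ₃), by positivity, cthickening (min δ₁ (min δ₂ δ₃)) P,
    cthickening (min δ₁ (min δ₂ δ₃)) R,
    isClosed_cthickening, isClosed_cthickening,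
    d1.mono (cthickening_mono (min_le_left _ _) _) (cthickening_mono (min_le_left _ _) _), ?_,
    d2.mono (cthickening_mono ((min_le_right _ _).trans (min_le_left _ _)) _)
      (self_subset_cthickening _),
    d3.mono (cthickening_mono ((min_le_right _ _).trans (min_le_right _ _)) _)
      (self_subset_cthickening _)⟩
  rw [← hu, ← cthickening_union]
  exact thickening_subset_cthickening _ _

namespace TopA2

theorem trip_eq (K : Fin 5 → Set ℂ) : Trip K = ⋃ t : Fin 5 × Fin 5 × Fin 5,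
    {_x : ℂ | t.1 ≠ t.2.1 ∧ t.1 ≠ t.2.2 ∧ t.2.1 ≠ t.2.2} ∩ (K t.1 ∩ K t.2.1 ∩ K t.2.2) := by
  ext x
  constructor
  · rintro ⟨i, j, k, h1, h2, h3, h4, h5, h6⟩
    exact mem_iUnion.2 ⟨(i, j, k), ⟨h1, h2, h3⟩, ⟨h4, h5⟩, h6⟩
  · intro h
    obtain ⟨⟨i, j, k⟩, ⟨h1, h2, h3⟩, ⟨h4, h5⟩, h6⟩ := mem_iUnion.1 h
    exact ⟨i, j, k, h1, h2, h3, h4, h5, h6⟩

theorem closed {K : Fin 5 → Set ℂ} (hc : ∀ i, IsClosed (K i)) (t : Fin 5 × Fin 5 × Fin 5) :
    IsClosed ({_x : ℂ | t.1 ≠ t.2.1 ∧ t.1 ≠ t.2.2 ∧ t.2.1 ≠ t.2.2} ∩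
      (K t.1 ∩ K t.2.1 ∩ K t.2.2)) :=
  isClosed_const.inter (((hc _).inter (hc _)).inter (hc _))

end TopA2

theorem isClosed_trip {K : Fin 5 → Set ℂ} (hc : ∀ i, IsClosed (K i)) : IsClosed (Trip K) := by
  rw [TopA2.trip_eq]
  exact isClosed_iUnion_of_finite (TopA2.closed hc)

/-- No continuum in a triple intersection: none in the set of triple points. -/
theorem trip_no_cont {K : Fin 5 → Set ℂ} (hc : ∀ i, IsClosed (K i))
    (hNT : ∀ i j k, i ≠ j → i ≠ k → j ≠ k → ∀ Q, Cont Q → ¬ Q ⊆ K i ∩ K j ∩ K k) :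
    ∀ Q, Cont Q → ¬ Q ⊆ Trip K := by
  intro Q hQ h
  rw [TopA2.trip_eq] at h
  obtain ⟨⟨i, j, k⟩, Q', hQ', h'⟩ := cont_union hQ _ (TopA2.closed hc) h
  obtain ⟨x, hx⟩ := hQ'.2.2.nonempty
  obtain ⟨h1, h2, h3⟩ := (h' hx).2.1
  exact hNT i j k h1 h2 h3 Q' hQ' fun y hy => (h' hy).2.2

end Crest.Agent.R40
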