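import Crest.Agent.R40.TopG

/-! Row 40, B2/TOP: extension of closed covers with a forest as nerve; graphs with a cycle. -/

set_option autoImplicit false
open Set Metric

namespace Crest.Agent.R40

namespace TopC

/-- Splitting a closed set `Z` along two closed sets `P`, `Q`. -/
theorem split {Z P Q : Set ℂ} (hZ : IsClosed Z) (hP : IsClosed P) (hQ : IsClosed Q) :
    ∃ Z₁ Z₂ : Set ℂ, IsClosed Z₁ ∧ IsClosed Z₂ ∧ Z₁ ⊆ Z ∧ Z₂ ⊆ Z ∧ Z ⊆ Z₁ ∪ Z₂ ∧
      Z ∩ P ⊆ Z₁ ∧ Z ∩ Q ⊆ Z₂ ∧ Z₁ ∩ Q ⊆ P ∧ Z₂ ∩ P ⊆ Q := by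
  refine ⟨Z ∩ {y | infEDist y P ≤ infEDist y Q}, Z ∩ {y | infEDist y Q ≤ infEDist y P},
    hZ.inter (isClosed_le continuous_infEDist continuous_infEDist),
    hZ.inter (isClosed_le continuous_infEDist continuous_infEDist), inter_subset_left,
    inter_subset_left, fun y hy => ?_, fun y hy => ⟨hy.1, ?_⟩, fun y hy => ⟨hy.1, ?_⟩,
    fun y hy => ?_, fun y hy => ?_⟩
  · rcases le_total (infEDist y P) (infEDist y Q) with h | h
    · exact Or.inl ⟨hy, h⟩
    · exact Or.inr ⟨hy, h⟩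
  · show infEDist y P ≤ infEDist y Q
    rw [infEDist_zero_of_mem hy.2]
    exact zero_le
  · show infEDist y Q ≤ infEDist y P
    rw [infEDist_zero_of_mem hy.2]
    exact zero_le
  · have h : infEDist y P ≤ infEDist y Q := hy.1.2
    rw [infEDist_zero_of_mem hy.2] at h
    exact (mem_iff_infEDist_zero_of_closed hP).2 (le_antisymm h zero_le)
  · have h : infEDist y Q ≤ infEDist y P := hy.1.2
    rw [infEDist_zero_of_mem hy.2] at h
    exact (mem_iff_infEDist_zero_of_closed hQ).2 (le_antisymm h zero_le)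

theorem extend_n {G : Fin 5 → Fin 5 → Prop} (hG : Forest G) {X A : Set ℂ} (hX : IsClosed X)
    (hAX : A ⊆ X) (n : ℕ) : ∀ (S : Finset (Fin 5)) (_ : S.card = n + 1) (F : Fin 5 → Set ℂ)
    (_ : ∀ i, IsClosed (F i)) (_ : ∀ i, F i ⊆ A) (_ : ∀ i, i ∉ S → F i = ∅)
    (_ : A ⊆ ⋃ i, F i) (_ : ∀ i j, i ≠ j → (F i ∩ F j).Nonempty → G i j),
    ∃ F' : Fin 5 → Set ℂ, (∀ i, IsClosed (F' i)) ∧ (∀ i, F' i ⊆ X) ∧ (∀ i, i ∉ S → F' i = ∅) ∧
      X ⊆ ⋃ i, F' i ∧ (∀ i, F' i ∩ A = F i) ∧ Trip F' = ∅ := by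
  classical
  induction n with
  | zero =>
    intro S hS F hF hFA h0 hcov hn
    obtain ⟨p, rfl⟩ := Finset.card_eq_one.1 hS
    refine ⟨fun i => if i = p then X else ∅, fun i => ?_, fun i => ?_, fun i hi => ?_,
      fun x hx => mem_iUnion.2 ⟨p, by simpa using hx⟩, fun i => ?_, ?_⟩
    · dsimp only
      split_ifs
      · exact hX
      · exact isClosed_empty
    · dsimp only
      split_ifs
      · exact Subset.rfl
      · exact empty_subset _
    · exact if_neg (by simpa using hi)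
    · dsimp only
      split_ifs with hi
      · subst hi
        refine Subset.antisymm (fun x hx => ?_) fun x hx => ⟨hAX (hFA _ hx), hFA _ hx⟩
        obtain ⟨j, hj⟩ := mem_iUnion.1 (hcov hx.2)
        by_cases hji : j = i
        · exact hji ▸ hj
        · rw [h0 j (by simpa using hji)] at hj
          exact hj.elim
      · rw [empty_inter, h0 i (by simpa using hi)]
    · refine eq_empty_of_forall_notMem ?_
      rintro x ⟨i, j, k, hij, -, -, hi, hj, -⟩
      by_cases hip : i = p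
      · have hjp : j ≠ p := fun h => hij (hip.trans h.symm)
        simp only [if_neg hjp] at hj
        exact hj
      · simp only [if_neg hip] at hi
        exact hi
  | succ n ih =>
    intro S hS F hF hFA h0 hcov hn
    obtain ⟨l, hl, p', hp'⟩ := hG S (Finset.card_pos.1 (by omega))
    have hc : (S.erase l).card = n + 1 := by rw [Finset.card_erase_of_mem hl]; omega
    obtain ⟨p, hp, hlp⟩ : ∃ p ∈ S.erase l, ∀ j ∈ S, j ≠ l → G l j → j = p := by
      by_cases h : p' ∈ S.erase l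
      · exact ⟨p', h, hp'⟩
      · obtain ⟨p, hp⟩ := Finset.card_pos.1 (show 0 < (S.erase l).card by omega)
        exact ⟨p, hp, fun j hj hjl hg =>
          (h (hp' j hj hjl hg ▸ Finset.mem_erase.2 ⟨hjl, hj⟩)).elim⟩
    have hpl : p ≠ l := (Finset.mem_erase.1 hp).1
    have hdis : ∀ j, j ≠ l → j ≠ p → ∀ x, x ∈ F l → x ∉ F j := fun j hjl hjp x hx hx' => by
      by_cases hj : j ∈ S
      · exact hjp (hlp j hj hjl (hn l j hjl.symm ⟨x, hx, hx'⟩))
      · rw [h0 j hj] at hx'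
        exact hx'
    obtain ⟨F₁, h1p, h1l, h1o⟩ : ∃ F₁ : Fin 5 → Set ℂ, F₁ p = F p ∪ F l ∧ F₁ l = ∅ ∧
        ∀ j, j ≠ l → j ≠ p → F₁ j = F j :=
      ⟨fun i => if i = p then F p ∪ F l else if i = l then ∅ else F i, if_pos rfl,
        by simp only [if_neg hpl.symm, if_true], fun j hjl hjp => by
          simp only [if_neg hjl, if_neg hjp]⟩
    have tri : ∀ i : Fin 5, i = l ∨ i = p ∨ (i ≠ l ∧ i ≠ p) := fun i => by tauto
    obtain ⟨F₂, hc2, hX2, h02, hcov2, hA2, hT2⟩ := ih (S.erase l) hc F₁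
      (fun i => by
        rcases tri i with rfl | rfl | ⟨hil, hip⟩
        · rw [h1l]; exact isClosed_empty
        · rw [h1p]; exact (hF _).union (hF _)
        · rw [h1o i hil hip]; exact hF i)
      (fun i => by
        rcases tri i with rfl | rfl | ⟨hil, hip⟩
        · rw [h1l]; exact empty_subset _
        · rw [h1p]; exact union_subset (hFA _) (hFA _)
        · rw [h1o i hil hip]; exact hFA i)
      (fun i hi => by
        rcases tri i with rfl | rfl | ⟨hil, hip⟩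
        · exact h1l
        · exact (hi hp).elim
        · rw [h1o i hil hip]
          exact h0 i fun h => hi (Finset.mem_erase.2 ⟨hil, h⟩))
      (fun x hx => by
        obtain ⟨i, hi⟩ := mem_iUnion.1 (hcov hx)
        rcases tri i with rfl | rfl | ⟨hil, hip⟩
        · exact mem_iUnion.2 ⟨p, h1p ▸ Or.inr hi⟩
        · exact mem_iUnion.2 ⟨i, h1p ▸ Or.inl hi⟩
        · exact mem_iUnion.2 ⟨i, (h1o i hil hip).symm ▸ hi⟩)
      (fun i j hij ⟨x, hi, hj⟩ => by
        rcases tri i with rfl | rfl | ⟨hil, hip⟩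
        · rw [h1l] at hi; exact hi.elim
        · rcases tri j with rfl | rfl | ⟨hjl, hjp⟩
          · rw [h1l] at hj; exact hj.elim
          · exact (hij rfl).elim
          · rw [h1p] at hi
            rw [h1o j hjl hjp] at hj
            exact hn i j hij ⟨x, hi.resolve_right fun h => hdis j hjl hjp x h hj, hj⟩
        · rw [h1o i hil hip] at hi
          rcases tri j with rfl | rfl | ⟨hjl, hjp⟩
          · rw [h1l] at hj; exact hj.elim
          · rw [h1p] at hj
            exact hn i j hij ⟨x, hi, hj.resolve_right fun h => hdis i hil hip x h hi⟩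
          · rw [h1o j hjl hjp] at hj
            exact hn i j hij ⟨x, hi, hj⟩)
    have h2l : F₂ l = ∅ := h02 l (Finset.notMem_erase l S)
    set W : Set ℂ := ⋃ j : {j : Fin 5 // j ≠ p}, F₂ j with hW
    have hWc : IsClosed W := isClosed_iUnion_of_finite fun j => hc2 j
    have hWl : ∀ x, x ∈ F l → x ∉ W := fun x hx hxW => by
      obtain ⟨⟨j, hjp⟩, hj⟩ := mem_iUnion.1 hxW
      by_cases hjl : j = l
      · subst hjl
        rw [h2l] at hj
        exact hj
      · have : x ∈ F₁ j := hA2 j ▸ ⟨hj, hFA _ hx⟩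
        rw [h1o j hjl hjp] at this
        exact hdis j hjl hjp x hx this
    obtain ⟨Z₁, Z₂, c1, c2, s1, s2, su, i1, i2, j1, j2⟩ :=
      split (hc2 p) (hF l) ((hF p).union hWc)
    obtain ⟨F', hl', hp', ho'⟩ : ∃ F' : Fin 5 → Set ℂ, F' l = Z₁ ∧ F' p = Z₂ ∧
        ∀ j, j ≠ l → j ≠ p → F' j = F₂ j :=
      ⟨fun i => if i = p then Z₂ else if i = l then Z₁ else F₂ i,
        by simp only [if_neg hpl.symm, if_true], if_pos rfl, fun j hjl hjp => by
          simp only [if_neg hjl, if_neg hjp]⟩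
    have hAp : F₂ p ∩ A = F p ∪ F l := (hA2 p).trans h1p
    have hsub : ∀ i, i ≠ l → F' i ⊆ F₂ i := fun i hil => by
      by_cases hip : i = p
      · subst hip
        rw [hp']
        exact s2
      · rw [ho' i hil hip]
    have hmiss : ∀ m, m ≠ l → m ≠ p → ∀ x, x ∈ F' l → x ∉ F' m := fun m hml hmp x hx hx' => by
      have hxW : x ∈ W := mem_iUnion.2 ⟨⟨m, hmp⟩, hsub m hml hx'⟩
      rw [hl'] at hx
      exact hWl x (j1 ⟨hx, Or.inr hxW⟩) hxW
    have hnot : ∀ j k, j ≠ l → k ≠ l → j ≠ k → ∀ x, x ∈ F' l → x ∈ F' j → x ∉ F' k :=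
      fun j k hjl hkl hjk x hx hj hk => by
        by_cases hjp : j = p
        · exact hmiss k hkl (fun h => hjk (hjp.trans h.symm)) x hx hk
        · exact hmiss j hjl hjp x hx hj
    refine ⟨F', fun i => ?_, fun i => ?_, fun i hi => ?_, fun x hx => ?_, fun i => ?_, ?_⟩
    · rcases tri i with rfl | rfl | ⟨hil, hip⟩
      · rw [hl']; exact c1
      · rw [hp']; exact c2
      · rw [ho' i hil hip]; exact hc2 i
    · rcases tri i with rfl | rfl | ⟨hil, hip⟩
      · rw [hl']; exact s1.trans (hX2 p)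
      · rw [hp']; exact s2.trans (hX2 i)
      · rw [ho' i hil hip]; exact hX2 i
    · rcases tri i with rfl | rfl | ⟨hil, hip⟩
      · exact (hi hl).elim
      · exact (hi (Finset.mem_erase.1 hp).2).elim
      · rw [ho' i hil hip]
        exact h02 i fun h => hi (Finset.mem_erase.1 h).2
    · obtain ⟨i, hi⟩ := mem_iUnion.1 (hcov2 hx)
      rcases tri i with rfl | rfl | ⟨hil, hip⟩
      · rw [h2l] at hi; exact hi.elim
      · rcases su hi with h | h
        · exact mem_iUnion.2 ⟨l, hl' ▸ h⟩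
        · exact mem_iUnion.2 ⟨i, hp' ▸ h⟩
      · exact mem_iUnion.2 ⟨i, (ho' i hil hip).symm ▸ hi⟩
    · rcases tri i with rfl | rfl | ⟨hil, hip⟩
      · rw [hl']
        refine Subset.antisymm (fun x hx => ?_) fun x hx => ⟨i1 ⟨?_, hx⟩, hFA _ hx⟩
        · have h : x ∈ F p ∪ F i := hAp ▸ ⟨s1 hx.1, hx.2⟩
          exact h.elim (fun h => j1 ⟨hx.1, Or.inl h⟩) id
        · have h : x ∈ F₂ p ∩ A := hAp ▸ Or.inr hx
          exact h.1
      · rw [hp']
        refine Subset.antisymm (fun x hx => ?_) fun x hx => ⟨i2 ⟨?_, Or.inl hx⟩, hFA _ hx⟩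
        · have h : x ∈ F i ∪ F l := hAp ▸ ⟨s2 hx.1, hx.2⟩
          exact h.elim id fun h => (j2 ⟨hx.1, h⟩).resolve_right (hWl x h)
        · have h : x ∈ F₂ i ∩ A := hAp ▸ Or.inl hx
          exact h.1
      · rw [ho' i hil hip, hA2 i, h1o i hil hip]
    · refine eq_empty_of_forall_notMem ?_
      rintro x ⟨i, j, k, hij, hik, hjk, hi, hj, hk⟩
      by_cases hil : i = l
      · subst hil
        exact hnot j k hij.symm hik.symm hjk x hi hj hk
      by_cases hjl : j = l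
      · subst hjl
        exact hnot i k hij hjk.symm hik x hj hi hk
      by_cases hkl : k = l
      · subst hkl
        exact hnot i j hik hjk hij x hk hi hj
      have : x ∈ Trip F₂ := ⟨i, j, k, hij, hik, hjk, hsub i hil hi, hsub j hjl hj, hsub k hkl hk⟩
      rw [hT2] at this
      exact this

end TopC

/-- Extension lemma, for a set `S` of colours. -/
theorem extend_aux {G : Fin 5 → Fin 5 → Prop} (hG : Forest G) {X A : Set ℂ} (hX : IsClosed X)
    (hAX : A ⊆ X) (S : Finset (Fin 5)) (hS : S.Nonempty) (F : Fin 5 → Set ℂ)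
    (hF : ∀ i, IsClosed (F i)) (hFA : ∀ i, F i ⊆ A) (h0 : ∀ i, i ∉ S → F i = ∅)
    (hcov : A ⊆ ⋃ i, F i) (hn : ∀ i j, i ≠ j → (F i ∩ F j).Nonempty → G i j) :
    ∃ F' : Fin 5 → Set ℂ, (∀ i, IsClosed (F' i)) ∧ (∀ i, F' i ⊆ X) ∧ (∀ i, i ∉ S → F' i = ∅) ∧
      X ⊆ ⋃ i, F' i ∧ (∀ i, F' i ∩ A = F i) ∧ Trip F' = ∅ :=
  TopC.extend_n hG hX hAX (S.card - 1) S (by have := Finset.card_pos.2 hS; omega) F hF hFA h0
    hcov hn

/-- Recolouring of the open set `U` when the nerve on its frontier is a forest. -/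
theorem recolour {G : Fin 5 → Fin 5 → Prop} (hG : Forest G) {S U : Set ℂ} (hS : IsClosed S)
    (hU : IsOpen U) (K : Fin 5 → Set ℂ) (hc : ∀ i, IsClosed (K i)) (hKS : ∀ i, K i ⊆ S)
    (hcov : S ⊆ ⋃ i, K i)
    (hn : ∀ i j, i ≠ j → (K i ∩ K j ∩ frontier U).Nonempty → G i j) :
    ∃ K' : Fin 5 → Set ℂ, (∀ i, IsClosed (K' i)) ∧ (∀ i, K' i ⊆ S) ∧ S ⊆ ⋃ i, K' i ∧
      (∀ i, K' i \ U = K i \ U) ∧ Trip K' ⊆ Trip K \ closure U := by
  obtain ⟨F', hc', hX', -, hcov', hA', hT'⟩ := extend_aux hG (X := closure U ∩ S)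
    (A := frontier U ∩ S) (isClosed_closure.inter hS)
    (inter_subset_inter_left _ frontier_subset_closure) Finset.univ Finset.univ_nonempty
    (fun i => K i ∩ frontier U) (fun i => (hc i).inter isClosed_frontier)
    (fun i x hx => ⟨hx.2, hKS i hx.1⟩) (fun i hi => (hi (Finset.mem_univ i)).elim)
    (fun x hx => by
      obtain ⟨i, hi⟩ := mem_iUnion.1 (hcov hx.2)
      exact mem_iUnion.2 ⟨i, hi, hx.1⟩)
    (fun i j hij ⟨x, hi, hj⟩ => hn i j hij ⟨x, ⟨hi.1, hj.1⟩, hi.2⟩)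
  have hfr : ∀ x, x ∈ closure U → x ∉ U → x ∈ frontier U := fun x h1 h2 => by
    rw [hU.frontier_eq]
    exact ⟨h1, h2⟩
  refine ⟨fun i => (K i \ U) ∪ F' i, fun i => ((hc i).inter hU.isClosed_compl).union (hc' i),
    fun i => union_subset (fun x hx => hKS i hx.1) fun x hx => (hX' i hx).2, fun x hx => ?_,
    fun i => Subset.antisymm (fun x hx => ?_) fun x hx => ⟨Or.inl hx, hx.2⟩, ?_⟩
  · by_cases hxU : x ∈ U
    · obtain ⟨i, hi⟩ := mem_iUnion.1 (hcov' ⟨subset_closure hxU, hx⟩)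
      exact mem_iUnion.2 ⟨i, Or.inr hi⟩
    · obtain ⟨i, hi⟩ := mem_iUnion.1 (hcov hx)
      exact mem_iUnion.2 ⟨i, Or.inl ⟨hi, hxU⟩⟩
  · rcases hx.1 with h | h
    · exact h
    · have h1 : x ∈ K i ∩ frontier U :=
        hA' i ▸ ⟨h, hfr x (hX' i h).1 hx.2, (hX' i h).2⟩
      exact ⟨h1.1, hx.2⟩
  · rintro x ⟨i, j, k, hij, hik, hjk, hi, hj, hk⟩
    by_cases hx : x ∈ closure U
    · have key : ∀ m, x ∈ (K m \ U) ∪ F' m → x ∈ F' m := fun m hm => hm.elim (fun h => by
        have h1 : x ∈ F' m ∩ (frontier U ∩ S) := (hA' m).symm ▸ ⟨h.1, hfr x hx h.2⟩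
        exact h1.1) id
      have : x ∈ Trip F' := ⟨i, j, k, hij, hik, hjk, key i hi, key j hj, key k hk⟩
      rw [hT'] at this
      exact this.elim
    · have key : ∀ m, x ∈ (K m \ U) ∪ F' m → x ∈ K m := fun m hm =>
        hm.elim (fun h => h.1) fun h => (hx (hX' m h).1).elim
      exact ⟨⟨i, j, k, hij, hik, hjk, key i hi, key j hj, key k hk⟩, hx⟩

end Crest.Agent.R40
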