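import Crest.Agent.R40.TopA2
import Crest.Agent.R40.TopC

/-! Row 40, B2/TOP: removing the triple points off the exceptional set. -/

set_option autoImplicit false
open Set Metric

namespace Crest.Agent.R40

/-- Recolour around `T'`, which is covered by finitely many open sets on each of which the pairs
with a continuum form a forest. -/
theorem stage1_ind {S : Set ℂ} (hS : IsClosed S) {ε : ℝ} (hε : 0 < ε) {T'' : Set ℂ}
    (hT'' : IsClosed T'') (n : ℕ) (K : Fin 5 → Set ℂ) (hc : ∀ i, IsClosed (K i))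
    (hKS : ∀ i, K i ⊆ S) (hcov : S ⊆ ⋃ i, K i) (T' : Set ℂ) (hT' : IsCompact T')
    (hd : Disjoint T' T'') (hT : Trip K ⊆ T' ∪ T'') (hno : ∀ Q, Cont Q → ¬ Q ⊆ T')
    (W : Fin n → Set ℂ) (hW : ∀ k, IsOpen (W k)) (hTW : T' ⊆ ⋃ k, W k)
    (hloc : ∀ k, Forest fun i j => ∃ Q, Cont Q ∧ Q ⊆ K i ∩ K j ∩ W k) :
    ∃ K' : Fin 5 → Set ℂ, (∀ i, IsClosed (K' i)) ∧ (∀ i, K' i ⊆ S) ∧ S ⊆ ⋃ i, K' i ∧
      Trip K' ⊆ T'' ∧ ∀ i, K' i ⊆ K i ∪ thickening ε T' := by
  induction n generalizing K T' with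
  | zero =>
    obtain rfl : T' = ∅ := by simpa using hTW
    exact ⟨K, hc, hKS, hcov, by simpa using hT, fun _ => subset_union_left⟩
  | succ n ih =>
    have hV : IsOpen (⋃ k : Fin n, W k.castSucc) := isOpen_iUnion fun k => hW _
    obtain ⟨P, R, hP, hR, hPR, rfl, hPW, hRV⟩ := cut_wire' hT' (hT'.diff hV).isClosed
      (hW (Fin.last n)).isClosed_compl (disjoint_left.2 fun x hx h => by
        obtain ⟨k, hk⟩ := mem_iUnion.1 (hTW hx.1)
        induction k using Fin.lastCases with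
        | last => exact h hk
        | cast k => exact hx.2 (mem_iUnion.2 ⟨k, hk⟩))
      fun Q hQ h _ _ => hno Q hQ h
    set G : Fin 5 → Fin 5 → Prop := fun i j => ∃ Q, Cont Q ∧ Q ⊆ K i ∩ K j ∩ W (Fin.last n)
    obtain ⟨U, hU, hPU, hUO, hUZ⟩ := blob
      (Z := ⋃ p : {p : Fin 5 × Fin 5 // ¬ G p.1 p.2}, K p.1.1 ∩ K p.1.2)
      (O := (W (Fin.last n) ∩ thickening ε P) \ (R ∪ T''))
      (isClosed_iUnion_of_finite fun p => (hc _).inter (hc _)) hP
      (((hW _).inter isOpen_thickening).sdiff (hR.isClosed.union hT''))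
      (fun x hx => ⟨⟨not_not.1 (disjoint_left.1 hPW hx), self_subset_thickening hε _ hx⟩,
        fun h => h.elim (disjoint_left.1 hPR hx) (disjoint_left.1 hd (.inl hx))⟩)
      fun Q hQ h _ => by
        obtain ⟨p, Q', hQ', h'⟩ := cont_union hQ _ (fun p => (hc _).inter (hc _))
          (h.trans inter_subset_left)
        exact p.2 ⟨Q', hQ', fun x hx => ⟨(h' hx).2, (h (h' hx).1).2.1.1⟩⟩
    obtain ⟨K₁, h1, h2, h3, h4, h5⟩ := recolour (hloc (Fin.last n)) hS hU K hc hKS hcov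
      fun i j _ ⟨x, hx⟩ => by_contra fun h =>
        disjoint_left.1 hUZ hx.2 (mem_iUnion.2 ⟨⟨(i, j), h⟩, hx.1⟩)
    have h6 : ∀ i, ∀ x ∈ K₁ i, x ∉ U → x ∈ K i := fun i x hx h =>
      ((h4 i).subset ⟨hx, h⟩).1
    obtain ⟨K', e1, e2, e3, e4, e5⟩ := ih K₁ h1 h2 h3 R hR (hd.mono_left subset_union_right)
      (fun x hx => (hT (h5 hx).1).imp_left fun h => h.resolve_left
        fun h' => (h5 hx).2 (subset_closure (hPU h')))
      (fun Q hQ h => hno Q hQ (h.trans subset_union_right))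
      (fun k => W k.castSucc \ closure U) (fun k => (hW _).sdiff isClosed_closure)
      (fun x hx => by
        obtain ⟨k, hk⟩ := mem_iUnion.1 (by_contra fun h => disjoint_left.1 hRV hx ⟨.inr hx, h⟩ :
          x ∈ ⋃ k : Fin n, W k.castSucc)
        exact mem_iUnion.2 ⟨k, hk, fun h => (hUO h).2 (.inl hx)⟩)
      fun k => (hloc k.castSucc).mono fun i j _ ⟨Q, hQ, h⟩ => ⟨Q, hQ, fun x hx =>
        have hx' : x ∉ U := fun h' => (h hx).2.2 (subset_closure h')
        ⟨⟨h6 i x (h hx).1.1 hx', h6 j x (h hx).1.2 hx'⟩, (h hx).2.1⟩⟩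
    refine ⟨K', e1, e2, e3, e4, fun i x hx => (e5 i hx).elim (fun h => ?_) fun h =>
      .inr (thickening_subset_of_subset _ subset_union_right h)⟩
    by_cases hU' : x ∈ U
    · exact .inr (thickening_subset_of_subset _ subset_union_left (hUO (subset_closure hU')).1.2)
    · exact .inl (h6 i x h hU')

/-- Stage 1: all triple points are pushed into small balls around the finite set `D`. -/
theorem stage1 {S : Set ℂ} (hS : IsCompact S) (K : Fin 5 → Set ℂ) (hc : ∀ i, IsClosed (K i))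
    (hKS : ∀ i, K i ⊆ S) (hcov : S ⊆ ⋃ i, K i) (hno : ∀ Q, Cont Q → ¬ Q ⊆ Trip K)
    (D : Finset ℂ) (hD : ∀ x ∈ Trip K, x ∉ D → Forest (Gam K x)) {η : ℝ} (hη : 0 < η) :
    ∃ K' : Fin 5 → Set ℂ, (∀ i, IsClosed (K' i)) ∧ (∀ i, K' i ⊆ S) ∧ S ⊆ ⋃ i, K' i ∧
      Trip K' ⊆ ⋃ x ∈ D, ball x η ∧ ∀ i, K' i ⊆ K i ∪ thickening η (Trip K) := by
  have hT : IsCompact (Trip K) := hS.of_isClosed_subset (isClosed_trip hc)
    fun x ⟨i, _, _, _, _, _, h, _⟩ => hKS i h
  obtain ⟨P, R, hP, hR, hPR, e, hPB, hRD⟩ := cut_wire' hT D.finite_toSet.isClosed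
    (isOpen_biUnion (s := (D : Set ℂ)) fun x _ => isOpen_ball (x := x) (ε := η)).isClosed_compl
    (disjoint_left.2 fun x hx h => h (mem_biUnion hx (mem_ball_self hη)))
    fun Q hQ h _ _ => hno Q hQ h
  have hRT : R ⊆ Trip K := e ▸ subset_union_right
  have hr : ∀ y : ℂ, ∃ r : ℝ, (∀ i j, (∃ Q, Cont Q ∧ Q ⊆ K i ∩ K j ∩ ball y r) → Gam K y i j) ∧
      0 < r := fun y => by
    refine (Filter.Eventually.and (f := nhdsWithin 0 (Ioi 0)) (Filter.eventually_all.2 fun i =>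
      Filter.eventually_all.2 fun j => ?_) self_mem_nhdsWithin).exists
    by_cases h : Gam K y i j
    · exact .of_forall fun _ _ => h
    · obtain ⟨r, hr⟩ := not_forall.1 h
      obtain ⟨hr0, hr⟩ := Classical.not_imp.1 hr
      filter_upwards [Ioo_mem_nhdsGT hr0] with s hs ⟨Q, hQ, hQ'⟩
      exact (hr ⟨Q, hQ, hQ'.trans (inter_subset_inter_right _ (ball_subset_ball hs.2.le))⟩).elim
  choose r hr hr0 using hr
  obtain ⟨t, ht, hcv⟩ := hR.elim_nhds_subcover (fun y => ball y (r y))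
    fun y _ => ball_mem_nhds y (hr0 y)
  obtain ⟨K', e1, e2, e3, e4, e5⟩ := stage1_ind hS.isClosed hη hP.isClosed t.card K hc hKS hcov R hR
    hPR.symm (e ▸ (union_comm _ _).subset) (fun Q hQ h => hno Q hQ (h.trans hRT))
    (fun k => ball (t.equivFin.symm k).1 (r (t.equivFin.symm k).1)) (fun _ => isOpen_ball)
    (fun x hx => by
      obtain ⟨y, hy, h⟩ := mem_iUnion₂.1 (hcv hx)
      exact mem_iUnion.2 ⟨t.equivFin ⟨y, hy⟩, by simpa using h⟩)
    fun k => (hD _ (hRT (ht _ (t.equivFin.symm k).2))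
      (disjoint_left.1 hRD (ht _ (t.equivFin.symm k).2))).mono fun i j _ => hr _ i j
  exact ⟨K', e1, e2, e3, fun x hx => not_not.1 (disjoint_left.1 hPB (e4 hx)), fun i =>
    (e5 i).trans (union_subset_union_right _ (thickening_subset_of_subset _ hRT))⟩

end Crest.Agent.R40
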