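import Crest.Agent.R40.Defs

/-! Row 40, part B2: shared definitions (continua, the graphs `Γ_x`, `Γ'_x`, forests). -/

set_option autoImplicit false

namespace Crest.Agent.R40

/-- A nondegenerate continuum in the plane. -/
def Cont (Q : Set ℂ) : Prop := IsCompact Q ∧ IsPreconnected Q ∧ Q.Nontrivial

/-- `ij ∈ Γ_x`: nondegenerate continua of `K i ∩ K j` arbitrarily near `x`. -/
def Gam (K : Fin 5 → Set ℂ) (x : ℂ) (i j : Fin 5) : Prop :=
  ∀ ε : ℝ, 0 < ε → ∃ Q, Cont Q ∧ Q ⊆ K i ∩ K j ∩ Metric.ball x ε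

/-- `ij ∈ Γ'_x`: a nondegenerate continuum of `K i ∩ K j` contains `x` (an arm). -/
def Arm (K : Fin 5 → Set ℂ) (x : ℂ) (i j : Fin 5) : Prop :=
  ∃ Q, Cont Q ∧ x ∈ Q ∧ Q ⊆ K i ∩ K j

/-- The graph `G` on five vertices (loops ignored) has no cycle: every nonempty set of vertices
has a member with at most one neighbour inside the set. -/
def Forest (G : Fin 5 → Fin 5 → Prop) : Prop :=
  ∀ S : Finset (Fin 5), S.Nonempty → ∃ l ∈ S, ∃ p, ∀ j ∈ S, j ≠ l → G l j → j = p

/-- The points lying in three different sets. -/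
def Trip (K : Fin 5 → Set ℂ) : Set ℂ :=
  {x | ∃ i j k : Fin 5, i ≠ j ∧ i ≠ k ∧ j ≠ k ∧ x ∈ K i ∧ x ∈ K j ∧ x ∈ K k}

/-- The square `[0,3]²`. -/
def Sq : Set ℂ := {z | 0 ≤ z.re ∧ z.re ≤ 3 ∧ 0 ≤ z.im ∧ z.im ≤ 3}

theorem topDefs_anchor : True := by
  have := @Cont.eq_1
  have := @Cont.eq_def
  have := @Cont.eq_unfold
  have := @Cont.congr_simp
  have := @Gam.eq_1
  have := @Gam.eq_def
  have := @Gam.eq_unfold
  have := @Gam.congr_simp
  have := @Arm.eq_1
  have := @Arm.eq_def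
  have := @Arm.eq_unfold
  have := @Arm.congr_simp
  have := @Forest.eq_1
  have := @Forest.eq_def
  have := @Forest.eq_unfold
  have := @Forest.congr_simp
  have := @Trip.eq_1
  have := @Trip.eq_def
  have := @Trip.eq_unfold
  have := @Trip.congr_simp
  have := @Sq.eq_1
  have := @Sq.eq_def
  have := @Sq.eq_unfold
  trivial

end Crest.Agent.R40
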